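import Vale.Agent.P176.Exactness

/-!
Dévissage of complexes and the growth of projective dimensions.
-/

namespace Vale.Agent.P176

open CategoryTheory Abelian

set_option linter.unusedSimpArgs false
set_option linter.unusedSectionVars false

variable {k : Type} [Field k] {m : ℕ}

namespace GCx

variable (G : GCx k m)

/-- Cycles in a position. -/
def cy (a : Fin (m + 1)) : Submodule (Lam k) G.X where
  carrier := {x | G.pr a x = x ∧ G.d x = 0}
  add_mem' := fun {x y} hx hy => by
    exact ⟨by rw [map_add, hx.1, hy.1], by rw [map_add, hx.2, hy.2, add_zero]⟩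
  zero_mem' := ⟨map_zero _, map_zero _⟩
  smul_mem' := fun c x hx => ⟨by rw [map_smul, hx.1], by rw [map_smul, hx.2, smul_zero]⟩

theorem mem_cy {a : Fin (m + 1)} {x : G.X} : x ∈ G.cy a ↔ G.pr a x = x ∧ G.d x = 0 := Iff.rfl

/-- Vanishing homology in a position. -/
def ZeroH (a : Fin (m + 1)) : Prop := ∀ x ∈ G.cy a, ∃ y, G.d y = x

/-- Homology in a position identified with a given module. -/
def IsoH (a : Fin (m + 1)) (U : Type) [AddCommGroup U] [Module (Lam k) U] : Prop :=
  ∃ g : G.cy a →ₗ[Lam k] U, Function.Surjective g ∧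
    ∀ x : G.cy a, g x = 0 ↔ ∃ y, G.d y = x.1

theorem zeroH_of_isoH {a : Fin (m + 1)} {U : Type} [AddCommGroup U] [Module (Lam k) U]
    [Subsingleton U] (h : G.IsoH a U) : G.ZeroH a := by
  obtain ⟨g, -, hg⟩ := h
  exact fun x hx => (hg ⟨x, hx⟩).1 (Subsingleton.elim _ _)

/-- Vanishing below a position. -/
def LowZero (j : ℕ) : Prop := ∀ a : Fin (m + 1), (a : ℕ) < j → ∀ x, G.pr a x = 0

variable {G}

theorem pr_low_d {j : Fin (m + 1)} (h : G.LowZero j) (x : G.X) : G.pr j (G.d x) = 0 := by
  cases j using Fin.cases with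
  | zero => exact G.pr_zero_d x
  | succ c => rw [← G.pr_d c x, h c.castSucc (by simp), map_zero]

theorem pr_d_pr' (a j : Fin (m + 1)) (x : G.X) :
    G.pr a (G.d (G.pr j x)) = G.d (G.pr j x) ∨ G.pr a (G.d (G.pr j x)) = 0 := by
  cases j using Fin.lastCases with
  | last => right; rw [G.d_last, map_zero]
  | cast c =>
    rw [G.pr_d_pr]
    split_ifs with h
    · exact Or.inl rfl
    · exact Or.inr rfl

/-- An invariant submodule. -/
structure Inv (G : GCx k m) (S : Submodule (Lam k) G.X) : Prop where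
  pr : ∀ a, ∀ x ∈ S, G.pr a x ∈ S
  d : ∀ x ∈ S, G.d x ∈ S

/-- A subcomplex. -/
@[reducible]
def sub (G : GCx k m) (S : Submodule (Lam k) G.X) (hS : Inv G S) : GCx k m where
  X := S
  pr a := (G.pr a).restrict (hS.pr a)
  d := G.d.restrict hS.d
  pr_pr a b x := Subtype.ext (by
    show G.pr a (G.pr b x.1) = _
    rw [G.pr_pr]; split_ifs <;> rfl)
  pr_sum x := Subtype.ext (by
    rw [AddSubmonoidClass.coe_finsetSum]; exact G.pr_sum x.1)
  pr_d a x := Subtype.ext (G.pr_d a x.1)
  pr_zero_d x := Subtype.ext (G.pr_zero_d x.1)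
  d_last x := Subtype.ext (G.d_last x.1)
  d_d x := Subtype.ext (G.d_d x.1)

/-- A quotient complex. -/
@[reducible]
def quot (G : GCx k m) (S : Submodule (Lam k) G.X) (hS : Inv G S) : GCx k m where
  X := G.X ⧸ S
  pr a := S.mapQ S (G.pr a) (hS.pr a)
  d := S.mapQ S G.d hS.d
  pr_pr a b x := by
    induction x using Submodule.Quotient.induction_on with
    | _ x =>
      simp only [Submodule.mapQ_apply, G.pr_pr]
      split_ifs <;> simp
  pr_sum x := by
    induction x using Submodule.Quotient.induction_on with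
    | _ x =>
      simp only [Submodule.mapQ_apply]
      conv_rhs => rw [← G.pr_sum x]
      exact (map_sum S.mkQ _ _).symm
  pr_d a x := by
    induction x using Submodule.Quotient.induction_on with
    | _ x => simp only [Submodule.mapQ_apply, G.pr_d]
  pr_zero_d x := by
    induction x using Submodule.Quotient.induction_on with
    | _ x => simp [Submodule.mapQ_apply, G.pr_zero_d]
  d_last x := by
    induction x using Submodule.Quotient.induction_on with
    | _ x => simp [Submodule.mapQ_apply, G.d_last]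
  d_d x := by
    induction x using Submodule.Quotient.induction_on with
    | _ x => simp [Submodule.mapQ_apply, G.d_d]

variable (C : MCx k m)

/-- The inclusion of a subcomplex. -/
def subIncl (G : GCx k m) (S : Submodule (Lam k) G.X) (hS : Inv G S) :
    (G.sub S hS).Mod C →ₗ[Alg C] G.Mod C :=
  lift C (G := G.sub S hS) (G' := G) S.subtype (fun _ _ => rfl) (fun _ => rfl)

/-- The projection to a quotient complex. -/
def quotProj (G : GCx k m) (S : Submodule (Lam k) G.X) (hS : Inv G S) :
    G.Mod C →ₗ[Alg C] (G.quot S hS).Mod C :=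
  lift C (G := G) (G' := G.quot S hS) S.mkQ (fun _ _ => rfl) (fun _ => rfl)

theorem sub_quot_exact (G : GCx k m) (S : Submodule (Lam k) G.X) (hS : Inv G S) :
    Function.Exact (subIncl C G S hS) (quotProj C G S hS) := by
  intro x
  constructor
  · intro hx
    exact ⟨⟨x, (Submodule.Quotient.mk_eq_zero S).1 hx⟩, rfl⟩
  · rintro ⟨y, h⟩
    rw [← h]
    exact (Submodule.Quotient.mk_eq_zero S).2 y.2

theorem shortExact_sub_quot (G : GCx k m) (S : Submodule (Lam k) G.X) (hS : Inv G S) :
    (scMk _ _ (sub_quot_exact C G S hS)).ShortExact :=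
  scMk_shortExact _ _ _ (fun _ _ h => Subtype.ext h) (Submodule.mkQ_surjective S)

/-- The part generated by a lowest position. -/
def bottom (G : GCx k m) (j : Fin (m + 1)) : Submodule (Lam k) G.X :=
  LinearMap.range (G.pr j) ⊔ LinearMap.range (G.d ∘ₗ G.pr j)

theorem mem_bottom {j : Fin (m + 1)} {x : G.X} :
    x ∈ G.bottom j ↔ ∃ u v, G.pr j u + G.d (G.pr j v) = x := by
  rw [bottom, Submodule.mem_sup]
  constructor
  · rintro ⟨_, ⟨u, rfl⟩, _, ⟨v, rfl⟩, h⟩
    exact ⟨u, v, h⟩
  · rintro ⟨u, v, h⟩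
    exact ⟨_, ⟨u, rfl⟩, _, ⟨v, rfl⟩, h⟩

theorem bottom_inv (j : Fin (m + 1)) : Inv G (G.bottom j) where
  pr a x hx := by
    obtain ⟨u, v, rfl⟩ := mem_bottom.1 hx
    rw [map_add]
    refine Submodule.add_mem _ ?_ ?_
    · rw [G.pr_pr]
      split_ifs
      · exact Submodule.mem_sup_left ⟨u, rfl⟩
      · exact Submodule.zero_mem _
    · rcases pr_d_pr' a j v with h | h <;> rw [h]
      · exact Submodule.mem_sup_right ⟨v, rfl⟩
      · exact Submodule.zero_mem _
  d x hx := by
    obtain ⟨u, v, rfl⟩ := mem_bottom.1 hx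
    rw [map_add, G.d_d, add_zero]
    exact Submodule.mem_sup_right ⟨u, rfl⟩

theorem bottom_pr_high {j a : Fin (m + 1)} (hja : (j : ℕ) < a) {x : G.X}
    (hx : x ∈ G.bottom j) : ∃ v, G.pr a x = G.d v := by
  obtain ⟨u, v, rfl⟩ := mem_bottom.1 hx
  rw [map_add, G.pr_pr, if_neg (by intro h; rw [h] at hja; omega), zero_add]
  rcases pr_d_pr' a j v with h | h
  · exact ⟨G.pr j v, h⟩
  · exact ⟨0, h.trans (map_zero _).symm⟩

theorem bottom_pr_far {j a : Fin (m + 1)} (hja : (j : ℕ) + 1 < a) {x : G.X}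
    (hx : x ∈ G.bottom j) : G.pr a x = 0 := by
  obtain ⟨u, v, rfl⟩ := mem_bottom.1 hx
  rw [map_add, G.pr_pr, if_neg (by intro h; rw [h] at hja; omega), zero_add]
  cases j using Fin.lastCases with
  | last => rw [G.d_last, map_zero]
  | cast c => rw [G.pr_d_pr, if_neg (by intro h; rw [h] at hja; simp at hja)]

theorem lowZero_quot {j : Fin (m + 1)} (h : G.LowZero j) :
    (G.quot (G.bottom j) (bottom_inv j)).LowZero ((j : ℕ) + 1) := by
  intro a ha x
  induction x using Submodule.Quotient.induction_on with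
  | _ x =>
    rw [Submodule.mapQ_apply, Submodule.Quotient.mk_eq_zero]
    rcases Nat.lt_or_ge (a : ℕ) j with hlt | hge
    · rw [h a hlt]; exact Submodule.zero_mem _
    · obtain rfl : a = j := Fin.ext (by omega)
      exact Submodule.mem_sup_left ⟨x, rfl⟩

theorem lift_cycle {j a : Fin (m + 1)} (hja : (j : ℕ) < a) (x : G.X)
    (h1 : Submodule.Quotient.mk (p := G.bottom j) (G.pr a x) = Submodule.Quotient.mk x)
    (h2 : G.d x ∈ G.bottom j) :
    G.pr a x ∈ G.cy a ∧
      Submodule.Quotient.mk (p := G.bottom j) (G.pr a x) = Submodule.Quotient.mk x := by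
  refine ⟨⟨by rw [G.pr_pr, if_pos rfl], ?_⟩, h1⟩
  cases a using Fin.lastCases with
  | last => exact G.d_last x
  | cast c => rw [G.pr_d]; exact bottom_pr_far (by simp at hja ⊢; omega) h2

theorem zeroH_quot {j a : Fin (m + 1)} (hja : (j : ℕ) < a) (h : G.ZeroH a) :
    (G.quot (G.bottom j) (bottom_inv j)).ZeroH a := by
  intro x hx
  induction x using Submodule.Quotient.induction_on with
  | _ x =>
    obtain ⟨h1, h2⟩ := hx
    rw [Submodule.mapQ_apply] at h1 h2
    obtain ⟨hc, he⟩ := lift_cycle hja x h1 ((Submodule.Quotient.mk_eq_zero _).1 h2)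
    obtain ⟨y, hy⟩ := h _ hc
    exact ⟨Submodule.Quotient.mk y, by rw [Submodule.mapQ_apply, hy, he]⟩

theorem isoH_quot {j a : Fin (m + 1)} (hja : (j : ℕ) < a) {U : Type} [AddCommGroup U]
    [Module (Lam k) U] (h : G.IsoH a U) :
    (G.quot (G.bottom j) (bottom_inv j)).IsoH a U := by
  obtain ⟨g, hg, hker⟩ := h
  let Q := G.quot (G.bottom j) (bottom_inv j)
  have hlift : ∀ q : Q.cy a, ∃ x : G.cy a, Submodule.Quotient.mk (p := G.bottom j) x.1 = q.1 := by
    rintro ⟨q, hq⟩
    induction q using Submodule.Quotient.induction_on with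
    | _ x =>
      obtain ⟨h1, h2⟩ := hq
      rw [Submodule.mapQ_apply] at h1 h2
      obtain ⟨hc, he⟩ := lift_cycle hja x h1 ((Submodule.Quotient.mk_eq_zero _).1 h2)
      exact ⟨⟨_, hc⟩, he⟩
  choose l hl using hlift
  have hwd : ∀ x y : G.cy a, Submodule.Quotient.mk (p := G.bottom j) x.1
      = Submodule.Quotient.mk y.1 → g x = g y := by
    intro x y hxy
    rw [← sub_eq_zero, ← map_sub]
    refine (hker _).2 ?_
    obtain ⟨v, hv⟩ := bottom_pr_high hja ((Submodule.Quotient.eq _).1 hxy)
    refine ⟨v, hv.symm.trans ?_⟩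
    show G.pr a (x.1 - y.1) = x.1 - y.1
    rw [map_sub, x.2.1, y.2.1]
  refine ⟨{ toFun := fun q => g (l q)
            map_add' := fun p q => by
              rw [← map_add]; apply hwd
              rw [hl]
              show p.1 + q.1 = Submodule.Quotient.mk ((l p).1 + (l q).1)
              rw [Submodule.Quotient.mk_add, hl, hl]
            map_smul' := fun c q => by
              rw [RingHom.id_apply, ← map_smul]; apply hwd
              rw [hl]
              show c • q.1 = Submodule.Quotient.mk (c • (l q).1)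
              rw [Submodule.Quotient.mk_smul, hl] }, ?_, ?_⟩
  · intro u
    obtain ⟨x, rfl⟩ := hg u
    refine ⟨⟨Submodule.Quotient.mk x.1, ?_, ?_⟩, hwd _ _ (hl _)⟩
    · rw [Submodule.mapQ_apply, x.2.1]
    · rw [Submodule.mapQ_apply, x.2.2]; rfl
  · intro q
    constructor
    · intro h0
      obtain ⟨y, hy⟩ := (hker (l q)).1 h0
      exact ⟨Submodule.Quotient.mk y, by rw [Submodule.mapQ_apply, hy, hl]⟩
    · rintro ⟨y, hy⟩
      induction y using Submodule.Quotient.induction_on with
      | _ y =>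
        rw [Submodule.mapQ_apply, ← hl q, Submodule.Quotient.eq] at hy
        obtain ⟨v, hv⟩ := bottom_pr_high hja hy
        rw [map_sub, (l q).2.1] at hv
        refine (hker (l q)).2 ?_
        cases a using Fin.cases with
        | zero => simp at hja
        | succ c =>
          rw [← G.pr_d] at hv
          exact ⟨G.pr c.castSucc y - v, by rw [map_sub, ← hv, sub_sub_cancel]⟩

/-- Cycles into the bottom part. -/
def cyIncl {j : Fin (m + 1)} (_h : G.LowZero j) :
    (GCx.single j (G.cy j)).Mod C →ₗ[Alg C] (G.sub (G.bottom j) (bottom_inv j)).Mod C :=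
  lift C (G := GCx.single j (G.cy j)) (G' := G.sub (G.bottom j) (bottom_inv j))
    (LinearMap.codRestrict (G.bottom j) (G.cy j).subtype
      (fun x => Submodule.mem_sup_left ⟨x.1, x.2.1⟩))
    (fun a x => Subtype.ext (by
      show (if a = j then x else 0 : G.cy j).1 = G.pr a x.1
      conv_rhs => rw [← x.2.1, G.pr_pr]
      split_ifs
      · exact x.2.1.symm
      · rfl))
    (fun x => Subtype.ext x.2.2.symm)

theorem cyIncl_apply {j : Fin (m + 1)} (h : G.LowZero j) (x : G.cy j) :
    (cyIncl C h x).1 = x.1 := rfl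

theorem cyIncl_injective {j : Fin (m + 1)} (h : G.LowZero j) :
    Function.Injective (cyIncl C h) := fun x y hxy =>
  Subtype.ext (congrArg (fun r : (G.sub (G.bottom j) (bottom_inv j)).X => r.1) hxy)

theorem cy_eq_zero {j : Fin (m + 1)} (h : G.LowZero j) {x : G.X} (hx : x ∈ G.cy j)
    (hy : ∃ y, G.d y = x) : x = 0 := by
  obtain ⟨y, rfl⟩ := hy
  rw [← hx.1]; exact pr_low_d h y

section pairs

variable {c : Fin m}

theorem bottom_eq (h : G.LowZero c.castSucc) {x : G.X} (hx : x ∈ G.bottom c.castSucc) :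
    x = G.pr c.castSucc x + G.pr c.succ x ∧
      ∃ v, G.pr c.succ x = G.d (G.pr c.castSucc v) := by
  obtain ⟨u, v, rfl⟩ := mem_bottom.1 hx
  have hne : c.succ ≠ c.castSucc := (Fin.castSucc_lt_succ).ne'
  have h1 : G.pr c.castSucc (G.pr c.castSucc u + G.d (G.pr c.castSucc v))
      = G.pr c.castSucc u := by
    rw [map_add, G.pr_pr, if_pos rfl, pr_low_d h, add_zero]
  have h2 : G.pr c.succ (G.pr c.castSucc u + G.d (G.pr c.castSucc v))
      = G.d (G.pr c.castSucc v) := by
    rw [map_add, G.pr_pr, if_neg hne, G.pr_d_pr, if_pos rfl, zero_add]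
  exact ⟨by rw [h1, h2], v, h2⟩

/-- The differential part of the bottom. -/
def top (G : GCx k m) (c : Fin m) : Submodule (Lam k) G.X :=
  LinearMap.range (G.d ∘ₗ G.pr c.castSucc)

/-- The bottom part onto a pair. -/
def bottomToPair (h : G.LowZero c.castSucc) :
    (G.sub (G.bottom c.castSucc) (bottom_inv _)).Mod C →ₗ[Alg C]
      (GCx.pair c (G.top c)).Mod C :=
  lift C (G := G.sub (G.bottom c.castSucc) (bottom_inv _)) (G' := GCx.pair c (G.top c))
    { toFun := fun r => (⟨G.d (G.pr c.castSucc r.1), ⟨r.1, rfl⟩⟩, ⟨G.pr c.succ r.1, by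
        obtain ⟨v, hv⟩ := (bottom_eq h r.2).2
        exact ⟨v, hv.symm⟩⟩)
      map_add' := fun r r' => by
        refine Prod.ext (Subtype.ext ?_) (Subtype.ext ?_) <;> simp
      map_smul' := fun a r => by
        refine Prod.ext (Subtype.ext ?_) (Subtype.ext ?_) <;> simp }
    (fun a r => by
      refine Prod.ext (Subtype.ext ?_) (Subtype.ext ?_)
      · show G.d (G.pr c.castSucc (G.pr a r.1)) = (if a = c.castSucc then _ else 0 : G.top c).1
        by_cases ha : a = c.castSucc
        · subst ha; rw [G.pr_pr, if_pos rfl, if_pos rfl]; rfl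
        · rw [G.pr_pr, if_neg (Ne.symm ha), if_neg ha, map_zero]; rfl
      · show G.pr c.succ (G.pr a r.1) = (if a = c.succ then _ else 0 : G.top c).1
        by_cases ha : a = c.succ
        · subst ha; rw [G.pr_pr, if_pos rfl, if_pos rfl]; rfl
        · rw [G.pr_pr, if_neg (Ne.symm ha), if_neg ha]; rfl)
    (fun r => by
      refine Prod.ext (Subtype.ext ?_) (Subtype.ext ?_)
      · show G.d (G.pr c.castSucc (G.d r.1)) = 0
        rw [pr_low_d h, map_zero]
      · show G.pr c.succ (G.d r.1) = G.d (G.pr c.castSucc r.1)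
        rw [G.pr_d])

theorem bottomToPair_surjective (h : G.LowZero c.castSucc) :
    Function.Surjective (bottomToPair C h) := by
  rintro ⟨⟨_, u, rfl⟩, ⟨_, v, rfl⟩⟩
  refine ⟨⟨G.pr c.castSucc u + G.d (G.pr c.castSucc v), mem_bottom.2 ⟨u, v, rfl⟩⟩, ?_⟩
  refine Prod.ext (Subtype.ext ?_) (Subtype.ext ?_)
  · show G.d (G.pr c.castSucc (G.pr c.castSucc u + G.d (G.pr c.castSucc v))) = _
    rw [map_add, G.pr_pr, if_pos rfl, pr_low_d h, add_zero]; rfl
  · show G.pr c.succ (G.pr c.castSucc u + G.d (G.pr c.castSucc v)) = _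
    rw [map_add, G.pr_pr, if_neg (Fin.castSucc_lt_succ).ne', G.pr_d_pr, if_pos rfl, zero_add]
    rfl

theorem cy_bottom_exact (h : G.LowZero c.castSucc) :
    Function.Exact (cyIncl C h) (bottomToPair C h) := by
  intro r
  constructor
  · intro hr
    have h1 : G.d (G.pr c.castSucc r.1) = 0 :=
      congrArg (fun q : (GCx.pair c (G.top c)).X => q.1.1) hr
    have h2 : G.pr c.succ r.1 = 0 :=
      congrArg (fun q : (GCx.pair c (G.top c)).X => q.2.1) hr
    have h3 : r.1 = G.pr c.castSucc r.1 := by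
      conv_lhs => rw [(bottom_eq h r.2).1, h2, add_zero]
    exact ⟨⟨r.1, h3.symm, by rw [h3, h1]⟩, Subtype.ext rfl⟩
  · rintro ⟨x, hx⟩
    rw [← hx]
    refine Prod.ext (Subtype.ext ?_) (Subtype.ext ?_)
    · show G.d (G.pr c.castSucc x.1) = 0
      rw [x.2.1, x.2.2]
    · show G.pr c.succ x.1 = 0
      rw [← x.2.1, G.pr_pr, if_neg (Fin.castSucc_lt_succ).ne']

end pairs

theorem bottom_of (j : Fin (m + 1)) (h : G.LowZero j) [Module.Finite (Lam k) G.X] :
    (NullW (W C) ((GCx.single j (G.cy j)).mc C) →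
      NullW (W C) ((G.sub (G.bottom j) (bottom_inv j)).mc C)) ∧
    ∀ s, GoodW (W C) s ((GCx.single j (G.cy j)).mc C) →
      GoodW (W C) s ((G.sub (G.bottom j) (bottom_inv j)).mc C) := by
  cases j using Fin.lastCases with
  | last =>
    have hb : Function.Bijective (cyIncl C h) := by
      refine ⟨cyIncl_injective C h, fun r => ?_⟩
      obtain ⟨u, v, huv⟩ := mem_bottom.1 r.2
      rw [G.d_last, add_zero] at huv
      refine ⟨⟨r.1, ?_, ?_⟩, Subtype.ext rfl⟩
      · rw [← huv, G.pr_pr, if_pos rfl]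
      · rw [← huv, G.d_last]
    let i := (LinearEquiv.ofBijective (cyIncl C h) hb).toModuleIso
    exact ⟨fun hn => nullW_of_iso i hn, fun s hs => goodW_of_iso i hs⟩
  | cast c =>
    have hS := scMk_shortExact _ _ (cy_bottom_exact C h) (cyIncl_injective C h)
      (bottomToPair_surjective C h)
    have hp := nullW_pair C c (G.top c)
    exact ⟨fun hn => nullW_mid hS hn hp, fun s hs => goodW_mid_of_null_right hS hs hp⟩

theorem nullW_of_subsingleton (X : ModuleCat.{0} (Alg C)) [Subsingleton X] :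
    NullW (W C) X := by
  have hz : Limits.IsZero X := ModuleCat.isZero_of_subsingleton X
  refine ⟨⟨0, hz.hasProjectiveDimensionLT_zero⟩, fun j e => ?_⟩
  have := hz.hasProjectiveDimensionLT_zero
  exact e.eq_zero_of_hasProjectiveDimensionLT 0 (Nat.zero_le j)

theorem nullW_bottom {j : Fin (m + 1)} (h : G.LowZero j) [Module.Finite (Lam k) G.X]
    (hz : G.ZeroH j) : NullW (W C) ((G.sub (G.bottom j) (bottom_inv j)).mc C) := by
  refine (bottom_of C j h).1 ?_
  have : Subsingleton ((GCx.single j (G.cy j)).Mod C) :=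
    ⟨fun (x y : G.cy j) => Subtype.ext
      ((cy_eq_zero h x.2 (hz _ x.2)).trans (cy_eq_zero h y.2 (hz _ y.2)).symm)⟩
  exact nullW_of_subsingleton C _

theorem goodW_bottom {j : Fin (m + 1)} (h : G.LowZero j) [Module.Finite (Lam k) G.X]
    {U : Type} [AddCommGroup U] [Module (Lam k) U] (hU : G.IsoH j U) {s : ℕ}
    (hs : GoodW (W C) s ((GCx.single j U).mc C)) :
    GoodW (W C) s ((G.sub (G.bottom j) (bottom_inv j)).mc C) := by
  refine (bottom_of C j h).2 s ?_
  obtain ⟨g, hg, hker⟩ := hU
  let f : (GCx.single j (G.cy j)).Mod C →ₗ[Alg C] (GCx.single j U).Mod C :=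
    lift C (G := GCx.single j (G.cy j)) (G' := GCx.single j U) g
      (fun a x => by
        show g (if a = j then x else 0) = if a = j then g x else 0
        split_ifs <;> simp)
      (fun x => by
        show g 0 = 0
        exact map_zero g)
  have hb : Function.Bijective f := by
    refine ⟨(injective_iff_map_eq_zero f).2 fun x hx => ?_, hg⟩
    exact Subtype.ext (cy_eq_zero h (show G.cy j from x).2 ((hker x).1 hx))
  exact goodW_of_iso (LinearEquiv.ofBijective f hb).toModuleIso.symm hs

theorem nullW_of_acyclic : ∀ (r : ℕ) (G : GCx k m) [Module.Finite (Lam k) G.X] (j : ℕ),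
    j + r = m + 1 → G.LowZero j → (∀ a : Fin (m + 1), j ≤ (a : ℕ) → G.ZeroH a) →
    NullW (W C) (G.mc C) := by
  intro r
  induction r with
  | zero =>
    intro G _ j hj hlow _
    have : Subsingleton (G.Mod C) := ⟨fun (x y : G.X) => by
      rw [← G.pr_sum x, ← G.pr_sum y]
      exact Finset.sum_congr rfl fun a _ => by
        rw [hlow a (by omega) x, hlow a (by omega) y]⟩
    exact nullW_of_subsingleton C _
  | succ r ih =>
    intro G _ j hj hlow hz
    let jj : Fin (m + 1) := ⟨j, by omega⟩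
    have h : G.LowZero (jj : ℕ) := hlow
    exact nullW_mid (shortExact_sub_quot C G _ (bottom_inv jj))
      (nullW_bottom C h (hz jj le_rfl))
      (ih (G.quot (G.bottom jj) (bottom_inv jj)) (j + 1) (by omega) (lowZero_quot h)
        (fun a ha => zeroH_quot (show (jj : ℕ) < a by simp [jj]; omega)
          (hz a (by omega))))

theorem goodW_of_two (c : Fin m) (U : Type) [AddCommGroup U] [Module (Lam k) U] {s : ℕ}
    (hs : GoodW (W C) s ((GCx.single c.succ U).mc C))
    (hs' : GoodW (W C) (s + 1) ((GCx.single c.castSucc U).mc C)) :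
    ∀ (r : ℕ) (G : GCx k m) [Module.Finite (Lam k) G.X] (j : ℕ),
      j + r = (c : ℕ) → G.LowZero j → G.IsoH c.castSucc U → G.IsoH c.succ U →
      (∀ a : Fin (m + 1), j ≤ (a : ℕ) → a ≠ c.castSucc → a ≠ c.succ → G.ZeroH a) →
      GoodW (W C) (s + 1) (G.mc C) := by
  intro r
  induction r with
  | zero =>
    intro G _ j hj hlow h1 h2 hz
    have h : G.LowZero (c.castSucc : ℕ) := by
      have : j = (c.castSucc : ℕ) := by simp; omega
      rwa [← this]
    refine goodW_mid_of_good (shortExact_sub_quot C G _ (bottom_inv c.castSucc))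
      (goodW_bottom C h h1 hs') ?_
    let Q := G.quot (G.bottom c.castSucc) (bottom_inv c.castSucc)
    have hQ : Q.LowZero (c.succ : ℕ) := by simpa using lowZero_quot h
    refine goodW_mid_of_null_right (shortExact_sub_quot C Q _ (bottom_inv c.succ))
      (goodW_bottom C hQ (isoH_quot (by simp) h2) hs) ?_
    refine nullW_of_acyclic C (m - (c.succ : ℕ)) (Q.quot (Q.bottom c.succ) (bottom_inv c.succ))
      ((c.succ : ℕ) + 1) (by have := c.succ.2; omega) (lowZero_quot hQ) fun a ha => ?_
    refine zeroH_quot (show (c.succ : ℕ) < a by omega) (zeroH_quot ?_ (hz a ?_ ?_ ?_))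
    · simp at ha ⊢; omega
    · simp at ha; omega
    · intro he; rw [he] at ha; simp at ha
    · intro he; rw [he] at ha; simp at ha
  | succ r ih =>
    intro G _ j hj hlow h1 h2 hz
    let jj : Fin (m + 1) := ⟨j, by omega⟩
    have h : G.LowZero (jj : ℕ) := hlow
    refine goodW_mid_of_null_left (shortExact_sub_quot C G _ (bottom_inv jj))
      (nullW_bottom C h (hz jj le_rfl ?_ ?_)) ?_
    · intro he; have := congrArg Fin.val he; simp [jj] at this; omega
    · intro he; have := congrArg Fin.val he; simp [jj] at this; omega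
    · exact ih (G.quot (G.bottom jj) (bottom_inv jj)) (j + 1) (by omega) (lowZero_quot h)
        (isoH_quot (by simp [jj]; omega) h1) (isoH_quot (by simp [jj]; omega) h2)
        (fun a ha ha1 ha2 => zeroH_quot (show (jj : ℕ) < a by simp [jj]; omega)
          (hz a (by omega) ha1 ha2))

end GCx

/-! ### Shifting positions and the growth -/

variable (C : MCx k m)

/-- The inclusion of position `a + 1` into a pair. -/
def toPair (a : Fin m) (Z : Type) [AddCommGroup Z] [Module (Lam k) Z] :
    (GCx.single a.succ Z).Mod C →ₗ[Alg C] (GCx.pair a Z).Mod C :=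
  GCx.lift C (G := GCx.single a.succ Z) (G' := GCx.pair a Z) (LinearMap.inr _ _ _)
    (fun c z => by
      show (_, _) = (_, _)
      simp)
    (fun z => by
      show (_, _) = (_, _)
      simp)

/-- The projection of a pair to position `a`. -/
def fromPair (a : Fin m) (Z : Type) [AddCommGroup Z] [Module (Lam k) Z] :
    (GCx.pair a Z).Mod C →ₗ[Alg C] (GCx.single a.castSucc Z).Mod C :=
  GCx.lift C (G := GCx.pair a Z) (G' := GCx.single a.castSucc Z) (LinearMap.fst _ _ _)
    (fun c p => rfl) (fun p => rfl)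

theorem goodW_castSucc (a : Fin m) (Z : Type) [AddCommGroup Z] [Module (Lam k) Z]
    [Module.Finite (Lam k) Z] {s : ℕ} (hs : GoodW (W C) s ((GCx.single a.succ Z).mc C)) :
    GoodW (W C) (s + 1) ((GCx.single a.castSucc Z).mc C) := by
  have hex : Function.Exact (toPair C a Z) (fromPair C a Z) := by
    rintro ⟨z, w⟩
    constructor
    · intro h
      exact ⟨w, Prod.ext (show (0 : Z) = z from h.symm) rfl⟩
    · rintro ⟨x, h⟩
      rw [← h]; rfl
  have hS := scMk_shortExact _ _ hex (fun _ _ h => congrArg Prod.snd h) (fun z => ⟨(z, 0), rfl⟩)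
  obtain ⟨hfin, hext⟩ := nullW_pair C a Z
  refine goodW_right hS hfin (fun j _ e => hext j e) (fun f => ⟨0, ?_⟩) hs
  have h0 : f = 0 := ModuleCat.hom_ext (pair_hom_eq_zero C a Z f.hom)
  rw [h0]; simp

theorem goodW_single (Z : Type) [AddCommGroup Z] [Module (Lam k) Z]
    [Module.Finite (Lam k) Z] {s : ℕ}
    (hs : GoodW (W C) s ((GCx.single (Fin.last m) Z).mc C)) :
    ∀ a : Fin (m + 1), GoodW (W C) (s + (m - (a : ℕ))) ((GCx.single a Z).mc C) := by
  intro a
  induction a using Fin.reverseInduction with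
  | last => simpa using hs
  | cast a ih =>
    have := goodW_castSucc C a Z ih
    have e : s + (m - (a.succ : ℕ)) + 1 = s + (m - (a.castSucc : ℕ)) := by simp; omega
    rwa [e] at this

theorem finite_FZ (Z : Type) [AddCommGroup Z] [Module (Lam k) Z] [Module.Finite (Lam k) Z] :
    Module.Finite (Lam k) (C.FZ Z) := by
  let modk : Module k Z := Module.compHom Z (algebraMap k (Lam k))
  have t1 : IsScalarTower k (Lam k) Z := IsScalarTower.of_compHom k (Lam k) Z
  have : Module.Finite k Z := Module.Finite.trans (Lam k) Z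
  let modkF : Module k (C.FZ Z) := Module.compHom (C.FZ Z) (algebraMap k (Lam k))
  have t2 : IsScalarTower k (Lam k) (C.FZ Z) := IsScalarTower.of_compHom k (Lam k) (C.FZ Z)
  let f : C.FZ Z →ₗ[k] (C.ι → Z) :=
    { toFun := fun x => x.1
      map_add' := fun _ _ => rfl
      map_smul' := fun r x => by
        show (algebraMap k (Lam k) r • x : C.FZ Z).1 = r • x.1
        rw [MCx.smul_val, Algebra.algebraMap_eq_smul_one, map_smul]
        funext i
        conv_rhs => rw [← x.2]
        show ∑ j, (r • C.θ 1 i j) • x.1 j = algebraMap k (Lam k) r • ∑ j, C.θ 1 i j • x.1 j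
        rw [Finset.smul_sum]
        refine Finset.sum_congr rfl fun j _ => ?_
        rw [Algebra.smul_def, mul_smul] }
  have : Module.Finite k (C.FZ Z) := Module.Finite.of_injective f Subtype.val_injective
  exact Module.Finite.of_restrictScalars_finite k (Lam k) (C.FZ Z)

theorem goodW_last (Z U : Type) [AddCommGroup Z] [Module (Lam k) Z] [Module.Finite (Lam k) Z]
    [AddCommGroup U] [Module (Lam k) U] [Module.Finite (Lam k) U] (c : Fin m)
    (h1 : (C.gcx Z).IsoH c.castSucc U) (h2 : (C.gcx Z).IsoH c.succ U)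
    (hz : ∀ a, a ≠ c.castSucc → a ≠ c.succ → (C.gcx Z).ZeroH a) :
    (∀ s, GoodW (W C) s ((GCx.single (Fin.last m) U).mc C) →
      ∃ s', s < s' ∧ GoodW (W C) s' ((GCx.single (Fin.last m) Z).mc C)) ∧
    (Subsingleton U → (∃ z : Z, (Lam.eps 0 : Lam k) • z ≠ 0) →
      GoodW (W C) 0 ((GCx.single (Fin.last m) Z).mc C)) := by
  have : Module.Finite (Lam k) (C.gcx Z).X := finite_FZ C Z
  have hS := scMk_shortExact _ _ (tincl_tproj_exact C Z) (tincl_injective C Z)
    (tproj_surjective C Z)
  refine ⟨fun s hs => ?_, fun hU hne => ?_⟩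
  · have hsucc := goodW_single C U hs c.succ
    have hcast := goodW_castSucc C c U hsucc
    have hF := GCx.goodW_of_two C c U hsucc hcast (c : ℕ) (C.gcx Z) 0 (by simp)
      (fun a ha => absurd ha (Nat.not_lt_zero _)) h1 h2 (fun a _ => hz a)
    refine ⟨_, ?_, goodW_right hS (finPd_tmc C Z) (fun j hj e => ext_tmc C Z j hj e)
      (fun f => ?_) hF⟩
    · omega
    · obtain ⟨g, hg⟩ := tz_hom_factor C Z f.hom
      exact ⟨ModuleCat.ofHom g, ModuleCat.hom_ext hg⟩
  · have hF : NullW (W C) ((C.gcx Z).mc C) := by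
      refine GCx.nullW_of_acyclic C (m + 1) (C.gcx Z) 0 (by simp)
        (fun a ha => absurd ha (Nat.not_lt_zero _)) (fun a _ => ?_)
      by_cases ha1 : a = c.castSucc
      · subst ha1; exact GCx.zeroH_of_isoH _ h1
      · by_cases ha2 : a = c.succ
        · subst ha2; exact GCx.zeroH_of_isoH _ h2
        · exact hz a ha1 ha2
    obtain ⟨z, hz'⟩ := hne
    obtain ⟨g, hg⟩ := exists_hom_ne_zero C Z z hz'
    exact goodW_zero_right hS (finPd_tmc C Z) (fun j hj e => ext_tmc C Z j hj e) hF
      ⟨ModuleCat.ofHom g, fun h => hg (congrArg ModuleCat.Hom.hom h)⟩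

/-- The finitistic dimension of the algebra is infinite, given the homology pattern. -/
theorem unbounded_of_pattern (U : ℕ → ModuleCat.{0} (Lam k))
    [hfin : ∀ n, Module.Finite (Lam k) (U n)] (c : Fin m) (h0 : Subsingleton (U 0))
    (hne : ∃ z : U 1, (Lam.eps 0 : Lam k) • z ≠ 0)
    (hH : ∀ n, (C.gcx (U (n + 1))).IsoH c.castSucc (U n) ∧
      (C.gcx (U (n + 1))).IsoH c.succ (U n) ∧
      ∀ a, a ≠ c.castSucc → a ≠ c.succ → (C.gcx (U (n + 1))).ZeroH a) (n : ℕ) :
    ∃ M : ModuleCat.{0} (Alg C), Module.Finite (Alg C) M ∧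
      (n : WithBot ℕ∞) < projectiveDimension M ∧ projectiveDimension M < ⊤ := by
  have main : ∀ r, ∃ s, r ≤ s ∧ GoodW (W C) s ((GCx.single (Fin.last m) (U (r + 1))).mc C) := by
    intro r
    induction r with
    | zero =>
      exact ⟨0, le_rfl, (goodW_last C (U 1) (U 0) c (hH 0).1 (hH 0).2.1 (hH 0).2.2).2 h0 hne⟩
    | succ r ih =>
      obtain ⟨s, hs, hgood⟩ := ih
      obtain ⟨s', hs', hgood'⟩ :=
        (goodW_last C (U (r + 2)) (U (r + 1)) c (hH (r + 1)).1 (hH (r + 1)).2.1
          (hH (r + 1)).2.2).1 s hgood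
      exact ⟨s', by omega, hgood'⟩
  obtain ⟨s, hs, hgood⟩ := main (n + 1)
  exact ⟨_, GCx.finite_mod C (GCx.single (Fin.last m) (U (n + 1 + 1))),
    finPd_le_and_gt hgood (by omega)⟩

end Vale.Agent.P176
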