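import Vale.Agent.P176.Lift
import Vale.Agent.P176.Devissage

/-!
From three bounded complexes with strict relations to a matrix complex whose values at the
counter representations have the required homology pattern.
-/

namespace Vale.Agent.P176

open CategoryTheory Limits

set_option linter.unusedSimpArgs false
set_option linter.unusedSectionVars false

variable {k : Type} [Field k]

/-! ### Generalities on `Lam k` -/

theorem Lam.arrW_eq_mul (g h : Gen) (hp : ¬ Pivot g h) :
    (Lam.arrW (g, h) : Lam k) = Lam.arrV g * Lam.arrU h := by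
  rw [Lam.arrV_mul_arrU, not_not.1 hp]
  refine Lam.ext rfl rfl rfl ?_
  funext q
  simp [Lam.arrW, Pi.single_apply]

theorem LamPre.lin_arrW {E : Type*} [Ring E] [Algebra k E] (D : LamPre k E) (p : Gen × Gen) :
    D.lin (Lam.arrW p) = D.c p := by
  simp [LamPre.lin, Lam.build, Lam.arrW, Pi.single_apply]

theorem LamPre.c_pivot {E : Type*} [Ring E] [Algebra k E] (D : LamPre k E) (g h : Gen)
    (hp : Pivot g h) : D.c (g, h) = 0 := by
  classical
  simp [LamPre.c, hp]

theorem LamPre.lin_mem {E : Type*} [Ring E] [Algebra k E] (D : LamPre k E) (S : Submodule k E)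
    (hmul : ∀ x ∈ S, ∀ y ∈ S, x * y ∈ S) (he : ∀ i, D.e i ∈ S) (ha : ∀ g, D.a g ∈ S)
    (hb : ∀ g, D.b g ∈ S) (x : Lam k) : D.lin x ∈ S := by
  classical
  have hc : ∀ p, D.c p ∈ S := fun p => by
    unfold LamPre.c
    split_ifs
    · exact S.zero_mem
    · exact hmul _ (hb _) _ (ha _)
  show ∑ i, x.d i • D.e i + ∑ g, x.u g • D.a g + ∑ g, x.v g • D.b g + ∑ p, x.w p • D.c p ∈ S
  exact S.add_mem (S.add_mem (S.add_mem (S.sum_mem fun i _ => S.smul_mem _ (he i))
    (S.sum_mem fun g _ => S.smul_mem _ (ha g))) (S.sum_mem fun g _ => S.smul_mem _ (hb g)))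
    (S.sum_mem fun p _ => S.smul_mem _ (hc p))

theorem Lam.sum_d {ι : Type} [Fintype ι] (F : ι → Lam k) (q : Fin 3) :
    (∑ i, F i).d q = ∑ i, (F i).d q :=
  map_sum (AddMonoidHom.mk' (fun x : Lam k => x.d q) (fun _ _ => rfl)) F Finset.univ

theorem Lam.sum_u {ι : Type} [Fintype ι] (F : ι → Lam k) (q : Gen) :
    (∑ i, F i).u q = ∑ i, (F i).u q :=
  map_sum (AddMonoidHom.mk' (fun x : Lam k => x.u q) (fun _ _ => rfl)) F Finset.univ

theorem Lam.sum_v {ι : Type} [Fintype ι] (F : ι → Lam k) (q : Gen) :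
    (∑ i, F i).v q = ∑ i, (F i).v q :=
  map_sum (AddMonoidHom.mk' (fun x : Lam k => x.v q) (fun _ _ => rfl)) F Finset.univ

theorem Lam.sum_w {ι : Type} [Fintype ι] (F : ι → Lam k) (q : Gen × Gen) :
    (∑ i, F i).w q = ∑ i, (F i).w q :=
  map_sum (AddMonoidHom.mk' (fun x : Lam k => x.w q) (fun _ _ => rfl)) F Finset.univ

theorem Lam.decomp (c : Lam k) :
    c = ∑ i, c.d i • Lam.eps i + ∑ g, c.u g • Lam.arrU g + ∑ g, c.v g • Lam.arrV g
      + ∑ p, c.w p • Lam.arrW p := by
  refine Lam.ext ?_ ?_ ?_ ?_ <;> funext q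
  all_goals
    simp only [Lam.add_d, Lam.add_u, Lam.add_v, Lam.add_w, Pi.add_apply]
  · rw [Lam.sum_d, Lam.sum_d, Lam.sum_d, Lam.sum_d]
    simp [Lam.eps, Lam.arrU, Lam.arrV, Lam.arrW, Pi.single_apply]
  · rw [Lam.sum_u, Lam.sum_u, Lam.sum_u, Lam.sum_u]
    simp [Lam.eps, Lam.arrU, Lam.arrV, Lam.arrW, Pi.single_apply]
  · rw [Lam.sum_v, Lam.sum_v, Lam.sum_v, Lam.sum_v]
    simp [Lam.eps, Lam.arrU, Lam.arrV, Lam.arrW, Pi.single_apply]
  · rw [Lam.sum_w, Lam.sum_w, Lam.sum_w, Lam.sum_w]
    simp [Lam.eps, Lam.arrU, Lam.arrV, Lam.arrW, Pi.single_apply]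

theorem Lam.induction {P : Lam k → Prop} (hadd : ∀ x y, P x → P y → P (x + y))
    (hmul : ∀ x y, P x → P y → P (x * y)) (hscal : ∀ r, P (algebraMap k (Lam k) r))
    (he : ∀ i, P (Lam.eps i)) (ha : ∀ g, P (Lam.arrU g)) (hb : ∀ g, P (Lam.arrV g))
    (hw : ∀ g h, Pivot g h → P (Lam.arrW (g, h))) (c : Lam k) : P c := by
  classical
  have h0 : P 0 := by simpa using hscal 0
  have hs : ∀ (r : k) x, P x → P (r • x) := fun r x hx => by
    rw [Algebra.smul_def]; exact hmul _ _ (hscal r) hx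
  have hW : ∀ p, P (Lam.arrW p) := fun p => by
    by_cases hp : Pivot p.1 p.2
    · exact hw _ _ hp
    · rw [show p = (p.1, p.2) from rfl, Lam.arrW_eq_mul _ _ hp]
      exact hmul _ _ (hb _) (ha _)
  rw [c.decomp]
  exact hadd _ _ (hadd _ _ (hadd _ _ (Finset.sum_induction _ P hadd h0 fun i _ => hs _ _ (he i))
    (Finset.sum_induction _ P hadd h0 fun i _ => hs _ _ (ha i)))
    (Finset.sum_induction _ P hadd h0 fun i _ => hs _ _ (hb i)))
    (Finset.sum_induction _ P hadd h0 fun i _ => hs _ _ (hW i))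

/-! ### The modules of representations -/

namespace Rep

variable (R : Rep k)

noncomputable instance : Module k R.Phi := inferInstanceAs (Module k (Fin 3 → R.V))

instance : IsScalarTower k (Lam k) R.Phi :=
  ⟨fun r c f => by
    show R.data.hom (r • c) f = r • R.data.hom c f
    rw [map_smul]; rfl⟩

theorem phi_eps (i : Fin 3) (f : R.Phi) :
    (Lam.eps i : Lam k) • f = (Pi.single i (f i) : Fin 3 → R.V) := by
  show R.data.hom (Lam.eps i) f = _
  rw [LamData.hom_eps]
  simp [data]
  rfl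

theorem phi_path {v w : Fin 3} (c : Lam k) (hc : Lam.eps w * c * Lam.eps v = c) (f : R.Phi) :
    c • f = (Pi.single w (R.comp v w c (f v)) : Fin 3 → R.V) := by
  conv_lhs => rw [← hc, mul_smul, mul_smul, phi_eps, phi_eps]
  rfl

theorem phi_arrU (g : Gen) (f : R.Phi) :
    (Lam.arrU g : Lam k) • f = (Pi.single 1 (R.x g (f 0)) : Fin 3 → R.V) := by
  show R.data.hom (Lam.arrU g) f = _
  rw [LamData.hom_arrU]
  simp [data]
  rfl

theorem phi_arrV (g : Gen) (f : R.Phi) :
    (Lam.arrV g : Lam k) • f = (Pi.single 2 (R.x g (f 1)) : Fin 3 → R.V) := by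
  show R.data.hom (Lam.arrV g) f = _
  rw [LamData.hom_arrV]
  simp [data]
  rfl

theorem phi_arrW (g h : Gen) (hp : Pivot g h) (f : R.Phi) :
    (Lam.arrW (g, h) : Lam k) • f = 0 := by
  show R.data.hom (Lam.arrW (g, h)) f = _
  have h0 : R.data.hom (Lam.arrW (g, h)) = 0 := by
    rw [show R.data.hom (Lam.arrW (g, h)) = R.data.toLamPre.lin (Lam.arrW (g, h)) by
      unfold LamData.hom; rfl]
    rw [LamPre.lin_arrW, LamPre.c_pivot _ _ _ hp]
  rw [h0]; rfl

/-- A coordinate. -/
def crd (f : R.Phi) (w : Fin 3) : R.V := (f : Fin 3 → R.V) w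

theorem crd_sum {ι : Type} [Fintype ι] (F : ι → R.Phi) (w : Fin 3) :
    R.crd (∑ i, F i) w = ∑ i, R.crd (F i) w :=
  map_sum (AddMonoidHom.mk' (fun f : R.Phi => R.crd f w) (fun _ _ => rfl)) F Finset.univ

/-- A vector at one vertex. -/
def sgl (i : Fin 3) (v : R.V) : R.Phi := (Pi.single i v : Fin 3 → R.V)

theorem eps_sgl (i : Fin 3) (v : R.V) : (Lam.eps i : Lam k) • R.sgl i v = R.sgl i v :=
  (R.phi_eps i _).trans (congrArg (fun u => (Pi.single i u : Fin 3 → R.V))
    (Pi.single_eq_same (M := fun _ => R.V) i v))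

theorem crd_sgl (i : Fin 3) (v : R.V) : R.crd (R.sgl i v) i = v :=
  Pi.single_eq_same (M := fun _ => R.V) i v

theorem crd_single (i : Fin 3) (v : R.V) : R.crd (Pi.single i v : Fin 3 → R.V) i = v :=
  Pi.single_eq_same (M := fun _ => R.V) i v

theorem crd_zero (w : Fin 3) : R.crd 0 w = 0 := rfl

end Rep

/-! ### Classes of cycles -/

section Classes

variable (K : CochainComplex (ModuleCat.{0} k) ℤ) (j : ℤ)

/-- Cycles, as a submodule. -/
def cyc : Submodule k (K.X j) := ⨅ l, LinearMap.ker (K.d j l).hom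

theorem mem_cyc (z : K.X j) : z ∈ cyc K j ↔ ∀ l, (K.d j l).hom z = 0 := by
  simp [cyc]

theorem iCycles_mem (c : K.cycles j) : (K.iCycles j).hom c ∈ cyc K j :=
  (mem_cyc K j _).2 fun l => LinearMap.congr_fun (congrArg ModuleCat.Hom.hom (K.iCycles_d j l)) c

theorem iCycles_cod_bijective :
    Function.Bijective ((K.iCycles j).hom.codRestrict (cyc K j) (iCycles_mem K j)) := by
  refine ⟨fun a b h => (ModuleCat.mono_iff_injective (K.iCycles j)).1 inferInstance
    (congrArg Subtype.val h), fun z => ?_⟩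
  let t : ModuleCat.of k k ⟶ K.X j := ModuleCat.ofHom (LinearMap.toSpanSingleton k (K.X j) z.1)
  have ht : t ≫ K.d j (j + 1) = 0 := ModuleCat.hom_ext (LinearMap.ext_ring (by
    show (K.d j (j + 1)).hom ((LinearMap.toSpanSingleton k (K.X j) z.1) 1) = 0
    rw [LinearMap.toSpanSingleton_apply, one_smul]
    exact (mem_cyc K j _).1 z.2 _))
  refine ⟨(K.liftCycles t (j + 1) (CochainComplex.next ℤ j) ht).hom (1 : k), Subtype.ext ?_⟩
  exact (LinearMap.congr_fun (congrArg ModuleCat.Hom.hom (K.liftCycles_i t _ _ ht)) 1).trans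
    (one_smul k z.1)

/-- The class of a cycle. -/
noncomputable def cls : cyc K j →ₗ[k] K.homology j :=
  (K.homologyπ j).hom ∘ₗ (LinearEquiv.ofBijective _ (iCycles_cod_bijective K j)).symm.toLinearMap

theorem cls_iCycles (c : K.cycles j) :
    cls K j ⟨(K.iCycles j).hom c, iCycles_mem K j c⟩ = (K.homologyπ j).hom c := by
  show (K.homologyπ j).hom _ = _
  congr 1
  exact (LinearEquiv.ofBijective _ (iCycles_cod_bijective K j)).symm_apply_apply c

theorem cls_surjective : Function.Surjective (cls K j) := fun h => by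
  obtain ⟨c, rfl⟩ := (ModuleCat.epi_iff_surjective (K.homologyπ j)).1 inferInstance h
  exact ⟨_, cls_iCycles K j c⟩

theorem exists_iCycles (z : cyc K j) :
    ∃ c : K.cycles j, z = ⟨(K.iCycles j).hom c, iCycles_mem K j c⟩ := by
  obtain ⟨c, hc⟩ := (iCycles_cod_bijective K j).2 z
  exact ⟨c, hc.symm⟩

theorem cls_eq_zero (z : cyc K j) : cls K j z = 0 ↔ ∃ i y, (K.d i j).hom y = z.1 := by
  obtain ⟨c, rfl⟩ := exists_iCycles K j z
  rw [cls_iCycles]
  constructor
  · intro hc
    have hex := ShortComplex.exact_of_g_is_cokernel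
      (ShortComplex.mk _ _ (K.toCycles_comp_homologyπ (j - 1) j))
      (K.homologyIsCokernel (j - 1) j (CochainComplex.prev ℤ j))
    obtain ⟨y, hy⟩ := (ShortComplex.moduleCat_exact_iff _).1 hex c hc
    refine ⟨j - 1, y, ?_⟩
    rw [← K.toCycles_i (j - 1) j]
    exact congrArg (K.iCycles j).hom hy
  · rintro ⟨i, y, hy⟩
    have hc : (K.toCycles i j).hom y = c := by
      refine (ModuleCat.mono_iff_injective (K.iCycles j)).1 inferInstance ?_
      exact (LinearMap.congr_fun (congrArg ModuleCat.Hom.hom (K.toCycles_i i j)) y).trans hy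
    rw [← hc]
    exact LinearMap.congr_fun (congrArg ModuleCat.Hom.hom (K.toCycles_comp_homologyπ i j)) y

variable {K}

theorem cls_map {L : CochainComplex (ModuleCat.{0} k) ℤ} (f : K ⟶ L) (z : cyc K j)
    (hz : (f.f j).hom z.1 ∈ cyc L j) :
    (HomologicalComplex.homologyMap f j).hom (cls K j z) = cls L j ⟨(f.f j).hom z.1, hz⟩ := by
  obtain ⟨c, rfl⟩ := exists_iCycles K j z
  rw [cls_iCycles]
  have hi := LinearMap.congr_fun
    (congrArg ModuleCat.Hom.hom (HomologicalComplex.cyclesMap_i f j)) c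
  refine (LinearMap.congr_fun
    (congrArg ModuleCat.Hom.hom (HomologicalComplex.homologyπ_naturality f j)) c).trans ?_
  refine (cls_iCycles L j _).symm.trans ?_
  congr 1
  exact Subtype.ext hi

end Classes

/-! ### Matrices of morphisms -/

/-- The matrix of a morphism of tuples of vertices. -/
def mat {A B : Mat_ (Vx k)} (f : A ⟶ B) : Matrix B.ι A.ι (Lam k) := fun t s => (f s t).1

theorem mat_comp {A B C : Mat_ (Vx k)} (f : A ⟶ B) (g : B ⟶ C) :
    mat (f ≫ g) = mat g * mat f := by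
  refine Matrix.ext fun u s => ?_
  show ((f ≫ g) s u).1 = ∑ t, (g t u).1 * (f s t).1
  rw [Mat_.comp_apply, AddSubgroup.val_finsetSum]
  rfl

theorem mat_add {A B : Mat_ (Vx k)} (f g : A ⟶ B) : mat (f + g) = mat f + mat g := rfl

theorem mat_zero (A B : Mat_ (Vx k)) : mat (0 : A ⟶ B) = 0 := rfl

variable [CharZero k] (M : Model k) (lo : ℤ) (m : ℕ)

namespace Model

/-- The degree of a position. -/
def deg (a : Fin (m + 1)) : ℤ := lo + (a : ℕ)

/-- The tuples of vertices. -/
abbrev blocks (q : Fin 3 × Fin (m + 1)) : Mat_ (Vx k) := (M.E q.1).X (deg lo m q.2)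

/-- All indices. -/
abbrev Idx : Type := Σ q : Fin 3 × Fin (m + 1), (M.blocks lo m q).ι

noncomputable instance : DecidableEq (M.Idx lo m) := Classical.decEq _

variable {M lo m}

/-- The vertex of an index. -/
def vtx (i : M.Idx lo m) : Fin 3 := ((M.blocks lo m i.1).X i.2).v

/-- Inclusion of a block. -/
noncomputable def inc (q : Fin 3 × Fin (m + 1)) :
    Matrix (M.Idx lo m) (M.blocks lo m q).ι (Lam k) :=
  fun i s => if i = ⟨q, s⟩ then 1 else 0

/-- A block matrix. -/
noncomputable def blk (p q : Fin 3 × Fin (m + 1))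
    (A : Matrix (M.blocks lo m p).ι (M.blocks lo m q).ι (Lam k)) :
    Matrix (M.Idx lo m) (M.Idx lo m) (Lam k) :=
  (inc (M := M) (lo := lo) p * A : Matrix (M.Idx lo m) (M.blocks lo m q).ι (Lam k)) *
    Matrix.transpose (inc (M := M) (lo := lo) q)

theorem blk_mul_same (p q r : Fin 3 × Fin (m + 1))
    (A : Matrix (M.blocks lo m p).ι (M.blocks lo m q).ι (Lam k))
    (B : Matrix (M.blocks lo m q).ι (M.blocks lo m r).ι (Lam k)) :
    blk p q A * blk q r B = blk p r (A * B) := by
  classical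
  have h : Matrix.transpose (inc (M := M) (lo := lo) q) * inc (M := M) (lo := lo) q
      = (1 : Matrix (M.blocks lo m q).ι (M.blocks lo m q).ι (Lam k)) := by
    refine Matrix.ext fun s t => ?_
    rw [Matrix.mul_apply, Finset.sum_eq_single (⟨q, s⟩ : M.Idx lo m)]
    · simp [inc, Matrix.one_apply]
    · intro i _ hi
      simp [inc, hi]
    · simp
  simp only [blk, Matrix.mul_assoc]
  rw [← Matrix.mul_assoc (Matrix.transpose (inc (M := M) (lo := lo) q)) (inc q), h, Matrix.one_mul]

theorem blk_mul_ne {p q q' r : Fin 3 × Fin (m + 1)} (hq : q ≠ q')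
    (A : Matrix (M.blocks lo m p).ι (M.blocks lo m q).ι (Lam k))
    (B : Matrix (M.blocks lo m q').ι (M.blocks lo m r).ι (Lam k)) :
    blk p q A * blk q' r B = 0 := by
  classical
  have h : Matrix.transpose (inc (M := M) (lo := lo) q) * inc (M := M) (lo := lo) q' = 0 := by
    refine Matrix.ext fun s t => ?_
    rw [Matrix.mul_apply]
    refine Finset.sum_eq_zero fun i _ => ?_
    simp only [Matrix.transpose_apply, inc]
    split_ifs with h1 h2
    · exact absurd (congrArg Sigma.fst (h1.symm.trans h2)) hq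
    all_goals simp
  simp only [blk, Matrix.mul_assoc]
  rw [← Matrix.mul_assoc (Matrix.transpose (inc (M := M) (lo := lo) q)) (inc q'), h, Matrix.zero_mul, Matrix.mul_zero,
    Matrix.mul_zero]

theorem blk_apply (p q : Fin 3 × Fin (m + 1))
    (A : Matrix (M.blocks lo m p).ι (M.blocks lo m q).ι (Lam k)) (i j : M.Idx lo m) :
    blk p q A i j = ∑ t, ∑ s,
      if i = ⟨p, s⟩ then (if j = ⟨q, t⟩ then A s t else 0) else 0 := by
  simp only [blk, Matrix.mul_apply, Matrix.transpose_apply, inc, Finset.sum_mul]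
  refine Finset.sum_congr rfl fun t _ => Finset.sum_congr rfl fun s _ => ?_
  split_ifs <;> simp

theorem blk_apply_eq_zero (p q : Fin 3 × Fin (m + 1))
    (A : Matrix (M.blocks lo m p).ι (M.blocks lo m q).ι (Lam k)) (i j : M.Idx lo m)
    (h : i.1 ≠ p ∨ j.1 ≠ q) : blk p q A i j = 0 := by
  rw [blk_apply]
  refine Finset.sum_eq_zero fun t _ => Finset.sum_eq_zero fun s _ => ?_
  split_ifs with h1 h2
  · subst h1; subst h2; simp at h
  · rfl
  · rfl

theorem blk_add (p q : Fin 3 × Fin (m + 1))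
    (A B : Matrix (M.blocks lo m p).ι (M.blocks lo m q).ι (Lam k)) :
    blk p q (A + B) = blk p q A + blk p q B := by
  simp [blk, Matrix.mul_add, Matrix.add_mul]

theorem blk_zero (p q : Fin 3 × Fin (m + 1)) :
    blk p q (0 : Matrix (M.blocks lo m p).ι (M.blocks lo m q).ι (Lam k)) = 0 := by
  simp [blk]

/-- The matrix of a chain map. -/
noncomputable def amat (w w' : Fin 3) :
    (M.E w ⟶ M.E w') →+ Matrix (M.Idx lo m) (M.Idx lo m) (Lam k) where
  toFun f := ∑ a, blk (w', a) (w, a) (mat (f.f (deg lo m a)))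
  map_zero' := Finset.sum_eq_zero fun a _ => blk_zero _ _
  map_add' f g := by
    rw [← Finset.sum_add_distrib]
    exact Finset.sum_congr rfl fun a _ => blk_add _ _ _ _

theorem amat_mul_same {w w' w'' : Fin 3} (f : M.E w ⟶ M.E w') (g : M.E w' ⟶ M.E w'') :
    amat (lo := lo) (m := m) w' w'' g * amat w w' f = amat w w'' (f ≫ g) := by
  simp only [amat, AddMonoidHom.coe_mk, ZeroHom.coe_mk, Finset.sum_mul_sum]
  refine Finset.sum_congr rfl fun a _ => ?_
  rw [Finset.sum_eq_single a]
  · rw [blk_mul_same, ← mat_comp]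
    rfl
  · intro b _ hb
    exact blk_mul_ne (fun h => hb (Prod.ext_iff.1 h).2.symm) _ _
  · simp

theorem amat_mul_ne {w w' v v' : Fin 3} (f : M.E w ⟶ M.E w') (g : M.E v ⟶ M.E v') (h : v ≠ w') :
    amat (lo := lo) (m := m) v v' g * amat w w' f = 0 := by
  simp only [amat, AddMonoidHom.coe_mk, ZeroHom.coe_mk, Finset.sum_mul_sum]
  exact Finset.sum_eq_zero fun a _ => Finset.sum_eq_zero fun b _ =>
    blk_mul_ne (fun e => h (Prod.ext_iff.1 e).1) _ _

variable (M lo m)

/-- The data of the action. -/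
noncomputable def pre : LamPre k (Matrix (M.Idx lo m) (M.Idx lo m) (Lam k)) where
  e w := amat w w (𝟙 (M.E w))
  a g := amat 0 1 (M.G0 g)
  b g := amat 1 2 (M.G1 g)
  e_mul i j := by
    split_ifs with h
    · subst h; rw [amat_mul_same, Category.comp_id]
    · exact amat_mul_ne _ _ h
  ea i g := by
    split_ifs with h
    · subst h; rw [amat_mul_same, Category.comp_id]
    · exact amat_mul_ne _ _ h
  ae i g := by
    split_ifs with h
    · subst h; rw [amat_mul_same, Category.id_comp]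
    · exact amat_mul_ne _ _ (Ne.symm h)
  eb i g := by
    split_ifs with h
    · subst h; rw [amat_mul_same, Category.comp_id]
    · exact amat_mul_ne _ _ h
  be i g := by
    split_ifs with h
    · subst h; rw [amat_mul_same, Category.id_comp]
    · exact amat_mul_ne _ _ (Ne.symm h)
  rel g h := by
    rw [sum_intCast_smul]
    simp only [amat_mul_same]
    rw [M.strict g h, map_sum]
    simp only [map_zsmul]

/-- The differential. -/
noncomputable def dmat : Matrix (M.Idx lo m) (M.Idx lo m) (Lam k) :=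
  ∑ w, ∑ c : Fin m,
    blk (w, c.succ) (w, c.castSucc) (mat ((M.E w).d (deg lo m c.castSucc) (deg lo m c.succ)))

theorem dmat_mul_amat {w w' : Fin 3} (f : M.E w ⟶ M.E w') :
    M.dmat lo m * amat w w' f = ∑ c : Fin m, blk (w', c.succ) (w, c.castSucc)
      (mat (f.f (deg lo m c.castSucc) ≫ (M.E w').d (deg lo m c.castSucc) (deg lo m c.succ))) := by
  simp only [dmat, amat, AddMonoidHom.coe_mk, ZeroHom.coe_mk, Finset.sum_mul]
  simp only [Finset.mul_sum]
  rw [Finset.sum_eq_single w']
  · refine Finset.sum_congr rfl fun c _ => ?_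
    rw [Finset.sum_eq_single c.castSucc]
    · rw [blk_mul_same, ← mat_comp]
    · intro a _ ha
      exact blk_mul_ne (fun e => ha (Prod.ext_iff.1 e).2.symm) _ _
    · simp
  · intro v _ hv
    exact Finset.sum_eq_zero fun c _ => Finset.sum_eq_zero fun a _ =>
      blk_mul_ne (fun e => hv (Prod.ext_iff.1 e).1) _ _
  · simp

theorem amat_mul_dmat {w w' : Fin 3} (f : M.E w ⟶ M.E w') :
    amat w w' f * M.dmat lo m = ∑ c : Fin m, blk (w', c.succ) (w, c.castSucc)
      (mat ((M.E w).d (deg lo m c.castSucc) (deg lo m c.succ) ≫ f.f (deg lo m c.succ))) := by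
  simp only [dmat, amat, AddMonoidHom.coe_mk, ZeroHom.coe_mk, Finset.sum_mul, Finset.mul_sum]
  rw [Finset.sum_eq_single w]
  · refine Finset.sum_congr rfl fun c _ => ?_
    rw [Finset.sum_eq_single c.succ]
    · rw [blk_mul_same, ← mat_comp]
    · intro a _ ha
      exact blk_mul_ne (fun e => ha (Prod.ext_iff.1 e).2) _ _
    · simp
  · intro v _ hv
    exact Finset.sum_eq_zero fun c _ => Finset.sum_eq_zero fun a _ =>
      blk_mul_ne (fun e => hv (Prod.ext_iff.1 e).1.symm) _ _
  · simp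

theorem dmat_comm_amat {w w' : Fin 3} (f : M.E w ⟶ M.E w') :
    M.dmat lo m * amat w w' f = amat w w' f * M.dmat lo m := by
  rw [dmat_mul_amat, amat_mul_dmat]
  exact Finset.sum_congr rfl fun c _ => by rw [f.comm]

theorem dmat_apply_eq_zero (i j : M.Idx lo m) (h : (i.1.2 : ℕ) ≠ j.1.2 + 1) :
    M.dmat lo m i j = 0 := by
  simp only [dmat, Matrix.sum_apply]
  refine Finset.sum_eq_zero fun w _ => Finset.sum_eq_zero fun c _ => blk_apply_eq_zero _ _ _ _ _ ?_
  by_contra hh
  obtain ⟨h1, h2⟩ := not_or.1 hh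
  exact h (by rw [not_not.1 h1, not_not.1 h2]; simp)

/-- Matrices preserving positions. -/
def posPres : Submodule k (Matrix (M.Idx lo m) (M.Idx lo m) (Lam k)) where
  carrier := {X | ∀ i j, i.1.2 ≠ j.1.2 → X i j = 0}
  zero_mem' := fun _ _ _ => rfl
  add_mem' := fun {X Y} hX hY i j h => by
    show X i j + Y i j = 0
    rw [hX i j h, hY i j h, add_zero]
  smul_mem' := fun r X hX i j h => by
    show r • X i j = 0
    rw [hX i j h, smul_zero]

theorem posPres_mul (X : Matrix (M.Idx lo m) (M.Idx lo m) (Lam k)) (hX : X ∈ M.posPres lo m)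
    (Y : Matrix (M.Idx lo m) (M.Idx lo m) (Lam k)) (hY : Y ∈ M.posPres lo m) :
    X * Y ∈ M.posPres lo m := fun i j h => by
  rw [Matrix.mul_apply]
  refine Finset.sum_eq_zero fun l _ => ?_
  by_cases hl : i.1.2 = l.1.2
  · rw [hY l j (hl ▸ h), mul_zero]
  · rw [hX i l hl, zero_mul]

theorem amat_posPres {w w' : Fin 3} (f : M.E w ⟶ M.E w') :
    amat w w' f ∈ M.posPres lo m := fun i j h => by
  simp only [amat, AddMonoidHom.coe_mk, ZeroHom.coe_mk, Matrix.sum_apply]
  refine Finset.sum_eq_zero fun a _ => blk_apply_eq_zero _ _ _ _ _ ?_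
  by_contra hh
  obtain ⟨h1, h2⟩ := not_or.1 hh
  exact h (by rw [not_not.1 h1, not_not.1 h2])

theorem dmat_comm (x : Lam k) :
    M.dmat lo m * (M.pre lo m).lin x = (M.pre lo m).lin x * M.dmat lo m := by
  let S : Submodule k (Matrix (M.Idx lo m) (M.Idx lo m) (Lam k)) :=
    { carrier := {X | M.dmat lo m * X = X * M.dmat lo m}
      zero_mem' := by simp
      add_mem' := fun {X Y} (hX : M.dmat lo m * X = X * M.dmat lo m)
          (hY : M.dmat lo m * Y = Y * M.dmat lo m) => by
        show M.dmat lo m * (X + Y) = (X + Y) * M.dmat lo m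
        rw [mul_add, add_mul, hX, hY]
      smul_mem' := fun r X (hX : M.dmat lo m * X = X * M.dmat lo m) => by
        show M.dmat lo m * (r • X) = (r • X) * M.dmat lo m
        rw [mul_smul_comm, smul_mul_assoc, hX] }
  exact (M.pre lo m).lin_mem S
    (fun X (hX : M.dmat lo m * X = X * M.dmat lo m) Y
        (hY : M.dmat lo m * Y = Y * M.dmat lo m) => by
      show M.dmat lo m * (X * Y) = X * Y * M.dmat lo m
      rw [← mul_assoc, hX, mul_assoc, hY, ← mul_assoc])
    (fun _ => M.dmat_comm_amat lo m _) (fun _ => M.dmat_comm_amat lo m _)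
    (fun _ => M.dmat_comm_amat lo m _) x

/-- The matrix complex. -/
@[reducible]
noncomputable def mcx : MCx k m where
  ι := M.Idx lo m
  pos i := i.1.2
  θ := (M.pre lo m).lin
  θ_mul := (M.pre lo m).lin_mul
  θ_pos x i j h := (M.pre lo m).lin_mem (M.posPres lo m) (M.posPres_mul lo m)
    (fun _ => M.amat_posPres lo m _) (fun _ => M.amat_posPres lo m _)
    (fun _ => M.amat_posPres lo m _) x i j h
  D := M.dmat lo m
  D_pos := M.dmat_apply_eq_zero lo m
  D_comm := M.dmat_comm lo m
  D_one := by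
    rw [LamPre.lin_one, Finset.mul_sum]
    simp only [pre, dmat_mul_amat, HomologicalComplex.id_f, Category.id_comp]
    rfl
  D_D := by
    simp only [dmat, Finset.sum_mul, Finset.mul_sum]
    refine Finset.sum_eq_zero fun w _ => Finset.sum_eq_zero fun c _ =>
      Finset.sum_eq_zero fun v _ => Finset.sum_eq_zero fun c' _ => ?_
    by_cases h : ((v, c'.castSucc) : Fin 3 × Fin (m + 1)) = (w, c.succ)
    · obtain ⟨e1, h2⟩ := Prod.ext_iff.1 h
      change v = w at e1
      change c'.castSucc = c.succ at h2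
      subst e1
      generalize hA : mat ((M.E v).d (deg lo m c'.castSucc) (deg lo m c'.succ)) = A
      revert A hA
      rw [h2]
      rintro A rfl
      rw [blk_mul_same, ← mat_comp, HomologicalComplex.d_comp_d, mat_zero, blk_zero]
    · exact blk_mul_ne h _ _

/-! ### Values at a representation -/

variable (R : Rep k)

/-- The evaluated complexes. -/
noncomputable abbrev evK (w : Fin 3) : CochainComplex (ModuleCat.{0} k) ℤ :=
  (R.evM.mapHomologicalComplex (ComplexShape.up ℤ)).obj (M.E w)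

/-- The coordinates in a block. -/
noncomputable def zc (q : Fin 3 × Fin (m + 1)) :
    (M.Idx lo m → R.Phi) →+ ((M.evK R q.1).X (deg lo m q.2)) where
  toFun x := fun s => R.crd (x ⟨q, s⟩) (vtx (⟨q, s⟩ : M.Idx lo m))
  map_zero' := rfl
  map_add' _ _ := rfl

/-- The components of an element of an evaluated tuple. -/
def comps (q : Fin 3 × Fin (m + 1)) (z : (M.evK R q.1).X (deg lo m q.2)) :
    (M.blocks lo m q).ι → R.V := z

/-- A matrix acting on vectors. -/
noncomputable abbrev act (X : Matrix (M.Idx lo m) (M.Idx lo m) (Lam k)) :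
    (M.Idx lo m → R.Phi) →+ (M.Idx lo m → R.Phi) :=
  (M.mcx lo m).mv R.Phi X

theorem act_sum {ι : Type} (S : Finset ι)
    (F : ι → Matrix (M.Idx lo m) (M.Idx lo m) (Lam k)) (x : M.Idx lo m → R.Phi) :
    M.act lo m R (∑ a ∈ S, F a) x = ∑ a ∈ S, M.act lo m R (F a) x := by
  classical
  induction S using Finset.induction with
  | empty => simp only [Finset.sum_empty]; exact (M.mcx lo m).mv_zero _ x
  | @insert a S ha ih =>
    rw [Finset.sum_insert ha, Finset.sum_insert ha, ← ih]
    exact (M.mcx lo m).mv_add _ _ _ x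

theorem act_blk_ne {p q p' : Fin 3 × Fin (m + 1)}
    (A : Matrix (M.blocks lo m p).ι (M.blocks lo m q).ι (Lam k)) (h : p' ≠ p)
    (x : M.Idx lo m → R.Phi) (s : (M.blocks lo m p').ι) :
    M.act lo m R (blk p q A) x ⟨p', s⟩ = 0 :=
  Finset.sum_eq_zero fun j _ =>
    (congrArg (fun c => c • x j) (blk_apply_eq_zero p q A ⟨p', s⟩ j (Or.inl h))).trans
      (zero_smul (Lam k) (x j))

theorem act_blk_same {p q : Fin 3 × Fin (m + 1)}
    (A : Matrix (M.blocks lo m p).ι (M.blocks lo m q).ι (Lam k))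
    (x : M.Idx lo m → R.Phi) (s : (M.blocks lo m p).ι) :
    M.act lo m R (blk p q A) x ⟨p, s⟩ = ∑ t, A s t • x ⟨q, t⟩ := by
  classical
  show ∑ j, blk p q A ⟨p, s⟩ j • x j = _
  simp only [blk_apply, Finset.sum_smul, ite_smul, zero_smul]
  rw [Finset.sum_comm]
  refine Finset.sum_congr rfl fun t _ => ?_
  rw [Finset.sum_comm, Finset.sum_eq_single s]
  · simp
  · intro s' _ hs'
    exact Finset.sum_eq_zero fun j _ => by simp [Ne.symm hs']
  · simp

theorem zc_blk_same {p q : Fin 3 × Fin (m + 1)} (f : M.blocks lo m q ⟶ M.blocks lo m p)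
    (x : M.Idx lo m → R.Phi) :
    M.zc lo m R p (M.act lo m R (blk p q (mat f)) x) = (R.evM.map f).hom (M.zc lo m R q x) := by
  funext s
  refine Eq.trans ?_ (R.evM_map_apply f _ s).symm
  show R.crd (M.act lo m R (blk p q (mat f)) x ⟨p, s⟩) _ = _
  rw [act_blk_same, Rep.crd_sum]
  refine Finset.sum_congr rfl fun t _ => ?_
  rw [R.phi_path (mat f s t) (f t s).2]
  exact R.crd_single _ _

theorem zc_blk_ne {p q p' : Fin 3 × Fin (m + 1)}
    (A : Matrix (M.blocks lo m p).ι (M.blocks lo m q).ι (Lam k)) (h : p' ≠ p)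
    (x : M.Idx lo m → R.Phi) : M.zc lo m R p' (M.act lo m R (blk p q A) x) = 0 := by
  funext s
  show R.crd (M.act lo m R (blk p q A) x ⟨p', s⟩) _ = 0
  rw [act_blk_ne _ _ _ _ _ h]
  rfl

theorem zc_amat_same {w w' : Fin 3} (f : M.E w ⟶ M.E w') (a : Fin (m + 1))
    (x : M.Idx lo m → R.Phi) :
    M.zc lo m R (w', a) (M.act lo m R (amat w w' f) x)
      = (R.evM.map (f.f (deg lo m a))).hom (M.zc lo m R (w, a) x) := by
  simp only [amat, AddMonoidHom.coe_mk, ZeroHom.coe_mk, act_sum, map_sum]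
  rw [Finset.sum_eq_single a]
  · exact M.zc_blk_same lo m R _ x
  · intro b _ hb
    exact M.zc_blk_ne lo m R _ (fun e => hb (Prod.ext_iff.1 e).2.symm) x
  · simp

theorem zc_amat_ne {w w' v : Fin 3} (f : M.E w ⟶ M.E w') (h : v ≠ w') (a : Fin (m + 1))
    (x : M.Idx lo m → R.Phi) :
    M.zc lo m R (v, a) (M.act lo m R (amat w w' f) x) = 0 := by
  simp only [amat, AddMonoidHom.coe_mk, ZeroHom.coe_mk, act_sum, map_sum]
  exact Finset.sum_eq_zero fun b _ => M.zc_blk_ne lo m R _ (fun e => h (Prod.ext_iff.1 e).1) x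

theorem zc_dmat_succ (w : Fin 3) (c : Fin m) (x : M.Idx lo m → R.Phi) :
    M.zc lo m R (w, c.succ) (M.act lo m R (M.dmat lo m) x)
      = ((M.evK R w).d (deg lo m c.castSucc) (deg lo m c.succ)).hom
          (M.zc lo m R (w, c.castSucc) x) := by
  simp only [dmat, act_sum, map_sum]
  rw [Finset.sum_eq_single w]
  · rw [Finset.sum_eq_single c]
    · exact M.zc_blk_same lo m R _ x
    · intro b _ hb
      exact M.zc_blk_ne lo m R _
        (fun e => hb (Fin.succ_injective _ (Prod.ext_iff.1 e).2).symm) x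
    · simp
  · intro v _ hv
    exact Finset.sum_eq_zero fun b _ =>
      M.zc_blk_ne lo m R _ (fun e => hv (Prod.ext_iff.1 e).1.symm) x
  · simp

theorem zc_dmat_zero (w : Fin 3) (x : M.Idx lo m → R.Phi) :
    M.zc lo m R (w, 0) (M.act lo m R (M.dmat lo m) x) = 0 := by
  simp only [dmat, act_sum, map_sum]
  exact Finset.sum_eq_zero fun v _ => Finset.sum_eq_zero fun b _ =>
    M.zc_blk_ne lo m R _ (fun e => Fin.succ_ne_zero b (Prod.ext_iff.1 e).2.symm) x

theorem act_one_apply (x : M.Idx lo m → R.Phi) (i : M.Idx lo m) :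
    M.act lo m R ((M.pre lo m).lin 1) x i = (Lam.eps (vtx i) : Lam k) • x i := by
  classical
  obtain ⟨⟨w, a⟩, s⟩ := i
  rw [LamPre.lin_one, act_sum, Finset.sum_apply]
  rw [Finset.sum_eq_single w]
  · simp only [pre, amat, AddMonoidHom.coe_mk, ZeroHom.coe_mk, act_sum, Finset.sum_apply]
    rw [Finset.sum_eq_single a]
    · rw [act_blk_same, Finset.sum_eq_single s]
      · show ((𝟙 ((M.E w).X (deg lo m a)) : _ ⟶ _) s s).1 • _ = _
        rw [Mat_.id_apply_self]
        rfl
      · intro t _ ht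
        show ((𝟙 ((M.E w).X (deg lo m a)) : _ ⟶ _) t s).1 • _ = _
        rw [Mat_.id_apply_of_ne _ t s ht, vx_zero_val, zero_smul]
      · simp
    · intro b _ hb
      exact M.act_blk_ne lo m R _ (fun e => hb (Prod.ext_iff.1 e).2.symm) x s
    · simp
  · intro v _ hv
    simp only [pre, amat, AddMonoidHom.coe_mk, ZeroHom.coe_mk, act_sum, Finset.sum_apply]
    exact Finset.sum_eq_zero fun b _ =>
      M.act_blk_ne lo m R _ (fun e => hv (Prod.ext_iff.1 e).1.symm) x s
  · simp

variable {M lo m R}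

theorem fixed_eq (x : (M.mcx lo m).FZ R.Phi) (q : Fin 3 × Fin (m + 1))
    (s : (M.blocks lo m q).ι) :
    x.1 ⟨q, s⟩ = (Pi.single (vtx (⟨q, s⟩ : M.Idx lo m))
      (M.comps lo m R q (M.zc lo m R q x.1) s) : Fin 3 → R.V) := by
  refine Eq.trans ?_ (R.phi_eps _ _)
  exact ((congrFun x.2 _).symm.trans (M.act_one_apply lo m R x.1 _))

theorem fz_ext {x y : (M.mcx lo m).FZ R.Phi}
    (h : ∀ q, M.zc lo m R q x.1 = M.zc lo m R q y.1) : x = y := by
  refine Subtype.ext (funext fun ⟨q, s⟩ => ?_)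
  rw [fixed_eq, fixed_eq, h]

variable (M lo m R)

/-- A vector concentrated in one block. -/
noncomputable def put (q : Fin 3 × Fin (m + 1)) (z : (M.evK R q.1).X (deg lo m q.2)) :
    (M.mcx lo m).FZ R.Phi :=
  open Classical in
  ⟨fun (i : M.Idx lo m) => ∑ s, if i = ⟨q, s⟩ then
      R.sgl (vtx i) (M.comps lo m R q z s) else 0, by
    show M.act lo m R ((M.pre lo m).lin 1) _ = _
    funext i
    rw [act_one_apply]
    refine Finset.smul_sum.trans (Finset.sum_congr rfl fun s _ => ?_)
    split_ifs with hi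
    · exact R.eps_sgl _ _
    · exact smul_zero _⟩

theorem zc_put_same (q : Fin 3 × Fin (m + 1)) (z : (M.evK R q.1).X (deg lo m q.2)) :
    M.zc lo m R q (M.put lo m R q z).1 = z := by
  funext s
  show R.crd ((M.put lo m R q z).1 ⟨q, s⟩) _ = _
  have h : (M.put lo m R q z).1 ⟨q, s⟩
      = R.sgl (vtx (⟨q, s⟩ : M.Idx lo m)) (M.comps lo m R q z s) := by
    refine (Finset.sum_eq_single s (fun t _ ht => if_neg ?_)
      (fun h => absurd (Finset.mem_univ s) h)).trans (if_pos rfl)
    simp [Ne.symm ht]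
  rw [h]
  exact R.crd_sgl _ _

theorem zc_put_ne {q p : Fin 3 × Fin (m + 1)} (h : p ≠ q)
    (z : (M.evK R q.1).X (deg lo m q.2)) : M.zc lo m R p (M.put lo m R q z).1 = 0 := by
  funext s
  show R.crd ((M.put lo m R q z).1 ⟨p, s⟩) _ = _
  have hz : (M.put lo m R q z).1 ⟨p, s⟩ = 0 := by
    refine Finset.sum_eq_zero fun t _ => if_neg ?_
    intro e
    exact h (congrArg Sigma.fst e)
  rw [hz]
  rfl

theorem zc_fpr (a : Fin (m + 1)) (x : (M.mcx lo m).FZ R.Phi) (q : Fin 3 × Fin (m + 1)) :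
    M.zc lo m R q ((M.mcx lo m).fpr R.Phi a x).1 = if q.2 = a then M.zc lo m R q x.1 else 0 := by
  split_ifs with h <;> funext s
  · show R.crd (if q.2 = a then x.1 ⟨q, s⟩ else 0) _ = _
    rw [if_pos h]; rfl
  · show R.crd (if q.2 = a then x.1 ⟨q, s⟩ else 0) _ = _
    rw [if_neg h]; rfl

/-- Vanishing of the complexes outside the window. -/
def Window : Prop := ∀ w i, i < lo ∨ lo + (m : ℤ) < i → IsZero ((M.E w).X i)

variable {M lo m R}

theorem mem_cyc_iff (hwin : M.Window lo m) (w : Fin 3) (a : Fin (m + 1))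
    (z : (M.evK R w).X (deg lo m a)) :
    z ∈ cyc (M.evK R w) (deg lo m a) ↔ ∀ c : Fin m, (hc : c.castSucc = a) →
      ((M.evK R w).d (deg lo m a) (deg lo m c.succ)).hom z = 0 := by
  rw [mem_cyc]
  refine ⟨fun h c _ => h _, fun h l => ?_⟩
  by_cases hl : deg lo m a + 1 = l
  · by_cases ha : (a : ℕ) < m
    · have : l = deg lo m (Fin.succ ⟨a, ha⟩) := by
        rw [← hl]; simp [deg]; ring
      subst this
      exact h ⟨a, ha⟩ rfl
    · have hz : IsZero ((M.evK R w).X l) :=
        R.evM.map_isZero (hwin w l (Or.inr (by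
          have := a.2
          rw [← hl]; simp only [deg]; omega)))
      exact @Subsingleton.elim _ (ModuleCat.subsingleton_of_isZero hz) _ _
  · rw [(M.evK R w).shape _ _ hl]; rfl

theorem zc_mem_cyc (hwin : M.Window lo m) (a : Fin (m + 1)) (w : Fin 3)
    (x : ((M.mcx lo m).gcx R.Phi).cy a) :
    M.zc lo m R (w, a) x.1.1 ∈ cyc (M.evK R w) (deg lo m a) := by
  rw [mem_cyc_iff hwin]
  rintro c rfl
  rw [← zc_dmat_succ]
  have h : M.act lo m R (M.dmat lo m) x.1.1 = 0 := congrArg Subtype.val x.2.2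
  rw [h, map_zero]

theorem exists_fd_iff (hwin : M.Window lo m) (a : Fin (m + 1))
    (x : ((M.mcx lo m).gcx R.Phi).cy a) :
    (∃ y, ((M.mcx lo m).gcx R.Phi).d y = x.1) ↔
      ∀ w, ∃ i u, ((M.evK R w).d i (deg lo m a)).hom u = M.zc lo m R (w, a) x.1.1 := by
  constructor
  · rintro ⟨y, hy⟩ w
    have hy' : M.act lo m R (M.dmat lo m) y.1 = x.1.1 := congrArg Subtype.val hy
    rw [← hy']
    obtain rfl | ⟨c, rfl⟩ := Fin.eq_zero_or_eq_succ a
    · exact ⟨deg lo m 0, 0, by rw [zc_dmat_zero, map_zero]⟩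
    · exact ⟨_, _, (M.zc_dmat_succ lo m R w c _).symm⟩
  · intro h
    obtain rfl | ⟨c, rfl⟩ := Fin.eq_zero_or_eq_succ a
    · refine ⟨0, ?_⟩
      rw [map_zero]
      refine (fz_ext fun ⟨w, b⟩ => ?_)
      by_cases hb : b = 0
      · subst hb
        obtain ⟨i, u, hu⟩ := h w
        rw [← hu]
        refine (map_zero _).trans ?_
        by_cases hi : i + 1 = deg lo m 0
        · have hz : IsZero ((M.evK R w).X i) :=
            R.evM.map_isZero (hwin w i (Or.inl (by rw [deg] at hi; simp at hi; omega)))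
          rw [@Subsingleton.elim _ (ModuleCat.subsingleton_of_isZero hz) u 0, map_zero]
        · rw [(M.evK R w).shape _ _ hi]; rfl
      · rw [show x.1 = (M.mcx lo m).fpr R.Phi 0 x.1 from x.2.1.symm, zc_fpr, if_neg hb]
        exact map_zero _
    · have h' : ∀ w, ∃ u, ((M.evK R w).d (deg lo m c.castSucc) (deg lo m c.succ)).hom u
          = M.zc lo m R (w, c.succ) x.1.1 := fun w => by
        obtain ⟨i, u, hu⟩ := h w
        by_cases hi : i + 1 = deg lo m c.succ
        · obtain rfl : i = deg lo m c.castSucc := by simp [deg] at hi ⊢; omega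
          exact ⟨u, hu⟩
        · refine ⟨0, ?_⟩
          rw [← hu, (M.evK R w).shape _ _ hi, map_zero]
          rfl
      choose u hu using h'
      refine ⟨∑ w, M.put lo m R (w, c.castSucc) (u w), fz_ext fun ⟨w, b⟩ => ?_⟩
      show M.zc lo m R (w, b) (M.act lo m R (M.dmat lo m) _) = _
      have hy : ∀ (v : Fin 3) (b : Fin m),
          M.zc lo m R (v, b.castSucc) (∑ w, M.put lo m R (w, c.castSucc) (u w)).1
            = ∑ w, M.zc lo m R (v, b.castSucc) (M.put lo m R (w, c.castSucc) (u w)).1 :=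
        fun v b => by rw [AddSubgroup.val_finsetSum, map_sum]
      obtain rfl | ⟨d, rfl⟩ := Fin.eq_zero_or_eq_succ b
      · rw [zc_dmat_zero, show x.1 = (M.mcx lo m).fpr R.Phi c.succ x.1 from x.2.1.symm, zc_fpr,
          if_neg (Fin.succ_ne_zero c).symm]
      · rw [zc_dmat_succ, hy]
        by_cases hd : d = c
        · subst hd
          rw [Finset.sum_eq_single w]
          · rw [zc_put_same]; exact hu w
          · intro v _ hv
            exact M.zc_put_ne lo m R (fun e => hv (Prod.ext_iff.1 e).1.symm) _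
          · simp
        · rw [show x.1 = (M.mcx lo m).fpr R.Phi c.succ x.1 from x.2.1.symm, zc_fpr,
            if_neg (fun e => hd (Fin.succ_injective _ e))]
          rw [Finset.sum_eq_zero fun v _ => M.zc_put_ne lo m R
            (fun e => hd (Fin.castSucc_injective _ (Prod.ext_iff.1 e).2)) _]
          exact map_zero _

theorem zeroH_of (hwin : M.Window lo m) (a : Fin (m + 1))
    (hz : ∀ w, IsZero ((M.evK R w).homology (deg lo m a))) :
    ((M.mcx lo m).gcx R.Phi).ZeroH a := fun x hx => by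
  refine (exists_fd_iff hwin a ⟨x, hx⟩).2 fun w => ?_
  exact (cls_eq_zero (M.evK R w) _ ⟨_, zc_mem_cyc hwin a w ⟨x, hx⟩⟩).1
    (@Subsingleton.elim _ (ModuleCat.subsingleton_of_isZero (hz w)) _ _)

set_option maxRecDepth 4000 in
theorem isoH_of (hwin : M.Window lo m) (n : ℕ) (a : Fin (m + 1))
    (φ : ∀ w, (M.evK (counterRep k (n + 1)) w).homology (deg lo m a) →ₗ[k] (Fin n → k))
    (hφ : ∀ w, Function.Bijective (φ w))
    (h0 : ∀ g y, φ 1 ((HomologicalComplex.homologyMap
      (((counterRep k (n + 1)).evM.mapHomologicalComplex (ComplexShape.up ℤ)).map (M.G0 g))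
        (deg lo m a)).hom y) = rep k n g (φ 0 y))
    (h1 : ∀ g y, φ 2 ((HomologicalComplex.homologyMap
      (((counterRep k (n + 1)).evM.mapHomologicalComplex (ComplexShape.up ℤ)).map (M.G1 g))
        (deg lo m a)).hom y) = rep k n g (φ 1 y)) :
    ((M.mcx lo m).gcx (counterRep k (n + 1)).Phi).IsoH a (counterRep k n).Phi := by
  classical
  let R := counterRep k (n + 1)
  let G : GCx k m := (M.mcx lo m).gcx R.Phi
  let val : G.cy a → Fin 3 → (Fin n → k) := fun x w =>
    φ w (cls (M.evK R w) (deg lo m a) ⟨_, zc_mem_cyc hwin a w x⟩)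
  have hval : ∀ (x : G.cy a) (w : Fin 3) (z : cyc (M.evK R w) (deg lo m a)),
      M.zc lo m R (w, a) x.1.1 = z.1 → val x w = φ w (cls _ _ z) := fun x w z h => by
    show φ w (cls _ _ _) = _
    exact congrArg _ (congrArg _ (Subtype.ext h))
  have hval0 : ∀ (x : G.cy a) (w : Fin 3),
      M.zc lo m R (w, a) x.1.1 = 0 → val x w = 0 := fun x w h => by
    rw [hval x w 0 h, map_zero, map_zero]
  have hmap : ∀ (x x' : G.cy a) (w w' : Fin 3) (f : M.E w ⟶ M.E w'),
      x'.1.1 = M.act lo m R (amat w w' f) x.1.1 →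
        val x' w' = φ w' ((HomologicalComplex.homologyMap
          ((R.evM.mapHomologicalComplex (ComplexShape.up ℤ)).map f) (deg lo m a)).hom
            (cls (M.evK R w) (deg lo m a) ⟨_, zc_mem_cyc hwin a w x⟩)) := by
    intro x x' w w' f hx'
    have he : M.zc lo m R (w', a) x'.1.1
        = (R.evM.map (f.f (deg lo m a))).hom (M.zc lo m R (w, a) x.1.1) := by
      rw [hx', zc_amat_same]
    have hmem := zc_mem_cyc hwin a w' x'
    rw [he] at hmem
    rw [cls_map (deg lo m a) ((R.evM.mapHomologicalComplex (ComplexShape.up ℤ)).map f)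
      ⟨_, zc_mem_cyc hwin a w x⟩ hmem]
    exact hval x' w' ⟨_, hmem⟩ he
  have hadd : ∀ x y, val (x + y) = val x + val y := fun x y => funext fun w => by
    rw [hval (x + y) w (⟨_, zc_mem_cyc hwin a w x⟩ + ⟨_, zc_mem_cyc hwin a w y⟩)
      ((M.zc lo m R (w, a)).map_add _ _), map_add, map_add]
    rfl
  have hcoe : ∀ (c : Lam k) (x : G.cy a),
      (c • x).1.1 = M.act lo m R ((M.pre lo m).lin c) x.1.1 := fun _ _ => rfl
  let F : G.cy a → (counterRep k n).Phi := val
  have hFadd : ∀ x y, F (x + y) = F x + F y := hadd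
  have hsmul : ∀ (c : Lam k) (x : G.cy a), F (c • x) = c • F x := by
    intro c
    refine Lam.induction (P := fun c => ∀ x : G.cy a, F (c • x) = c • F x)
      ?_ ?_ ?_ ?_ ?_ ?_ ?_ c
    · intro c d hc hd x
      rw [add_smul, hFadd, hc, hd, add_smul]
    · intro c d hc hd x
      rw [mul_smul, hc, hd, mul_smul]
    · intro r x
      refine Eq.trans ?_ (algebraMap_smul (Lam k) r (F x)).symm
      have hr : ∀ w, M.zc lo m R (w, a) (algebraMap k (Lam k) r • x).1.1
          = r • M.zc lo m R (w, a) x.1.1 := by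
        intro w
        rw [hcoe, Algebra.algebraMap_eq_smul_one, map_smul]
        have : M.act lo m R (r • (M.pre lo m).lin 1) x.1.1 = r • x.1.1 := by
          conv_rhs => rw [← x.1.2]
          funext i
          show ∑ j, (r • (M.pre lo m).lin 1) i j • x.1.1 j
            = r • ∑ j, ((M.pre lo m).lin 1) i j • x.1.1 j
          simp only [Matrix.smul_apply, smul_assoc, Finset.smul_sum]
        rw [this]
        rfl
      refine funext fun w => ?_
      show val _ w = r • val x w
      rw [hval _ w (r • ⟨_, zc_mem_cyc hwin a w x⟩) (hr w), map_smul, map_smul]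
    · intro i x
      rw [Rep.phi_eps]
      have hx' := hcoe (Lam.eps i) x
      rw [LamPre.lin_eps] at hx'
      have hx : _ = M.act lo m R (amat i i (𝟙 (M.E i))) x.1.1 := hx'
      refine funext fun w => ?_
      by_cases hw : w = i
      · subst hw
        refine Eq.trans ?_ (Pi.single_eq_same (M := fun _ => Fin n → k) w _).symm
        refine hval _ w ⟨_, zc_mem_cyc hwin a w x⟩ ?_
        rw [hx, zc_amat_same, HomologicalComplex.id_f, CategoryTheory.Functor.map_id]
        rfl
      · refine Eq.trans ?_ (Pi.single_eq_of_ne (M := fun _ => Fin n → k) hw _).symm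
        exact hval0 _ w (by rw [hx, zc_amat_ne _ _ _ _ _ hw])
    · intro g x
      rw [Rep.phi_arrU]
      have hx' := hcoe (Lam.arrU g) x
      rw [LamPre.lin_arrU] at hx'
      have hx : _ = M.act lo m R (amat 0 1 (M.G0 g)) x.1.1 := hx'
      refine funext fun w => ?_
      by_cases hw : w = 1
      · subst hw
        refine Eq.trans ?_ (Pi.single_eq_same (M := fun _ => Fin n → k) 1 _).symm
        exact (hmap x _ 0 1 (M.G0 g) hx).trans (h0 g _)
      · refine Eq.trans ?_ (Pi.single_eq_of_ne (M := fun _ => Fin n → k) hw _).symm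
        exact hval0 _ w (by rw [hx, zc_amat_ne _ _ _ _ _ hw])
    · intro g x
      rw [Rep.phi_arrV]
      have hx' := hcoe (Lam.arrV g) x
      rw [LamPre.lin_arrV] at hx'
      have hx : _ = M.act lo m R (amat 1 2 (M.G1 g)) x.1.1 := hx'
      refine funext fun w => ?_
      by_cases hw : w = 2
      · subst hw
        refine Eq.trans ?_ (Pi.single_eq_same (M := fun _ => Fin n → k) 2 _).symm
        exact (hmap x _ 1 2 (M.G1 g) hx).trans (h1 g _)
      · refine Eq.trans ?_ (Pi.single_eq_of_ne (M := fun _ => Fin n → k) hw _).symm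
        exact hval0 _ w (by rw [hx, zc_amat_ne _ _ _ _ _ hw])
    · intro g h hp x
      rw [Rep.phi_arrW _ _ _ hp]
      refine funext fun w => hval0 _ w ?_
      rw [hcoe, LamPre.lin_arrW, LamPre.c_pivot _ _ _ hp]
      rw [show M.act lo m R 0 x.1.1 = 0 from (M.mcx lo m).mv_zero _ _, map_zero]
  refine ⟨{ toFun := F, map_add' := hFadd, map_smul' := hsmul }, ?_, fun x => ?_⟩
  · intro f
    have hs : ∀ w, ∃ z : cyc (M.evK R w) (deg lo m a),
        φ w (cls _ _ z) = (show Fin 3 → (Fin n → k) from f) w := fun w => by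
      obtain ⟨y, hy⟩ := (hφ w).2 ((show Fin 3 → (Fin n → k) from f) w)
      obtain ⟨z, hz⟩ := cls_surjective (M.evK R w) (deg lo m a) y
      exact ⟨z, by rw [hz, hy]⟩
    choose z hz using hs
    let y : (M.mcx lo m).FZ R.Phi := ∑ w, M.put lo m R (w, a) (z w).1
    have hy : ∀ (v : Fin 3) (b : Fin (m + 1)), M.zc lo m R (v, b) y.1
        = ∑ w, M.zc lo m R (v, b) (M.put lo m R (w, a) (z w).1).1 := fun v b => by
      simp only [y, AddSubgroup.val_finsetSum, map_sum]
    have hya : ∀ v, M.zc lo m R (v, a) y.1 = (z v).1 := fun v => by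
      rw [hy, Finset.sum_eq_single v]
      · exact M.zc_put_same lo m R _ _
      · intro w _ hw
        exact M.zc_put_ne lo m R (fun e => hw (Prod.ext_iff.1 e).1.symm) _
      · simp
    have hyb : ∀ v b, b ≠ a → M.zc lo m R (v, b) y.1 = 0 := fun v b hb => by
      rw [hy]
      exact Finset.sum_eq_zero fun w _ =>
        M.zc_put_ne lo m R (fun e => hb (Prod.ext_iff.1 e).2) _
    have hmem : y ∈ G.cy a := by
      refine ⟨fz_ext fun ⟨v, b⟩ => ?_, fz_ext fun ⟨v, b⟩ => ?_⟩
      · show M.zc lo m R (v, b) ((M.mcx lo m).fpr R.Phi a y).1 = _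
        rw [zc_fpr]
        split_ifs with hb
        · rfl
        · exact (hyb v b hb).symm
      · show M.zc lo m R (v, b) (M.act lo m R (M.dmat lo m) y.1) = M.zc lo m R (v, b) 0
        rw [map_zero]
        obtain rfl | ⟨d, rfl⟩ := Fin.eq_zero_or_eq_succ b
        · exact M.zc_dmat_zero lo m R v _
        · rw [zc_dmat_succ]
          by_cases hd : d.castSucc = a
          · subst hd
            rw [hya]
            exact (mem_cyc _ _ _).1 (z v).2 _
          · rw [hyb v _ hd, map_zero]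
    refine ⟨⟨y, hmem⟩, funext fun w => ?_⟩
    exact (hval ⟨y, hmem⟩ w (z w) (hya w)).trans (hz w)
  · show F x = 0 ↔ _
    rw [exists_fd_iff hwin a x]
    constructor
    · intro h w
      refine (cls_eq_zero (M.evK R w) _ ⟨_, zc_mem_cyc hwin a w x⟩).1 ((hφ w).1 ?_)
      rw [map_zero]
      exact congrFun h w
    · intro h
      refine funext fun w => ?_
      show φ w (cls _ _ _) = 0
      rw [(cls_eq_zero (M.evK R w) _ ⟨_, zc_mem_cyc hwin a w x⟩).2 (h w), map_zero]

end Model

theorem exists_window : ∃ (lo : ℤ) (m : ℕ) (c : Fin m),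
    M.Window lo m ∧ Model.deg lo m c.castSucc = -1 ∧ Model.deg lo m c.succ = 0 := by
  choose l h hb using M.bdd
  let lo := min (min (l 0) (l 1)) (min (l 2) (-1))
  let hi := max (max (h 0) (h 1)) (max (h 2) 0)
  have hlo : lo ≤ -1 := le_trans (min_le_right _ _) (min_le_right _ _)
  have hhi : 0 ≤ hi := le_trans (le_max_right _ _) (le_max_right _ _)
  refine ⟨lo, (hi - lo).toNat, ⟨(-1 - lo).toNat, by omega⟩, fun w i hi' => hb w i ?_, ?_, ?_⟩
  · rw [Int.toNat_of_nonneg (by omega)] at hi'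
    fin_cases w <;> simp only [lo, hi] at hi' ⊢ <;> simp <;> omega
  · simp [Model.deg]; omega
  · simp [Model.deg]; omega

variable (k) in
/-- The finitistic dimension is infinite for some finite-dimensional algebra. -/
theorem exists_algebra_unbounded :
    ∃ (m : ℕ) (C : MCx k m), ∀ n : ℕ, ∃ N : ModuleCat.{0} (Alg C), Module.Finite (Alg C) N ∧
      (n : WithBot ℕ∞) < projectiveDimension N ∧ projectiveDimension N < ⊤ := by
  obtain ⟨M⟩ := exists_model_pattern (k := k)
  obtain ⟨lo, m, c, hwin, hd1, hd0⟩ := exists_window M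
  refine ⟨m, M.mcx lo m, ?_⟩
  let U : ℕ → ModuleCat.{0} (Lam k) := fun n => ModuleCat.of (Lam k) (counterRep k n).Phi
  have : ∀ n, Module.Finite (Lam k) (U n) := fun n => by
    have : Module.Finite k (counterRep k n).Phi :=
      inferInstanceAs (Module.Finite k (Fin 3 → Fin n → k))
    exact Module.Finite.of_restrictScalars_finite k (Lam k) (counterRep k n).Phi
  have hI : ∀ n (a : Fin (m + 1)), (Model.deg lo m a = 0 ∨ Model.deg lo m a = -1) →
      ((M.mcx lo m).gcx (counterRep k (n + 1)).Phi).IsoH a (counterRep k n).Phi := by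
    intro n a ha
    obtain ⟨φ, hφ, h0, h1⟩ := M.classes n _ ha
    exact Model.isoH_of hwin n a φ hφ h0 h1
  refine unbounded_of_pattern (M.mcx lo m) U c ?_ ?_ ?_
  · exact inferInstanceAs (Subsingleton (Fin 3 → Fin 0 → k))
  · refine ⟨(fun _ _ => 1 : Fin 3 → Fin 1 → k), fun h => ?_⟩
    have h' := congrFun (congrFun (((counterRep k 1).phi_eps 0 _).symm.trans h) 0) 0
    rw [Pi.single_eq_same] at h'
    exact one_ne_zero h'
  · intro n
    refine ⟨hI n _ (Or.inr hd1), hI n _ (Or.inl hd0), fun a ha ha' => ?_⟩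
    refine Model.zeroH_of hwin a fun w => M.vanish n _ ?_ ?_ w
    · intro e
      refine ha' (Fin.ext ?_)
      simp [Model.deg] at e hd0 ⊢
      omega
    · intro e
      refine ha (Fin.ext ?_)
      simp [Model.deg] at e hd1 ⊢
      omega

end Vale.Agent.P176
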