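import Vale.Agent.P176.Lam

/-!
The category of vertices, bounded complexes over its matrix category, evaluation at counter
representations, and the Verdier quotient by objects with acyclic evaluations.
-/

namespace Vale.Agent.P176

open CategoryTheory Limits Pretriangulated ZeroObject

set_option linter.unusedSimpArgs false
set_option linter.unusedSectionVars false

/-- A vertex. -/
structure Vx (k : Type) where
  v : Fin 3

variable {k : Type} [Field k]

/-- Paths between two vertices. -/
def homGrp (v w : Vx k) : AddSubgroup (Lam k) where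
  carrier := {x | Lam.eps w.v * x * Lam.eps v.v = x}
  zero_mem' := by simp
  add_mem' := fun {x y} hx hy => by
    show Lam.eps w.v * (x + y) * Lam.eps v.v = x + y
    rw [mul_add, add_mul, hx, hy]
  neg_mem' := fun {x} hx => by
    show Lam.eps w.v * -x * Lam.eps v.v = -x
    rw [mul_neg, neg_mul, hx]

theorem Lam.eps_idem (i : Fin 3) : (Lam.eps i : Lam k) * Lam.eps i = Lam.eps i := by
  fin_cases i <;> ext1 <;> simp [Lam.eps, ← Pi.single_mul]

theorem homGrp_left {v w : Vx k} (x : homGrp v w) : Lam.eps w.v * x.1 = x.1 := by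
  conv_lhs => rw [← x.2, ← mul_assoc, ← mul_assoc, Lam.eps_idem]
  exact x.2

theorem homGrp_right {v w : Vx k} (x : homGrp v w) : x.1 * Lam.eps v.v = x.1 := by
  conv_lhs => rw [← x.2, mul_assoc, Lam.eps_idem]
  exact x.2

instance : Category (Vx k) where
  Hom v w := homGrp v w
  id v := ⟨Lam.eps v.v, by
    show Lam.eps v.v * Lam.eps v.v * Lam.eps v.v = Lam.eps v.v
    rw [Lam.eps_idem, Lam.eps_idem]⟩
  comp {u v w} f g := ⟨g.1 * f.1, by
    show Lam.eps w.v * (g.1 * f.1) * Lam.eps u.v = g.1 * f.1
    rw [← mul_assoc, homGrp_left g, mul_assoc, homGrp_right f]⟩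
  id_comp f := Subtype.ext (homGrp_right f)
  comp_id f := Subtype.ext (homGrp_left f)
  assoc _ _ _ := Subtype.ext (mul_assoc _ _ _).symm

instance : Preadditive (Vx k) where
  homGroup v w := inferInstanceAs (AddCommGroup (homGrp v w))
  add_comp _ _ _ f f' g := Subtype.ext (mul_add _ _ _)
  comp_add _ _ _ f g g' := Subtype.ext (add_mul _ _ _)

theorem vx_comp_val {u v w : Vx k} (f : u ⟶ v) (g : v ⟶ w) :
    (f ≫ g : u ⟶ w).1 = g.1 * f.1 := rfl

theorem vx_id_val (v : Vx k) : (𝟙 v : v ⟶ v).1 = Lam.eps v.v := rfl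

theorem vx_zero_val (v w : Vx k) : (0 : v ⟶ w).1 = 0 := rfl

/-- A representation of the counter relations. -/
structure Rep (k : Type) [Field k] where
  V : Type
  [grp : AddCommGroup V]
  [mdl : Module k V]
  x : Gen → Module.End k V
  rel : CRel x

attribute [instance] Rep.grp Rep.mdl

namespace Rep

variable (R : Rep k)

/-- The three-vertex data of a representation. -/
noncomputable def data : LamData k (Module.End k (Fin 3 → R.V)) where
  e i := LinearMap.single k (fun _ => R.V) i ∘ₗ LinearMap.proj i
  a g := LinearMap.single k (fun _ => R.V) 1 ∘ₗ R.x g ∘ₗ LinearMap.proj 0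
  b g := LinearMap.single k (fun _ => R.V) 2 ∘ₗ R.x g ∘ₗ LinearMap.proj 1
  e_mul i j := by
    refine LinearMap.ext fun f => funext fun l => ?_
    by_cases h : i = j
    · subst h; simp [Module.End.mul_apply, Pi.single_apply]
    · simp [Module.End.mul_apply, Pi.single_apply, h]
  e_sum := by
    refine LinearMap.ext fun f => funext fun l => ?_
    simp [LinearMap.sum_apply, Finset.sum_apply, Pi.single_apply]
  ea i g := by
    refine LinearMap.ext fun f => funext fun l => ?_
    by_cases h : i = 1
    · subst h; simp [Module.End.mul_apply, Pi.single_apply]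
    · simp [Module.End.mul_apply, Pi.single_apply, h]
  ae i g := by
    refine LinearMap.ext fun f => funext fun l => ?_
    by_cases h : i = 0
    · subst h; simp [Module.End.mul_apply, Pi.single_apply]
    · simp [Module.End.mul_apply, Pi.single_apply, h, Ne.symm h]
  eb i g := by
    refine LinearMap.ext fun f => funext fun l => ?_
    by_cases h : i = 2
    · subst h; simp [Module.End.mul_apply, Pi.single_apply]
    · simp [Module.End.mul_apply, Pi.single_apply, h]
  be i g := by
    refine LinearMap.ext fun f => funext fun l => ?_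
    by_cases h : i = 1
    · subst h; simp [Module.End.mul_apply, Pi.single_apply]
    · simp [Module.End.mul_apply, Pi.single_apply, h, Ne.symm h]
  rel g h := by
    refine LinearMap.ext fun f => funext fun l => ?_
    have hr := LinearMap.congr_fun (R.rel.toC.nf_rel g h) (f 0)
    simp only [Module.End.mul_apply, LinearMap.comp_apply, LinearMap.coe_proj,
      Function.eval, LinearMap.coe_single, Pi.single_eq_same, LinearMap.sum_apply,
      Finset.sum_apply, LinearMap.smul_apply, Pi.smul_apply] at hr ⊢
    by_cases hl : l = 2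
    · subst hl
      simp only [Pi.single_eq_same]
      rw [hr, sum_intCast_smul]
    · simp [Pi.single_eq_of_ne hl]

/-- The three-vertex module of a representation. -/
def Phi : Type := Fin 3 → R.V

instance : AddCommGroup R.Phi := inferInstanceAs (AddCommGroup (Fin 3 → R.V))

noncomputable instance : Module (Lam k) R.Phi :=
  Module.compHom (Fin 3 → R.V) R.data.hom.toRingHom

theorem phi_smul (c : Lam k) (f : R.Phi) : c • f = (R.data.hom c (show Fin 3 → R.V from f)) := rfl

/-- The component of a path. -/
noncomputable def comp (i j : Fin 3) : Lam k →ₗ[k] (R.V →ₗ[k] R.V) where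
  toFun c := LinearMap.proj j ∘ₗ R.data.hom c ∘ₗ LinearMap.single k (fun _ => R.V) i
  map_add' c c' := by
    rw [map_add]; refine LinearMap.ext fun v => ?_; simp
  map_smul' r c := by
    rw [map_smul]; refine LinearMap.ext fun v => ?_; simp

theorem comp_apply (i j : Fin 3) (c : Lam k) (v : R.V) :
    R.comp i j c v = R.data.hom c (Pi.single i v) j := rfl

theorem comp_eps (i : Fin 3) : R.comp i i (Lam.eps i) = LinearMap.id := by
  refine LinearMap.ext fun v => ?_
  rw [comp_apply, LamData.hom_eps]
  simp [data]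

theorem comp_arrU (g : Gen) : R.comp 0 1 (Lam.arrU g) = R.x g := by
  refine LinearMap.ext fun v => ?_
  rw [comp_apply, LamData.hom_arrU]
  simp [data]

theorem comp_arrV (g : Gen) : R.comp 1 2 (Lam.arrV g) = R.x g := by
  refine LinearMap.ext fun v => ?_
  rw [comp_apply, LamData.hom_arrV]
  simp [data]

theorem comp_mul {i j l : Fin 3} (f g : Lam k) (hf : Lam.eps j * f = f) :
    R.comp i l (g * f) = R.comp j l g ∘ₗ R.comp i j f := by
  refine LinearMap.ext fun v => ?_
  have h : R.data.hom f (Pi.single i v) = Pi.single j (R.comp i j f v) := by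
    conv_lhs => rw [← hf, map_mul, LamData.hom_eps]
    simp [data, Module.End.mul_apply, comp_apply]
  rw [LinearMap.comp_apply, comp_apply, comp_apply, map_mul, Module.End.mul_apply, h]

/-- Evaluation on vertices. -/
noncomputable def evC : Vx k ⥤ ModuleCat.{0} k where
  obj _ := ModuleCat.of k R.V
  map {v w} f := ModuleCat.ofHom (R.comp v.v w.v f.1)
  map_id v := ModuleCat.hom_ext (R.comp_eps v.v)
  map_comp {u v w} f g := ModuleCat.hom_ext (R.comp_mul f.1 g.1 (homGrp_left f))

/-- Evaluation on tuples of vertices. -/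
noncomputable def evM : Mat_ (Vx k) ⥤ ModuleCat.{0} k where
  obj M := ModuleCat.of k (M.ι → R.V)
  map {M N} f := ModuleCat.ofHom
    (LinearMap.pi fun j => ∑ i, (R.comp (M.X i).v (N.X j).v (f i j).1) ∘ₗ LinearMap.proj i)
  map_id M := by
    classical
    refine ModuleCat.hom_ext (LinearMap.ext fun z => funext fun j => ?_)
    simp only [ModuleCat.hom_ofHom, LinearMap.pi_apply, LinearMap.sum_apply, LinearMap.comp_apply,
      LinearMap.coe_proj, Function.eval]
    rw [Finset.sum_eq_single j]
    · rw [Mat_.id_apply_self, vx_id_val, R.comp_eps]; rfl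
    · intro i _ hi
      rw [Mat_.id_apply_of_ne M i j hi, vx_zero_val, map_zero, LinearMap.zero_apply]
    · simp
  map_comp {M N P} f g := by
    refine ModuleCat.hom_ext (LinearMap.ext fun z => funext fun j => ?_)
    simp only [ModuleCat.hom_ofHom, ModuleCat.hom_comp, LinearMap.comp_apply, LinearMap.pi_apply,
      LinearMap.sum_apply, LinearMap.coe_proj, Function.eval, Mat_.comp_apply, map_sum]
    rw [Finset.sum_comm]
    refine Finset.sum_congr rfl fun i _ => ?_
    rw [AddSubgroup.val_finsetSum, map_sum, LinearMap.sum_apply]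
    refine Finset.sum_congr rfl fun l _ => ?_
    rw [vx_comp_val, R.comp_mul _ _ (homGrp_left (f i l))]
    rfl

theorem evM_map_apply {M N : Mat_ (Vx k)} (f : M ⟶ N) (z : M.ι → R.V) (j : N.ι) :
    (R.evM.map f).hom z j = ∑ i, R.comp (M.X i).v (N.X j).v (f i j).1 (z i) := by
  show (LinearMap.pi fun j => ∑ i, (R.comp (M.X i).v (N.X j).v (f i j).1) ∘ₗ LinearMap.proj i) z j
    = _
  simp [LinearMap.sum_apply]

instance : R.evM.Additive where
  map_add {M N f g} := by
    refine ModuleCat.hom_ext (LinearMap.ext fun z => funext fun j => ?_)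
    show (R.evM.map (f + g)).hom z j = (R.evM.map f).hom z j + (R.evM.map g).hom z j
    erw [evM_map_apply, evM_map_apply, evM_map_apply, ← Finset.sum_add_distrib]
    refine Finset.sum_congr rfl fun i _ => ?_
    show R.comp (M.X i).v (N.X j).v ((f i j).1 + (g i j).1) (z i) = _
    rw [map_add, LinearMap.add_apply]

end Rep

/-- The counter representation on `Fin n → k`. -/
@[reducible]
def counterRep (k : Type) [Field k] [CharZero k] (n : ℕ) : Rep k where
  V := Fin n → k
  x := rep k n
  rel := rep_crel k n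

/-! ### Bounded complexes -/

/-- The homotopy category of the matrix category. -/
abbrev KK (k : Type) [Field k] := HomotopyCategory (Mat_ (Vx k)) (ComplexShape.up ℤ)

/-- Strictly bounded complexes. -/
def IsBdd {V : Type*} [Category V] [Preadditive V] (A : CochainComplex V ℤ) : Prop :=
  ∃ lo hi : ℤ, ∀ i, (i < lo ∨ hi < i) → IsZero (A.X i)

/-- Bounded objects of the homotopy category. -/
def bd (k : Type) [Field k] : ObjectProperty (KK k) :=
  fun X => ∃ A : CochainComplex (Mat_ (Vx k)) ℤ, IsBdd A ∧
    Nonempty ((HomotopyCategory.quotient _ _).obj A ≅ X)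

instance : HasBinaryBiproducts (Mat_ (Vx k)) := hasBinaryBiproducts_of_finite_biproducts _

instance : (bd k).IsClosedUnderIsomorphisms where
  of_iso {X Y} e h := by
    obtain ⟨A, hA, ⟨i⟩⟩ := h
    exact ⟨A, hA, ⟨i ≪≫ e⟩⟩

theorem isBdd_zero : IsBdd (0 : CochainComplex (Mat_ (Vx k)) ℤ) :=
  ⟨0, 0, fun i _ => (HomologicalComplex.eval _ _ i).map_isZero (isZero_zero _)⟩

theorem IsBdd.shift {A : CochainComplex (Mat_ (Vx k)) ℤ} (h : IsBdd A) (n : ℤ) :
    IsBdd (A⟦n⟧) := by
  obtain ⟨lo, hi, h⟩ := h
  exact ⟨lo - n, hi - n, fun i hi' => h (i + n) (by omega)⟩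

theorem IsBdd.cone {A B : CochainComplex (Mat_ (Vx k)) ℤ} (φ : A ⟶ B) (hA : IsBdd A)
    (hB : IsBdd B) : IsBdd (CochainComplex.mappingCone φ) := by
  obtain ⟨lo, hi, hA⟩ := hA
  obtain ⟨lo', hi', hB⟩ := hB
  refine ⟨min (lo - 1) lo', max hi hi', fun i hi'' => ?_⟩
  rw [CochainComplex.mappingCone.isZero_X_iff]
  exact ⟨hA (i + 1) (by omega), hB i (by omega)⟩

instance : (bd k).IsTriangulatedClosed₃ := by
  refine ObjectProperty.IsTriangulatedClosed₃.mk' fun T hT h₁ h₂ => ?_
  obtain ⟨A, hA, ⟨eA⟩⟩ := h₁
  obtain ⟨B, hB, ⟨eB⟩⟩ := h₂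
  obtain ⟨φ, hφ⟩ := (HomotopyCategory.quotient _ _).map_surjective (eA.hom ≫ T.mor₁ ≫ eB.inv)
  refine ⟨_, hA.cone φ hB, ⟨Triangle.π₃.mapIso (isoTriangleOfIso₁₂ _ T
    (HomotopyCategory.mappingCone_triangleh_distinguished φ) hT eA eB ?_)⟩⟩
  show (HomotopyCategory.quotient _ _).map φ ≫ eB.hom = eA.hom ≫ T.mor₁
  simp [hφ]

instance : (bd k).IsStableUnderShift ℤ where
  isStableUnderShiftBy n :=
    { le_shift := fun X hX => by
        obtain ⟨A, hA, ⟨e⟩⟩ := hX
        exact ⟨A⟦n⟧, hA.shift n,
          ⟨((HomotopyCategory.quotient _ _).commShiftIso n).app A ≪≫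
            (shiftFunctor (KK k) n).mapIso e⟩⟩ }

instance : (bd k).IsTriangulated where
  exists_zero := ⟨(HomotopyCategory.quotient _ _).obj 0, Functor.map_isZero _ (isZero_zero _),
    0, isBdd_zero, ⟨Iso.refl _⟩⟩
  toIsTriangulatedClosed₂ := .of_isTriangulatedClosed₃

/-- Bounded homotopy category. -/
abbrev KB (k : Type) [Field k] := (bd k).FullSubcategory

/-- Homology of the evaluation at a representation. -/
noncomputable abbrev Rep.hFun (R : Rep k) : KB k ⥤ ModuleCat.{0} k :=
  ((bd k).ι ⋙ R.evM.mapHomotopyCategory (ComplexShape.up ℤ)) ⋙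
    HomotopyCategory.homologyFunctor (ModuleCat.{0} k) (ComplexShape.up ℤ) 0

instance (R : Rep k) : R.hFun.IsHomological := inferInstance

variable [CharZero k]

variable (k) in
/-- Objects with acyclic evaluations at every counter representation. -/
def acyc : ObjectProperty (KB k) :=
  fun X => ∀ n, (counterRep k n).hFun.homologicalKernel X

theorem acyc_le (n : ℕ) : acyc k ≤ (counterRep k n).hFun.homologicalKernel := fun _ h => h n

instance : (acyc k).IsClosedUnderIsomorphisms where
  of_iso e h n := ObjectProperty.prop_of_iso _ e (h n)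

instance : (acyc k).IsTriangulated where
  exists_zero := ⟨0, isZero_zero _, fun n m => (shiftFunctor (KB k) m ⋙ (counterRep k n).hFun).map_isZero (isZero_zero _)⟩
  toIsStableUnderShift :=
    ⟨fun a => ⟨fun X hX n => (((counterRep k n).hFun.homologicalKernel).le_shift a X (hX n) :)⟩⟩
  toIsTriangulatedClosed₂ := ObjectProperty.IsTriangulatedClosed₂.mk' fun T hT h₁ h₃ n =>
    ((counterRep k n).hFun.homologicalKernel).ext_of_isTriangulatedClosed₂ T hT (h₁ n) (h₃ n)

/-- The Verdier quotient. -/
noncomputable abbrev TT (k : Type) [Field k] [CharZero k] := (acyc k).trW.Localization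

/-- The quotient functor. -/
noncomputable abbrev QT (k : Type) [Field k] [CharZero k] : KB k ⥤ TT k := (acyc k).trW.Q

end Vale.Agent.P176
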