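import Vale.Agent.P176.Quotient

/-!
The cone of `1 - e` carries the derived generators; its evaluation at the representation on
`Fin (n+1) → k` is the representation on `Fin n → k` in two adjacent degrees.
-/

namespace Vale.Agent.P176

open CategoryTheory Limits Pretriangulated ZeroObject

set_option linter.unusedSimpArgs false
set_option linter.unusedSectionVars false

variable {k : Type} [Field k]

/-- Generic splitting: from `u, v` with the cone relations one gets an action of the corner. -/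
structure Split {C : Type*} [Category C] [Preadditive C] [HasShift C ℤ]
    (P Y : C) (e : P ⟶ P) (i : P ⟶ Y) (p : Y ⟶ P⟦(1 : ℤ)⟧) where
  u : Y ⟶ P
  v : P⟦(1 : ℤ)⟧ ⟶ Y
  iu : i ≫ u = e
  ue : u ≫ e = u
  vp : v ≫ p = e⟦(1 : ℤ)⟧'
  vu : v ≫ u = 0

namespace Split

variable {C : Type*} [Category C] [Preadditive C] [HasShift C ℤ]
  [∀ n : ℤ, (shiftFunctor C n).Additive]
  {P Y : C} {e : P ⟶ P} {i : P ⟶ Y} {p : Y ⟶ P⟦(1 : ℤ)⟧} (S : Split P Y e i p)

/-- The action. -/
def rho (a : P ⟶ P) : Y ⟶ Y := S.u ≫ a ≫ i + p ≫ a⟦(1 : ℤ)⟧' ≫ S.v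

theorem rho_u (hip : i ≫ p = 0) (a : P ⟶ P) (ha : a ≫ e = a) : S.rho a ≫ S.u = S.u ≫ a := by
  simp [rho, Preadditive.add_comp, S.iu, S.vu, ha]

theorem rho_p (hip : i ≫ p = 0) (a : P ⟶ P) (ha : a ≫ e = a) :
    S.rho a ≫ p = p ≫ a⟦(1 : ℤ)⟧' := by
  simp only [rho, Preadditive.add_comp, Category.assoc, hip, comp_zero, zero_add, S.vp,
    ← Functor.map_comp, ha]

theorem rho_comp (hip : i ≫ p = 0) (a b : P ⟶ P) (hb : b ≫ e = b) :
    S.rho (b ≫ a) = S.rho b ≫ S.rho a := by
  have hu := S.rho_u hip b hb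
  have hp := S.rho_p hip b hb
  conv_rhs => arg 2; rw [rho]
  rw [Preadditive.comp_add, reassoc_of% hu, reassoc_of% hp]
  simp [rho, Functor.map_comp]

theorem rho_add (a b : P ⟶ P) : S.rho (a + b) = S.rho a + S.rho b := by
  simp only [rho, Preadditive.add_comp, Preadditive.comp_add, Functor.map_add]
  abel

theorem rho_sub (a b : P ⟶ P) : S.rho (a - b) = S.rho a - S.rho b := by
  simp only [rho, Preadditive.sub_comp, Preadditive.comp_sub, Functor.map_sub]
  abel

/-- The action, on endomorphisms. -/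
def rhoEnd (a : End P) : End Y := S.rho a

theorem rhoEnd_add (a b : End P) : S.rhoEnd (a + b) = S.rhoEnd a + S.rhoEnd b := S.rho_add a b

theorem rhoEnd_sub (a b : End P) : S.rhoEnd (a - b) = S.rhoEnd a - S.rhoEnd b := S.rho_sub a b

theorem rhoEnd_mul (hip : i ≫ p = 0) (a b : End P) (hb : b ≫ e = b) :
    S.rhoEnd (a * b) = S.rhoEnd a * S.rhoEnd b := S.rho_comp hip a b hb

end Split

theorem exists_split {C : Type*} [Category C] [HasZeroObject C] [HasShift C ℤ] [Preadditive C]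
    [∀ n : ℤ, (shiftFunctor C n).Additive] [Pretriangulated C] {P Y : C} (e : P ⟶ P)
    (he : e ≫ e = e) (i : P ⟶ Y) (p : Y ⟶ P⟦(1 : ℤ)⟧)
    (hT : Triangle.mk (𝟙 P - e) i p ∈ distTriang C) :
    ∃ S : Split P Y e i p, S.rho e = 𝟙 Y := by
  have hip : i ≫ p = 0 := comp_distTriang_mor_zero₂₃ _ hT
  have hfe : (𝟙 P - e) ≫ e = 0 := by
    rw [Preadditive.sub_comp, Category.id_comp, he, sub_self]
  obtain ⟨u0, hu0⟩ := Triangle.yoneda_exact₂ _ hT e hfe
  have hef : e⟦(1 : ℤ)⟧' ≫ (𝟙 P - e)⟦(1 : ℤ)⟧' = 0 := by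
    rw [← Functor.map_comp, Preadditive.comp_sub, Category.comp_id, he, sub_self, Functor.map_zero]
  obtain ⟨v0, hv0⟩ := Triangle.coyoneda_exact₁ _ hT (e⟦(1 : ℤ)⟧') hef
  simp only [Triangle.mk_mor₂, Triangle.mk_mor₃] at hu0 hv0
  let u : Y ⟶ P := u0 ≫ e
  let w0 : P⟦(1 : ℤ)⟧ ⟶ Y := v0
  have hw0 : e⟦(1 : ℤ)⟧' = w0 ≫ p := hv0
  have iu : i ≫ u = e := by
    refine (Category.assoc _ _ _).symm.trans ?_
    refine Eq.trans ?_ he
    exact congrArg (fun z => z ≫ e) hu0.symm
  have ue : u ≫ e = u := by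
    refine (Category.assoc _ _ _).trans ?_
    exact congrArg (fun z => u0 ≫ z) he
  let v' : P⟦(1 : ℤ)⟧ ⟶ Y := w0 - (w0 ≫ u) ≫ i
  have v'p : v' ≫ p = e⟦(1 : ℤ)⟧' := by
    simp only [v', Preadditive.sub_comp, Category.assoc, hip, comp_zero, sub_zero]
    exact hw0.symm
  have v'u : v' ≫ u = 0 := by
    simp only [v', Preadditive.sub_comp, Category.assoc, iu, ue, sub_self]
  let v : P⟦(1 : ℤ)⟧ ⟶ Y := e⟦(1 : ℤ)⟧' ≫ v'
  have vp : v ≫ p = e⟦(1 : ℤ)⟧' := by
    simp only [v, Category.assoc, v'p, ← Functor.map_comp, he]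
  have vu : v ≫ u = 0 := by simp only [v, Category.assoc, v'u, comp_zero]
  let S : Split P Y e i p := ⟨u, v, iu, ue, vp, vu⟩
  refine ⟨S, ?_⟩
  have hei : e ≫ i = i := by
    have := comp_distTriang_mor_zero₁₂ _ hT
    change (𝟙 P - e) ≫ i = 0 at this
    rw [Preadditive.sub_comp, Category.id_comp, sub_eq_zero] at this
    exact this.symm
  have hpe : p ≫ e⟦(1 : ℤ)⟧' = p := by
    have := comp_distTriang_mor_zero₃₁ _ hT
    change p ≫ (shiftFunctor C (1 : ℤ)).map (𝟙 P - e) = 0 at this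
    rw [Functor.map_sub, CategoryTheory.Functor.map_id, Preadditive.comp_sub, Category.comp_id,
      sub_eq_zero] at this
    exact this.symm
  have hiq : i ≫ S.rho e = i := by
    simp only [Split.rho, Preadditive.comp_add, reassoc_of% iu, reassoc_of% hip, zero_comp,
      add_zero, hei, S]
  have hqp : S.rho e ≫ p = p := by rw [S.rho_p hip e he, hpe]
  have hqq : S.rho e ≫ S.rho e = S.rho e := by
    have := S.rho_comp hip e e he
    rw [he] at this
    exact this.symm
  have h0 : i ≫ (𝟙 Y - S.rho e) = 0 := by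
    rw [Preadditive.comp_sub, Category.comp_id, hiq, sub_self]
  obtain ⟨w, hw⟩ : ∃ w : P⟦(1 : ℤ)⟧ ⟶ Y, 𝟙 Y - S.rho e = p ≫ w :=
    Triangle.yoneda_exact₃ _ hT (𝟙 Y - S.rho e) h0
  have h1 : (𝟙 Y - S.rho e) ≫ (𝟙 Y - S.rho e) = 0 := by
    conv_lhs => arg 2; rw [hw]
    rw [← Category.assoc, Preadditive.sub_comp, Category.id_comp, hqp, sub_self, zero_comp]
  simp only [Preadditive.sub_comp, Preadditive.comp_sub, Category.id_comp, Category.comp_id,
    hqq, sub_self, sub_zero, sub_eq_zero] at h1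
  exact h1.symm

/-- Transport of the relations to the corner action. -/
theorem Split.crel {C : Type*} [Category C] [Preadditive C] [HasShift C ℤ]
    [∀ n : ℤ, (shiftFunctor C n).Additive]
    {P Y : C} {i : P ⟶ Y} {p : Y ⟶ P⟦(1 : ℤ)⟧} {x : Gen → End P}
    (S : Split P Y (x .e) i p) (hip : i ≫ p = 0) (hx : CRel x) (h1 : S.rho (x .e) = 𝟙 Y) :
    CRel (fun g => S.rhoEnd (derived x g)) := by
  have hd := hx.derived_rel
  have hm : ∀ g g', S.rhoEnd (derived x g) * S.rhoEnd (derived x g')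
      = S.rhoEnd (derived x g * derived x g') := fun g g' =>
    (S.rhoEnd_mul hip _ _ (hd.left_unit g')).symm
  refine ⟨h1, ?_, ?_, ?_, ?_, ?_, ?_, ?_, ?_, ?_, ?_⟩
  all_goals simp only [hm]
  all_goals simp only [hd.ab, hd.ba, hd.ea, hd.be, hd.MH, hd.HM, hd.fM, hd.fH, hd.Ma, hd.Mb,
    S.rhoEnd_sub, S.rhoEnd_add]

variable (k) in
/-- The complementary idempotent. -/
noncomputable def qc [CharZero k] : PP k ⟶ PP k := (1 - gam k .e : End (PP k))

variable [CharZero k]

instance (n : ℕ) : (GT (k := k) n).Additive := inferInstance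

theorem gt_exact (n : ℕ) (T : Triangle (TT k)) (hT : T ∈ distTriang (TT k)) :
    Function.Exact ((GT n).map T.mor₁).hom ((GT n).map T.mor₂).hom :=
  (ShortComplex.ShortExact.moduleCat_exact_iff_function_exact _).1
    ((GT n).map_distinguished_exact T hT)

theorem gt_exact12 (n : ℕ) {A B D : TT k} (f : A ⟶ B) (g : B ⟶ D) (h : D ⟶ A⟦(1 : ℤ)⟧)
    (hT : Triangle.mk f g h ∈ distTriang (TT k)) :
    Function.Exact ((GT n).map f).hom ((GT n).map g).hom := gt_exact n _ hT

/-- Cancellation of opposite shifts. -/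
noncomputable def back (A : TT k) : (A⟦(1 : ℤ)⟧)⟦(-1 : ℤ)⟧ ⟶ A :=
  (shiftEquiv (TT k) (1 : ℤ)).unitIso.inv.app A

theorem back_naturality {A A' : TT k} (ψ : A ⟶ A') :
    (ψ⟦(1 : ℤ)⟧')⟦(-1 : ℤ)⟧' ≫ back A' = back A ≫ ψ :=
  (shiftEquiv (TT k) (1 : ℤ)).unitIso.inv.naturality ψ

/-- The connecting morphism, shifted back. -/
noncomputable def bound {A D : TT k} (h : D ⟶ A⟦(1 : ℤ)⟧) : D⟦(-1 : ℤ)⟧ ⟶ A :=
  h⟦(-1 : ℤ)⟧' ≫ back A

theorem gt_surj (n : ℕ) {A B D : TT k} (f : A ⟶ B) (g : B ⟶ D) (h : D ⟶ A⟦(1 : ℤ)⟧)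
    (hT : Triangle.mk f g h ∈ distTriang (TT k)) (hz : IsZero ((GT n).obj (A⟦(1 : ℤ)⟧))) :
    Function.Surjective ((GT n).map g).hom := by
  intro y
  have hex : Function.Exact ((GT n).map g).hom ((GT n).map h).hom :=
    gt_exact n _ (rot_of_distTriang _ hT)
  have := ModuleCat.subsingleton_of_isZero hz
  exact (hex y).1 (Subsingleton.elim _ _)

theorem exact_of_neg {U V W : Type*} [AddCommGroup U] [Module k U] [AddCommGroup V] [Module k V]
    [AddCommGroup W] [Module k W] (φ : U →ₗ[k] V) (ψ : V →ₗ[k] W)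
    (h : Function.Exact (-φ : U →ₗ[k] V) ψ) : Function.Exact φ ψ := fun y => by
  rw [h y]
  constructor
  · rintro ⟨x, rfl⟩
    exact ⟨-x, by simp⟩
  · rintro ⟨x, rfl⟩
    exact ⟨-x, by simp⟩

theorem gt_exact01 (n : ℕ) {A B D : TT k} (f : A ⟶ B) (g : B ⟶ D) (h : D ⟶ A⟦(1 : ℤ)⟧)
    (hT : Triangle.mk f g h ∈ distTriang (TT k)) :
    Function.Exact ((GT n).map (bound h)).hom ((GT n).map f).hom := by
  refine exact_of_neg _ _ ?_
  have hex : Function.Exact ((GT n).map (-bound h)).hom ((GT n).map f).hom :=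
    gt_exact n _ (inv_rot_of_distTriang _ hT)
  have e : ((GT n).map (-bound h)).hom = -((GT n).map (bound h)).hom := by
    rw [Functor.map_neg, ModuleCat.hom_neg]
  rwa [e] at hex

theorem gt_bound_inj (n : ℕ) {A B D : TT k} (f : A ⟶ B) (g : B ⟶ D) (h : D ⟶ A⟦(1 : ℤ)⟧)
    (hT : Triangle.mk f g h ∈ distTriang (TT k)) (hz : IsZero ((GT n).obj (B⟦(-1 : ℤ)⟧))) :
    Function.Injective ((GT n).map (bound h)).hom := by
  refine (injective_iff_map_eq_zero _).2 fun y hy => ?_
  obtain ⟨x, hx⟩ := (gt_exact n _ (inv_rot_of_distTriang _ (inv_rot_of_distTriang _ hT)) y).1 (by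
    have e : ((GT n).map (-bound h)).hom y = 0 := by
      rw [Functor.map_neg, ModuleCat.hom_neg, LinearMap.neg_apply, hy, neg_zero]
    exact e)
  rw [← hx]
  have h0 : x = 0 := @Subsingleton.elim _ (ModuleCat.subsingleton_of_isZero hz) x 0
  rw [h0]
  exact map_zero _

theorem bound_naturality {A A' D D' : TT k} (h : D ⟶ A⟦(1 : ℤ)⟧) (h' : D' ⟶ A'⟦(1 : ℤ)⟧)
    (φ : D ⟶ D') (ψ : A ⟶ A') (w : φ ≫ h' = h ≫ ψ⟦(1 : ℤ)⟧') :
    φ⟦(-1 : ℤ)⟧' ≫ bound h' = bound h ≫ ψ := by
  simp only [bound]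
  rw [← Category.assoc, ← Functor.map_comp, w, Functor.map_comp, Category.assoc, Category.assoc,
    back_naturality]

theorem kap_gam_apply (n : ℕ) (g : Gen) (z : (GT (k := k) n).obj (PP k)) :
    (kap n).hom.hom (((GT n).map (gam k g)).hom z) = rep k n g ((kap n).hom.hom z) := by
  exact LinearMap.congr_fun (congrArg ModuleCat.Hom.hom (kap_gam n g)) z

variable (k) in
/-- The derived generators, as morphisms. -/
noncomputable def gd (g : Gen) : PP k ⟶ PP k := (derived (gam k) g : End (PP k))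

theorem kap_derived (n : ℕ) (g : Gen) (z : (GT (k := k) n).obj (PP k)) :
    (kap n).hom.hom (((GT n).map (gd k g)).hom z)
      = derived (rep k n) g ((kap n).hom.hom z) := by
  have hm : ∀ (x y : End (PP k)) (z : (GT (k := k) n).obj (PP k)),
      ((GT n).map (x * y : End (PP k))).hom z = ((GT n).map x).hom (((GT n).map y).hom z) := by
    intro x y z
    rw [End.mul_def, Functor.map_comp]
    rfl
  show (kap n).hom.hom (((GT n).map (derived (gam k) g : End (PP k))).hom z) = _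
  cases g
  · exact kap_gam_apply n .e z
  all_goals
    simp only [derived, Module.End.mul_apply]
    rw [← kap_gam_apply]
    repeat rw [← kap_gam_apply]
    congr 1
    repeat rw [hm]

theorem kap_one_sub_e (n : ℕ) (z : (GT (k := k) n).obj (PP k)) :
    (kap n).hom.hom (((GT n).map (qc k)).hom z)
      = (kap n).hom.hom z - rep k n .e ((kap n).hom.hom z) := by
  show (kap n).hom.hom (((GT n).map (qc k)).hom z) = _
  rw [show qc k = 𝟙 (PP k) - (show PP k ⟶ PP k from gam k .e) from rfl]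
  rw [Functor.map_sub, CategoryTheory.Functor.map_id]
  rw [ModuleCat.hom_sub, LinearMap.sub_apply, map_sub, kap_gam_apply]
  rfl

/-- The cone, with its action and its evaluations. -/
theorem exists_cone :
    ∃ (Y0 : KB k) (x : Gen → End ((QT k).obj Y0)),
      CRel x ∧
      (∀ n, ∃ φ : (GT (k := k) (n + 1)).obj ((QT k).obj Y0) →ₗ[k] (Fin n → k),
        Function.Bijective φ ∧
          ∀ g y, φ (((GT (n + 1)).map (x g)).hom y) = rep k n g (φ y)) ∧
      (∀ n, ∃ φ : (GT (k := k) (n + 1)).obj (((QT k).obj Y0)⟦(-1 : ℤ)⟧) →ₗ[k] (Fin n → k),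
        Function.Bijective φ ∧
          ∀ g y, φ (((GT (n + 1)).map ((x g)⟦(-1 : ℤ)⟧')).hom y) = rep k n g (φ y)) ∧
      (∀ n (j : ℤ), j ≠ 0 → j ≠ -1 →
        IsZero ((GT (k := k) (n + 1)).obj (((QT k).obj Y0)⟦j⟧))) := by
  obtain ⟨Y', i', p', hT'⟩ := distinguished_cocone_triangle (qc k)
  have : (QT k).EssSurj := Localization.essSurj (QT k) (acyc k).trW
  let Y0 := (QT k).objPreimage Y'
  let eY := (QT k).objObjPreimageIso Y'
  let i : PP k ⟶ (QT k).obj Y0 := i' ≫ eY.inv
  let p : (QT k).obj Y0 ⟶ (PP k)⟦(1 : ℤ)⟧ := eY.hom ≫ p'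
  have hT : Triangle.mk (qc k) i p ∈ distTriang (TT k) :=
    isomorphic_distinguished _ hT' _
      (Triangle.isoMk _ _ (Iso.refl _) (Iso.refl _) eY
        (by show qc k ≫ 𝟙 _ = 𝟙 _ ≫ qc k; simp)
        (by show (i' ≫ eY.inv) ≫ eY.hom = 𝟙 _ ≫ i'; simp)
        (by show (eY.hom ≫ p') ≫ (shiftFunctor (TT k) (1 : ℤ)).map (𝟙 _) = eY.hom ≫ p'; simp))
  have hip : i ≫ p = 0 := comp_distTriang_mor_zero₂₃ _ hT
  obtain ⟨S, hS⟩ := exists_split (C := TT k) (gam k .e) gam_crel.ee i p hT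
  have hd := (gam_crel (k := k)).derived_rel
  refine ⟨Y0, fun g => S.rhoEnd (derived (gam k) g), S.crel hip gam_crel hS, ?_, ?_, ?_⟩
  · intro n
    let φ := proj k n ∘ₗ (kap (n + 1)).hom.hom ∘ₗ ((GT (n + 1)).map S.u).hom
    have hsurjI : Function.Surjective ((GT (n + 1)).map i).hom :=
      gt_surj (n + 1) _ i p hT (isZero_GT_shift (n + 1) 1 one_ne_zero)
    have hui : ∀ z, (kap (n + 1)).hom.hom (((GT (n + 1)).map S.u).hom
        (((GT (n + 1)).map i).hom z)) = rep k (n + 1) .e ((kap (n + 1)).hom.hom z) := by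
      intro z
      rw [← LinearMap.comp_apply (f := ((GT (n + 1)).map S.u).hom), ← ModuleCat.hom_comp,
        ← Functor.map_comp, S.iu, kap_gam_apply]
    refine ⟨φ, ⟨(injective_iff_map_eq_zero φ).2 fun y hy => ?_, fun w => ?_⟩, fun g y => ?_⟩
    · obtain ⟨z, rfl⟩ := hsurjI y
      simp only [φ, LinearMap.comp_apply, hui] at hy
      have he0 : rep k (n + 1) .e ((kap (n + 1)).hom.hom z) = 0 := by
        have h2 : rep k (n + 1) .e (rep k (n + 1) .e ((kap (n + 1)).hom.hom z))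
            = rep k (n + 1) .e ((kap (n + 1)).hom.hom z) :=
          LinearMap.congr_fun (rep_crel k (n + 1)).ee _
        rw [← h2, ← incl_proj, hy, map_zero]
      have hz : ((GT (n + 1)).map (qc k)).hom z = z := by
        refine (ModuleCat.mono_iff_injective (kap (n + 1)).hom).1 inferInstance ?_
        show (kap (n + 1)).hom.hom _ = (kap (n + 1)).hom.hom z
        rw [kap_one_sub_e, he0, sub_zero]
      rw [← hz]
      exact (gt_exact12 (n + 1) _ i p hT).apply_apply_eq_zero z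
    · obtain ⟨z, hz⟩ := (ModuleCat.epi_iff_surjective (kap (n + 1)).hom).1 inferInstance
        (incl k n w)
      refine ⟨((GT (n + 1)).map i).hom z, ?_⟩
      simp only [φ, LinearMap.comp_apply, hui]
      rw [show (kap (n + 1)).hom.hom z = incl k n w from hz, ← incl_proj, proj_incl, proj_incl]
    · simp only [φ, LinearMap.comp_apply]
      rw [← LinearMap.comp_apply (f := ((GT (n + 1)).map S.u).hom), ← ModuleCat.hom_comp,
        ← Functor.map_comp]
      rw [show S.rhoEnd (derived (gam k) g) ≫ S.u = S.u ≫ gd k g from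
        S.rho_u hip _ (hd.left_unit g), Functor.map_comp, ModuleCat.hom_comp,
        LinearMap.comp_apply, kap_derived]
      set t := (kap (n + 1)).hom.hom (((GT (n + 1)).map S.u).hom y)
      have ht : incl k n (proj k n t) = t := by
        rw [incl_proj]
        simp only [t]
        rw [← kap_gam_apply, ← LinearMap.comp_apply (g := ((GT (n + 1)).map S.u).hom),
          ← ModuleCat.hom_comp, ← Functor.map_comp, S.ue]
      conv_lhs => rw [← ht, derived_incl, proj_incl]
  · intro n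
    let δ : (GT (k := k) (n + 1)).obj (((QT k).obj Y0)⟦(-1 : ℤ)⟧) →ₗ[k]
        (GT (k := k) (n + 1)).obj (PP k) := ((GT (n + 1)).map (bound p)).hom
    let φ := proj k n ∘ₗ (kap (n + 1)).hom.hom ∘ₗ δ
    have hinj : Function.Injective δ :=
      gt_bound_inj (n + 1) _ i p hT (isZero_GT_shift (n + 1) (-1) (by norm_num))
    have hrange : ∀ z, ((GT (n + 1)).map (qc k)).hom z = 0 → ∃ y, δ y = z := fun z hz =>
      (gt_exact01 (n + 1) _ i p hT z).1 hz
    have hker : ∀ y, rep k (n + 1) .e ((kap (n + 1)).hom.hom (δ y))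
        = (kap (n + 1)).hom.hom (δ y) := by
      intro y
      have h0 : ((GT (n + 1)).map (qc k)).hom (δ y) = 0 :=
        (gt_exact01 (n + 1) _ i p hT).apply_apply_eq_zero y
      have := congrArg (kap (n + 1)).hom.hom h0
      rw [kap_one_sub_e, map_zero, sub_eq_zero] at this
      exact this.symm
    refine ⟨φ, ⟨(injective_iff_map_eq_zero φ).2 fun y hy => ?_, fun w => ?_⟩, fun g y => ?_⟩
    · simp only [φ, LinearMap.comp_apply] at hy
      apply hinj
      rw [map_zero]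
      refine (ModuleCat.mono_iff_injective (kap (n + 1)).hom).1 inferInstance ?_
      show (kap (n + 1)).hom.hom _ = (kap (n + 1)).hom.hom 0
      rw [map_zero, ← hker, ← incl_proj, hy, map_zero]
    · obtain ⟨z, hz⟩ := (ModuleCat.epi_iff_surjective (kap (n + 1)).hom).1 inferInstance
        (incl k n w)
      change (kap (n + 1)).hom.hom z = incl k n w at hz
      obtain ⟨y, hy⟩ := hrange z (by
        refine (ModuleCat.mono_iff_injective (kap (n + 1)).hom).1 inferInstance ?_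
        show (kap (n + 1)).hom.hom _ = (kap (n + 1)).hom.hom 0
        rw [kap_one_sub_e, map_zero, hz, ← incl_proj, proj_incl, sub_self])
      refine ⟨y, ?_⟩
      simp only [φ, LinearMap.comp_apply, hy, hz, proj_incl]
    · simp only [φ, LinearMap.comp_apply]
      have hnat : (S.rhoEnd (derived (gam k) g))⟦(-1 : ℤ)⟧' ≫ bound p
          = bound p ≫ gd k g :=
        bound_naturality p p _ _ (S.rho_p hip _ (hd.left_unit g))
      have hδ : δ (((GT (n + 1)).map ((S.rhoEnd (derived (gam k) g))⟦(-1 : ℤ)⟧')).hom y)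
          = ((GT (n + 1)).map (gd k g)).hom (δ y) := by
        simp only [δ]
        rw [← LinearMap.comp_apply, ← ModuleCat.hom_comp, ← Functor.map_comp, hnat,
          Functor.map_comp, ModuleCat.hom_comp, LinearMap.comp_apply]
      rw [hδ, kap_derived]
      set t := (kap (n + 1)).hom.hom (δ y)
      have ht : incl k n (proj k n t) = t := by rw [incl_proj]; exact hker y
      conv_lhs => rw [← ht, derived_incl, proj_incl]
  · intro n j hj0 hj1
    have hz1 : IsZero ((GT (k := k) (n + 1)).obj ((PP k)⟦j⟧)) := isZero_GT_shift (n + 1) j hj0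
    have hz2 : IsZero ((GT (k := k) (n + 1)).obj (((PP k)⟦(1 : ℤ)⟧)⟦j⟧)) :=
      IsZero.of_iso (isZero_GT_shift (n + 1) (1 + j) (by omega))
        ((GT (n + 1)).mapIso ((shiftFunctorAdd (TT k) (1 : ℤ) j).app (PP k)).symm)
    exact ((GT (n + 1)).map_distinguished_exact _
      (Triangle.shift_distinguished _ (rot_of_distTriang _ hT) j)).isZero_of_both_zeros
      (hz1.eq_of_src _ _) (hz2.eq_of_tgt _ _)

end Vale.Agent.P176
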