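import Mathlib

/-!
The counter relations: seven generators whose relations reproduce themselves in the corner
cut out by the idempotent `e`, together with the models `Fin n → k`.
-/

namespace Vale.Agent.P176

set_option linter.unusedSimpArgs false

/-- The seven generators. -/
inductive Gen
  | one | a | b | M | H | e | f
  deriving DecidableEq

instance : Fintype Gen where
  elems := {.one, .a, .b, .M, .H, .e, .f}
  complete g := by cases g <;> simp

/-- Normal form of a product of two generators (right hand sides of the relations). -/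
def nf : Gen → Gen → (Gen × Gen → ℤ)
  | .a, .b => Pi.single (.e, .one) 1
  | .b, .a => Pi.single (.f, .one) 1
  | .e, .a => Pi.single (.a, .one) 1
  | .b, .e => Pi.single (.b, .one) 1
  | .M, .H => Pi.single (.f, .one) 1
  | .H, .M => Pi.single (.f, .one) 1
  | .f, .M => Pi.single (.M, .one) 1
  | .f, .H => Pi.single (.H, .one) 1
  | .M, .a => Pi.single (.a, .M) 1 - Pi.single (.a, .one) 1
  | .M, .b => Pi.single (.b, .M) 1 + Pi.single (.b, .one) 1
  | .one, .a => Pi.single (.a, .one) 1
  | .one, .b => Pi.single (.b, .one) 1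
  | .one, .M => Pi.single (.M, .one) 1
  | .one, .H => Pi.single (.H, .one) 1
  | .one, .e => Pi.single (.e, .one) 1
  | .one, .f => Pi.single (.f, .one) 1
  | g, h => Pi.single (g, h) 1

/-- A pair is a pivot if it is rewritten by `nf`. -/
def Pivot (g h : Gen) : Prop := nf g h ≠ Pi.single (g, h) 1

/-- Pivots never occur in right hand sides. -/
theorem nf_pivot_eq_zero (g h g' h' : Gen) (hp : Pivot g' h') : nf g h (g', h') = 0 := by
  revert hp
  unfold Pivot
  revert g h g' h'
  decide

theorem nf_nf (g h g' h' : Gen) :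
    nf g h (g', h') = 0 ∨ nf g' h' = Pi.single (g', h') 1 := by
  by_cases hp : Pivot g' h'
  · exact Or.inl (nf_pivot_eq_zero g h g' h' hp)
  · exact Or.inr (not_not.1 hp)

/-- The ten essential relations for a family of ring elements. -/
structure CRel {E : Type*} [Ring E] (x : Gen → E) : Prop where
  one_eq : x .one = 1
  ab : x .a * x .b = x .e
  ba : x .b * x .a = x .f
  ea : x .e * x .a = x .a
  be : x .b * x .e = x .b
  MH : x .M * x .H = x .f
  HM : x .H * x .M = x .f
  fM : x .f * x .M = x .M
  fH : x .f * x .H = x .H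
  Ma : x .M * x .a = x .a * x .M - x .a
  Mb : x .M * x .b = x .b * x .M + x .b

/-- The derived generators of the corner `e E e`. -/
def derived {E : Type*} [Ring E] (x : Gen → E) : Gen → E
  | .one => x .e
  | .a => x .a * x .e
  | .b => x .e * x .b
  | .M => x .M * x .e
  | .H => x .H * x .e
  | .e => x .a * x .e * x .b
  | .f => x .f * x .e

/-- The relations, with an arbitrary element playing the role of the unit. -/
structure CRelC {E : Type*} [Ring E] (u : E) (x : Gen → E) : Prop where
  one_eq : x .one = u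
  left_unit : ∀ g, u * x g = x g
  right_unit : ∀ g, x g * u = x g
  ab : x .a * x .b = x .e
  ba : x .b * x .a = x .f
  ea : x .e * x .a = x .a
  be : x .b * x .e = x .b
  MH : x .M * x .H = x .f
  HM : x .H * x .M = x .f
  fM : x .f * x .M = x .M
  fH : x .f * x .H = x .H
  Ma : x .M * x .a = x .a * x .M - x .a
  Mb : x .M * x .b = x .b * x .M + x .b

section
variable {E : Type*} [Ring E] {x : Gen → E}

theorem CRel.aba (h : CRel x) : x .a * x .b * x .a = x .a := by rw [h.ab, h.ea]

theorem CRel.bab (h : CRel x) : x .b * x .a * x .b = x .b := by rw [mul_assoc, h.ab, h.be]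

theorem CRel.ee (h : CRel x) : x .e * x .e = x .e := by
  nth_rewrite 2 [← h.ab]
  rw [← mul_assoc, h.ea, h.ab]

theorem CRel.fb (h : CRel x) : x .f * x .b = x .b := by rw [← h.ba, h.bab]

theorem CRel.af (h : CRel x) : x .a * x .f = x .a := by rw [← h.ba, ← mul_assoc, h.aba]

theorem CRel.Mf (h : CRel x) : x .M * x .f = x .M := by
  rw [← h.HM, ← mul_assoc, h.MH, h.fM]

theorem CRel.Me (h : CRel x) : x .M * x .e = x .e * x .M := by
  rw [← h.ab, ← mul_assoc, h.Ma, sub_mul, mul_assoc, h.Mb, mul_add, ← mul_assoc]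
  abel

theorem CRel.fe (h : CRel x) : x .f * x .e = x .e * x .f := by
  have h1 : x .f * x .e = x .f * x .e * x .f := by
    calc x .f * x .e = x .H * (x .M * x .e) := by rw [← h.HM, mul_assoc]
      _ = x .H * (x .e * (x .M * x .f)) := by rw [h.Me, h.Mf]
      _ = x .H * (x .M * x .e * x .f) := by rw [← mul_assoc (x .e), ← h.Me]
      _ = x .f * x .e * x .f := by rw [← h.HM]; simp only [mul_assoc]
  have h2 : x .e * x .f = x .f * x .e * x .f := by
    calc x .e * x .f = x .e * x .M * x .H := by rw [← h.MH, mul_assoc]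
      _ = x .f * x .M * x .e * x .H := by rw [← h.Me, h.fM]
      _ = x .f * x .e * (x .M * x .H) := by
            rw [mul_assoc (x .f), h.Me]; simp only [mul_assoc]
      _ = x .f * x .e * x .f := by rw [h.MH]
  rw [h1, ← h2]

theorem CRel.He (h : CRel x) : x .H * x .e = x .e * x .H := by
  have hHf : x .H * x .f = x .H := by rw [← h.MH, ← mul_assoc, h.HM, h.fH]
  calc x .H * x .e = x .H * x .f * x .e := by rw [hHf]
    _ = x .H * x .e * (x .M * x .H) := by rw [mul_assoc, h.fe, h.MH, ← mul_assoc]
    _ = x .H * (x .M * x .e) * x .H := by rw [h.Me]; simp only [mul_assoc]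
    _ = x .f * x .e * x .H := by rw [← mul_assoc (x .H), h.HM]
    _ = x .e * x .H := by rw [h.fe, mul_assoc, h.fH]

theorem CRel.derived_rel (h : CRel x) : CRelC (x .e) (derived x) := by
  have ee := h.ee
  have ee' : ∀ y, x .e * (x .e * y) = x .e * y := fun y => by rw [← mul_assoc, ee]
  have ea' : ∀ y, x .e * (x .a * y) = x .a * y := fun y => by rw [← mul_assoc, h.ea]
  have be' : ∀ y, x .b * (x .e * y) = x .b * y := fun y => by rw [← mul_assoc, h.be]
  have fe' : ∀ y, x .f * (x .e * y) = x .e * (x .f * y) := fun y => by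
    rw [← mul_assoc, h.fe, mul_assoc]
  have Me' : ∀ y, x .M * (x .e * y) = x .e * (x .M * y) := fun y => by
    rw [← mul_assoc, h.Me, mul_assoc]
  have He' : ∀ y, x .H * (x .e * y) = x .e * (x .H * y) := fun y => by
    rw [← mul_assoc, h.He, mul_assoc]
  have fb := h.fb
  have fb' : ∀ y, x .f * (x .b * y) = x .b * y := fun y => by rw [← mul_assoc, fb]
  have af := h.af
  have af' : ∀ y, x .a * (x .f * y) = x .a * y := fun y => by rw [← mul_assoc, af]
  have ba' : ∀ y, x .b * (x .a * y) = x .f * y := fun y => by rw [← mul_assoc, h.ba]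
  have MH' : ∀ y, x .M * (x .H * y) = x .f * y := fun y => by rw [← mul_assoc, h.MH]
  have HM' : ∀ y, x .H * (x .M * y) = x .f * y := fun y => by rw [← mul_assoc, h.HM]
  have aef : x .a * (x .e * x .f) = x .a * x .e := by rw [← h.fe, ← mul_assoc, af]
  have aef' : ∀ y, x .a * (x .e * (x .f * y)) = x .a * (x .e * y) := fun y => by
    rw [← fe', af']
  have Ma' : ∀ y, x .M * (x .a * y) = x .a * (x .M * y) - x .a * y := fun y => by
    rw [← mul_assoc, h.Ma, sub_mul, mul_assoc]
  have Mb' : ∀ y, x .M * (x .b * y) = x .b * (x .M * y) + x .b * y := fun y => by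
    rw [← mul_assoc, h.Mb, add_mul, mul_assoc]
  refine ⟨rfl, ?_, ?_, ?_, ?_, ?_, ?_, ?_, ?_, ?_, ?_, ?_, ?_⟩
  · intro g
    cases g <;> simp only [derived, mul_assoc, ee, ee', ea', h.ea, h.Me, h.He, h.fe]
  · intro g
    cases g <;> simp only [derived, mul_assoc, ee, h.be]
  all_goals
    simp only [derived, mul_assoc, ee, ee', h.ea, ea', h.be, be', h.fe, fe', h.Me, Me', h.He,
      He', fb, fb', af, af', aef, aef', h.ba, ba', h.MH, MH', h.HM, HM', h.fM, h.fH, Ma', Mb',
      h.Ma, h.Mb, mul_sub, mul_add]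

end

/-! ### The models `Fin n → k` -/

section
variable (k : Type) [Field k]

/-- Lower shift. -/
def opA (n : ℕ) : (Fin n → k) →ₗ[k] (Fin n → k) where
  toFun φ j := if hj : (j : ℕ) = 0 then 0 else φ ⟨(j : ℕ) - 1, by omega⟩
  map_add' φ ψ := by funext j; simp only [Pi.add_apply]; split_ifs <;> simp
  map_smul' c φ := by funext j; simp only [Pi.smul_apply, RingHom.id_apply]; split_ifs <;> simp

/-- Upper shift. -/
def opB (n : ℕ) : (Fin n → k) →ₗ[k] (Fin n → k) where
  toFun φ j := if hj : (j : ℕ) + 1 < n then φ ⟨(j : ℕ) + 1, hj⟩ else 0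
  map_add' φ ψ := by funext j; simp only [Pi.add_apply]; split_ifs <;> simp
  map_smul' c φ := by funext j; simp only [Pi.smul_apply, RingHom.id_apply]; split_ifs <;> simp

/-- A diagonal operator. -/
def opD (n : ℕ) (c : ℕ → k) : (Fin n → k) →ₗ[k] (Fin n → k) where
  toFun φ j := c j * φ j
  map_add' φ ψ := by funext j; simp [mul_add]
  map_smul' d φ := by funext j; simp [mul_left_comm]

/-- The counter operators on `Fin n → k`. -/
def rep (n : ℕ) : Gen → Module.End k (Fin n → k)
  | .one => 1
  | .a => opA k n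
  | .b => opB k n
  | .M => opD k n (fun j => ((n - 1 - j : ℕ) : k))
  | .H => opD k n (fun j => ((n - 1 - j : ℕ) : k)⁻¹)
  | .e => opD k n (fun j => if j = 0 then 0 else 1)
  | .f => opD k n (fun j => if j + 1 < n then 1 else 0)

variable [CharZero k]

theorem rep_crel (n : ℕ) : CRel (rep k n) := by
  refine ⟨rfl, ?_, ?_, ?_, ?_, ?_, ?_, ?_, ?_, ?_, ?_⟩ <;>
    refine LinearMap.ext fun φ => funext fun j => ?_ <;>
    simp only [rep, Module.End.mul_apply, LinearMap.sub_apply, LinearMap.add_apply, opA, opB, opD,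
      LinearMap.coe_mk, AddHom.coe_mk, Pi.sub_apply, Pi.add_apply]
  · by_cases hj : (j : ℕ) = 0
    · simp [hj]
    · rw [dif_neg hj, dif_pos (by omega), if_neg hj, one_mul]
      congr 1; ext; simp; omega
  · by_cases hj : (j : ℕ) + 1 < n
    · rw [dif_pos hj, dif_neg (by simp), if_pos hj, one_mul]
      congr 1
    · simp [hj]
  · by_cases hj : (j : ℕ) = 0 <;> simp [hj]
  · by_cases hj : (j : ℕ) + 1 < n <;> simp [hj]
  · by_cases hj : (j : ℕ) + 1 < n
    · have h0 : ((n - 1 - j : ℕ) : k) ≠ 0 := Nat.cast_ne_zero.2 (by omega)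
      simp [hj, h0]
    · have h0 : n - 1 - (j : ℕ) = 0 := by omega
      simp [hj, h0]
  · by_cases hj : (j : ℕ) + 1 < n
    · have h0 : ((n - 1 - j : ℕ) : k) ≠ 0 := Nat.cast_ne_zero.2 (by omega)
      simp [hj, h0]
    · have h0 : n - 1 - (j : ℕ) = 0 := by omega
      simp [hj, h0]
  · by_cases hj : (j : ℕ) + 1 < n
    · simp [hj]
    · have h0 : n - 1 - (j : ℕ) = 0 := by omega
      simp [hj, h0]
  · by_cases hj : (j : ℕ) + 1 < n
    · simp [hj]
    · have h0 : n - 1 - (j : ℕ) = 0 := by omega
      simp [hj, h0]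
  · by_cases hj : (j : ℕ) = 0
    · simp [hj]
    · have h0 : n - 1 - ((j : ℕ) - 1) = (n - 1 - (j : ℕ)) + 1 := by omega
      simp only [dif_neg hj, h0]
      push_cast
      ring
  · by_cases hj : (j : ℕ) + 1 < n
    · have h0 : n - 1 - (j : ℕ) = (n - 1 - ((j : ℕ) + 1)) + 1 := by omega
      simp only [dif_pos hj, h0]
      push_cast
      ring
    · simp [hj]

/-- Inclusion of `V n` as the positions `1, …, n` of `V (n+1)`. -/
def incl (n : ℕ) : (Fin n → k) →ₗ[k] (Fin (n + 1) → k) where
  toFun φ := Fin.cons 0 φ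
  map_add' φ ψ := by funext j; cases j using Fin.cases <;> simp
  map_smul' c φ := by funext j; cases j using Fin.cases <;> simp

/-- The restriction to the positions `1, …, n`. -/
def proj (n : ℕ) : (Fin (n + 1) → k) →ₗ[k] (Fin n → k) where
  toFun φ := Fin.tail φ
  map_add' _ _ := rfl
  map_smul' _ _ := rfl

omit [CharZero k] in
theorem proj_incl (n : ℕ) (φ : Fin n → k) : proj k n (incl k n φ) = φ := by
  funext j
  change Fin.tail (Fin.cons 0 φ : Fin (n + 1) → k) j = φ j
  simp

omit [CharZero k] in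
theorem incl_proj (n : ℕ) (φ : Fin (n + 1) → k) :
    incl k n (proj k n φ) = rep k (n + 1) .e φ := by
  funext j
  change (Fin.cons 0 (Fin.tail φ) : Fin (n + 1) → k) j = _
  cases j using Fin.cases <;> simp [rep, opD, Fin.tail]

omit [CharZero k] in
theorem derived_incl (n : ℕ) (g : Gen) (φ : Fin n → k) :
    derived (rep k (n + 1)) g (incl k n φ) = incl k n (rep k n g φ) := by
  funext j
  cases j using Fin.cases with
  | zero => cases g <;> simp [derived, rep, opA, opB, opD, incl]
  | succ i =>
    have hcons : ∀ (m : ℕ) (hm : m + 1 < n + 1), (Fin.cons 0 φ : Fin (n + 1) → k) ⟨m + 1, hm⟩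
        = φ ⟨m, by omega⟩ := fun m hm =>
      Fin.cons_succ (α := fun _ : Fin (n + 1) => k) 0 φ ⟨m, by omega⟩
    have hsub : n + 1 - 1 - ((i : ℕ) + 1) = n - 1 - (i : ℕ) := by omega
    cases g <;> simp only [derived, rep, Module.End.mul_apply, Module.End.one_apply, opA, opB,
      opD, incl, LinearMap.coe_mk, AddHom.coe_mk, Fin.cons_succ, Fin.val_succ, hsub,
      add_lt_add_iff_right, Nat.succ_ne_zero, Nat.add_one_ne_zero, if_false, dif_neg, one_mul,
      not_false_eq_true]
    · obtain ⟨i, hi⟩ := i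
      cases i with
      | zero => simp
      | succ i => simp [hcons]
    · by_cases hi : (i : ℕ) + 1 < n <;> simp [hi, hcons]
    · obtain ⟨i, hi⟩ := i
      cases i with
      | zero => simp
      | succ i => simp [hcons, hi]

end

end Vale.Agent.P176
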