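import Vale.Agent.P176.Modules

/-!
The functors `Z ↦ T Z` and `Z ↦ (Z = Z in positions a, a+1)` are exact and preserve finitely
generated projectives; hence finite projective dimension and no higher `Ext` into the test
module.
-/

namespace Vale.Agent.P176

open CategoryTheory Abelian

set_option linter.unusedSimpArgs false
set_option linter.unusedSectionVars false

variable {k : Type} [Field k] {m : ℕ} (C : MCx k m)

/-- A short complex of modules from two linear maps. -/
abbrev scMk {R : Type} [Ring R] {A B D : Type} [AddCommGroup A] [AddCommGroup B] [AddCommGroup D]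
    [Module R A] [Module R B] [Module R D] (f : A →ₗ[R] B) (g : B →ₗ[R] D)
    (h : Function.Exact f g) : ShortComplex (ModuleCat.{0} R) :=
  ShortComplex.mk (ModuleCat.ofHom f) (ModuleCat.ofHom g)
    (ModuleCat.hom_ext (LinearMap.ext fun x => h.apply_apply_eq_zero x))

theorem scMk_shortExact {R : Type} [Ring R] {A B D : Type} [AddCommGroup A] [AddCommGroup B]
    [AddCommGroup D] [Module R A] [Module R B] [Module R D] (f : A →ₗ[R] B) (g : B →ₗ[R] D)
    (h : Function.Exact f g) (hf : Function.Injective f) (hg : Function.Surjective g) :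
    (scMk f g h).ShortExact where
  exact := (ShortComplex.ShortExact.moduleCat_exact_iff_function_exact _).2 h
  mono_f := (ModuleCat.mono_iff_injective _).2 hf
  epi_g := (ModuleCat.epi_iff_surjective _).2 hg

section Generic

variable (F : ModuleCat.{0} (Lam k) → ModuleCat.{0} (Alg C))

/-- `F` sends finitely generated projectives to projectives and short exact sequences with
projective middle term to short exact sequences, with extension of maps into `W`. -/
structure ExactProj : Prop where
  proj : ∀ P : ModuleCat.{0} (Lam k), Module.Finite (Lam k) P → Module.Projective (Lam k) P →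
    Projective (F P)
  ses : ∀ (P Z : ModuleCat.{0} (Lam k)) (π : P →ₗ[Lam k] Z), Function.Surjective π →
    ∃ (f : F (ModuleCat.of (Lam k) (LinearMap.ker π)) ⟶ F P) (g : F P ⟶ F Z) (w : f ≫ g = 0),
      (ShortComplex.mk f g w).ShortExact ∧
      ∀ h : F (ModuleCat.of (Lam k) (LinearMap.ker π)) ⟶ W C, ∃ h', f ≫ h' = h

variable {F}

theorem ExactProj.finPd_of_le (hF : ExactProj C F) : ∀ (d : ℕ) (Z : ModuleCat.{0} (Lam k)),
    Module.Finite (Lam k) Z → HasProjectiveDimensionLE Z d →
    HasProjectiveDimensionLE (F Z) d := by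
  intro d
  induction d with
  | zero =>
    intro Z hfin hd
    rw [← projective_iff_hasProjectiveDimensionLE_zero] at hd ⊢
    exact hF.proj Z hfin ((IsProjective.iff_projective _).2 hd)
  | succ d ih =>
    intro Z hfin hd
    obtain ⟨r, π, hπ⟩ := Module.Finite.exists_fin' (Lam k) Z
    have hS : π.shortComplexKer.ShortExact := LinearMap.shortExact_shortComplexKer hπ
    have : Projective (π.shortComplexKer.X₂) :=
      (IsProjective.iff_projective _).1 (inferInstanceAs (Module.Projective (Lam k) (Fin r → Lam k)))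
    have hK : HasProjectiveDimensionLE (ModuleCat.of (Lam k) (LinearMap.ker π)) d :=
      hS.hasProjectiveDimensionLT_X₁ (d + 1)
        (hasProjectiveDimensionLT_of_ge _ 1 _ (by omega)) hd
    obtain ⟨f, g, w, hex, -⟩ := hF.ses (ModuleCat.of _ (Fin r → Lam k)) Z π hπ
    have : Projective (ShortComplex.mk f g w).X₂ :=
      hF.proj (ModuleCat.of _ (Fin r → Lam k)) (inferInstanceAs (Module.Finite (Lam k) (Fin r → Lam k)))
        (inferInstanceAs (Module.Projective (Lam k) (Fin r → Lam k)))
    exact hex.hasProjectiveDimensionLT_X₃ (d + 1)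
      (ih (ModuleCat.of (Lam k) (LinearMap.ker π)) inferInstance hK)
      (hasProjectiveDimensionLT_of_ge _ 1 _ (by omega))

theorem ExactProj.finPd (hF : ExactProj C F) (Z : ModuleCat.{0} (Lam k))
    [hZ : Module.Finite (Lam k) Z] : FinPd (F Z) :=
  ⟨3, hF.finPd_of_le C 2 Z hZ (pd_le_two Z)⟩

theorem ExactProj.ext_eq_zero (hF : ExactProj C F) : ∀ (j : ℕ) (Z : ModuleCat.{0} (Lam k)),
    Module.Finite (Lam k) Z → ∀ e : Ext.{0} (F Z) (W C) (j + 1), e = 0 := by
  intro j
  induction j with
  | zero =>
    intro Z hfin e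
    obtain ⟨r, π, hπ⟩ := Module.Finite.exists_fin' (Lam k) Z
    obtain ⟨f, g, w, hex, hext⟩ := hF.ses (ModuleCat.of _ (Fin r → Lam k)) Z π hπ
    have : Projective (ShortComplex.mk f g w).X₂ :=
      hF.proj (ModuleCat.of _ (Fin r → Lam k)) (inferInstanceAs (Module.Finite (Lam k) (Fin r → Lam k)))
        (inferInstanceAs (Module.Projective (Lam k) (Fin r → Lam k)))
    exact ext_one_eq_zero hex hext e
  | succ j ih =>
    intro Z hfin e
    obtain ⟨r, π, hπ⟩ := Module.Finite.exists_fin' (Lam k) Z
    obtain ⟨f, g, w, hex, -⟩ := hF.ses (ModuleCat.of _ (Fin r → Lam k)) Z π hπ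
    have : Projective (ShortComplex.mk f g w).X₂ :=
      hF.proj (ModuleCat.of _ (Fin r → Lam k)) (inferInstanceAs (Module.Finite (Lam k) (Fin r → Lam k)))
        (inferInstanceAs (Module.Projective (Lam k) (Fin r → Lam k)))
    exact ext_succ_eq_zero hex (ih (ModuleCat.of (Lam k) (LinearMap.ker π)) inferInstance) e

end Generic

/-! ### The extension modules -/

theorem fmap_surjective {Z Z' : Type} [AddCommGroup Z] [Module (Lam k) Z] [AddCommGroup Z']
    [Module (Lam k) Z'] (f : Z →ₗ[Lam k] Z') (hf : Function.Surjective f) :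
    Function.Surjective (C.fmap f) := by
  intro y
  choose x hx using fun i => hf (y.1 i)
  refine ⟨⟨C.mv Z (C.θ 1) x, ?_⟩, Subtype.ext ?_⟩
  · show C.mv Z (C.θ 1) _ = _
    rw [C.mv_mv, ← C.θ_mul, one_mul]
  · funext i
    rw [MCx.fmap_val]
    conv_rhs => rw [← y.2]
    simp [MCx.mv_apply, map_sum, map_smul, hx]

theorem tmc_projective (P : ModuleCat.{0} (Lam k)) (hfin : Module.Finite (Lam k) P)
    (hproj : Module.Projective (Lam k) P) : Projective (tmc C P) := by
  obtain ⟨r, f, g, -, -, hfg⟩ := Module.Finite.exists_comp_eq_id_of_projective (Lam k) P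
  rw [← IsProjective.iff_projective]
  let c : Fin r → (P →ₗ[Lam k] Lam k) := fun i => LinearMap.proj i ∘ₗ g
  let p : Fin r → P := fun i => f (Pi.single i 1)
  have hcp : ∀ z : P, ∑ i, c i z • p i = z := fun z => by
    conv_rhs => rw [← LinearMap.id_apply (R := Lam k) z, ← hfg, LinearMap.comp_apply,
      pi_eq_sum_univ' (g z)]
    simp [c, p, map_sum, map_smul, Pi.single_apply, eq_comm]
  let π : (Fin r → Alg C) →ₗ[Alg C] TZ C P :=
    Fintype.linearCombination (Alg C) (fun i => (show TZ C P from (p i, 0)))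
  let s : TZ C P →ₗ[Alg C] (Fin r → Alg C) :=
    { toFun := fun q i => ⟨Pi.single (Fin.last m) (c i q.1), 0, C.fmap (c i) q.2⟩
      map_add' := fun q q' => funext fun i => by
        refine Alg.ext ?_ (add_zero _).symm ?_
        · show (Pi.single (Fin.last m) (c i (q.1 + q'.1)) : Fin (m + 1) → Lam k) = _
          rw [map_add, Pi.single_add]; rfl
        · exact map_add (C.fmap (c i)) q.2 q'.2
      map_smul' := fun x q => funext fun i => by
        refine Alg.ext ?_ ?_ ?_
        · show Pi.single (Fin.last m) (c i (x.b (Fin.last m) • q.1)) = x.b * Pi.single _ _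
          rw [map_smul, smul_eq_mul]
          funext a
          by_cases ha : a = Fin.last m
          · subst ha; simp
          · simp [Pi.single_eq_of_ne ha]
        · funext a
          show (0 : Lam k) = x.b a.succ * (0 : Lam k)
            + x.δ a * (Pi.single (Fin.last m) (c i q.1) : Fin (m + 1) → Lam k) a.castSucc
          simp [Pi.single_eq_of_ne (Fin.castSucc_ne_last a)]
        · show C.fmap (c i) (C.zact P x.b x.δ q.2 + C.star q.1 x.n)
            = C.nact x.b x.δ (C.fmap (c i) q.2)
              + C.rmul x.n ((Pi.single (Fin.last m) (c i q.1) : Fin (m + 1) → Lam k) (Fin.last m))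
          rw [map_add, C.fmap_act, fmap_star, Pi.single_eq_same]
          rfl }
  refine Module.Projective.of_split s π (LinearMap.ext fun q => ?_)
  simp only [LinearMap.comp_apply, LinearMap.id_apply, π, Fintype.linearCombination_apply]
  obtain ⟨z, y⟩ := q
  refine Prod.ext ?_ ?_
  · refine (map_sum (AddMonoidHom.fst P (C.FZ P)) _ _).trans ?_
    conv_rhs => rw [← hcp z]
    refine Finset.sum_congr rfl fun i _ => ?_
    show (Pi.single (Fin.last m) (c i z) : Fin (m + 1) → Lam k) (Fin.last m) • p i = _
    rw [Pi.single_eq_same]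
  · refine (map_sum (AddMonoidHom.snd P (C.FZ P)) _ _).trans ?_
    refine Subtype.ext (funext fun l => ?_)
    show _ = y.1 l
    rw [AddSubgroup.val_finsetSum, Finset.sum_apply]
    conv_rhs => rw [← hcp (y.1 l)]
    refine Finset.sum_congr rfl fun i _ => ?_
    show (C.zact P (Pi.single (Fin.last m) (c i z)) 0 0
      + C.star (p i) (C.fmap (c i) y) : C.FZ P).1 l = _
    rw [map_zero, zero_add]
    rfl

theorem tmc_exactProj : ExactProj C (fun Z => tmc C Z) where
  proj := tmc_projective C
  ses P Z π hπ := by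
    let K := LinearMap.ker π
    have hex : Function.Exact (tmap C K.subtype) (tmap C π) := by
      rintro ⟨z, y⟩
      constructor
      · intro h
        have h1 : π z = 0 := congrArg Prod.fst h
        have h2 : ∀ i, π (y.1 i) = 0 := fun i =>
          congrArg (fun q : TZ C Z => q.2.1 i) h
        refine ⟨(⟨z, h1⟩, ⟨fun i => ⟨y.1 i, h2 i⟩, ?_⟩), ?_⟩
        · funext i
          refine Subtype.ext ?_
          have := congrFun y.2 i
          simpa [MCx.mv_apply] using this
        · exact Prod.ext rfl (Subtype.ext rfl)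
      · rintro ⟨⟨z', y'⟩, h⟩
        rw [← h]
        exact Prod.ext (LinearMap.mem_ker.1 z'.2)
          (Subtype.ext (funext fun i => LinearMap.mem_ker.1 (y'.1 i).2))
    refine ⟨(scMk _ _ hex).f, (scMk _ _ hex).g, (scMk _ _ hex).zero,
      scMk_shortExact _ _ hex ?_ ?_, fun h => ?_⟩
    · rintro ⟨z, y⟩ ⟨z', y'⟩ h
      exact Prod.ext (Subtype.ext (congrArg Prod.fst h))
        (Subtype.ext (funext fun i => Subtype.ext (congrArg (fun q : TZ C P => q.2.1 i) h)))
    · rintro ⟨z, y⟩
      obtain ⟨z', hz⟩ := hπ z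
      obtain ⟨y', hy⟩ := fmap_surjective C π hπ y
      exact ⟨(z', y'), Prod.ext hz hy⟩
    · obtain ⟨g, hg⟩ := tz_hom_extend C K K.subtype Subtype.val_injective h.hom
      exact ⟨ModuleCat.ofHom g, ModuleCat.hom_ext hg⟩

theorem finPd_tmc (Z : Type) [AddCommGroup Z] [Module (Lam k) Z] [Module.Finite (Lam k) Z] :
    FinPd (tmc C Z) :=
  (tmc_exactProj C).finPd C (ModuleCat.of (Lam k) Z)

theorem ext_tmc (Z : Type) [AddCommGroup Z] [Module (Lam k) Z] [Module.Finite (Lam k) Z]
    (j : ℕ) (hj : 1 ≤ j) (e : Ext.{0} (tmc C Z) (W C) j) : e = 0 := by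
  obtain ⟨i, rfl⟩ : ∃ i, j = i + 1 := ⟨j - 1, by omega⟩
  exact (tmc_exactProj C).ext_eq_zero C i (ModuleCat.of (Lam k) Z) ‹_› e

/-! ### Pairs -/

/-- Functoriality of pairs. -/
def pmap (a : Fin m) {Z Z' : Type} [AddCommGroup Z] [Module (Lam k) Z] [AddCommGroup Z']
    [Module (Lam k) Z'] (f : Z →ₗ[Lam k] Z') :
    (GCx.pair a Z).Mod C →ₗ[Alg C] (GCx.pair a Z').Mod C :=
  GCx.lift C (G := GCx.pair a Z) (G' := GCx.pair a Z') (f.prodMap f)
    (fun c p => by
      show (_, _) = (_, _)
      simp [apply_ite f])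
    (fun p => by
      show (_, _) = (_, _)
      simp)

theorem pair_projective (a : Fin m) (P : ModuleCat.{0} (Lam k))
    (hfin : Module.Finite (Lam k) P) (hproj : Module.Projective (Lam k) P) :
    Projective ((GCx.pair a P).mc C) := by
  obtain ⟨r, f, g, -, -, hfg⟩ := Module.Finite.exists_comp_eq_id_of_projective (Lam k) P
  rw [← IsProjective.iff_projective]
  let c : Fin r → (P →ₗ[Lam k] Lam k) := fun i => LinearMap.proj i ∘ₗ g
  let p : Fin r → P := fun i => f (Pi.single i 1)
  have hcp : ∀ z : P, ∑ i, c i z • p i = z := fun z => by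
    conv_rhs => rw [← LinearMap.id_apply (R := Lam k) z, ← hfg, LinearMap.comp_apply,
      pi_eq_sum_univ' (g z)]
    simp [c, p, map_sum, map_smul, Pi.single_apply, eq_comm]
  let π : (Fin r → Alg C) →ₗ[Alg C] (GCx.pair a P).Mod C :=
    Fintype.linearCombination (Alg C)
      (fun i => (show (GCx.pair a P).Mod C from (p i, 0)))
  let s : (GCx.pair a P).Mod C →ₗ[Alg C] (Fin r → Alg C) :=
    { toFun := fun q i => ⟨Pi.single a.castSucc (c i q.1), Pi.single a (c i q.2), 0⟩
      map_add' := fun q q' => funext fun i => by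
        refine Alg.ext ?_ ?_ (add_zero _).symm
        · show (Pi.single a.castSucc (c i (q.1 + q'.1)) : Fin (m + 1) → Lam k) = _
          rw [map_add, Pi.single_add]; rfl
        · show (Pi.single a (c i (q.2 + q'.2)) : Fin m → Lam k) = _
          rw [map_add, Pi.single_add]; rfl
      map_smul' := fun x q => funext fun i => by
        obtain ⟨z, w⟩ := q
        have hq : x • (show (GCx.pair a P).Mod C from (z, w))
            = (show (GCx.pair a P).Mod C from
              (x.b a.castSucc • z, x.b a.succ • w + x.δ a • z)) :=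
          GCx.pair_act a P x.b x.δ z w
        erw [hq]
        refine Alg.ext ?_ ?_ ?_
        · show Pi.single a.castSucc (c i (x.b a.castSucc • z)) = x.b * Pi.single _ _
          rw [map_smul, smul_eq_mul]
          funext e
          by_cases he : e = a.castSucc
          · subst he; simp
          · simp [Pi.single_eq_of_ne he]
        · show Pi.single a (c i (x.b a.succ • w + x.δ a • z))
            = GCx.dmul x.b (Pi.single a.castSucc (c i z)) x.δ (Pi.single a (c i w))
          rw [map_add, map_smul, map_smul, smul_eq_mul, smul_eq_mul]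
          funext e
          by_cases he : e = a
          · subst he; simp [GCx.dmul]
          · simp [GCx.dmul, Pi.single_eq_of_ne he,
              Pi.single_eq_of_ne (fun h => he (Fin.castSucc_inj.1 h))]
        · show (0 : C.FZ (Lam k)) = C.nact x.b x.δ 0
            + C.rmul x.n ((Pi.single a.castSucc (c i z) : Fin (m + 1) → Lam k) (Fin.last m))
          rw [map_zero, Pi.single_eq_of_ne (Fin.castSucc_ne_last a).symm, Alg.rmul_zero, add_zero] }
  refine Module.Projective.of_split s π (LinearMap.ext fun q => ?_)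
  simp only [LinearMap.comp_apply, LinearMap.id_apply, π, Fintype.linearCombination_apply]
  obtain ⟨z, w⟩ := q
  have hterm : ∀ i, (⟨Pi.single a.castSucc (c i z), Pi.single a (c i w), 0⟩ : Alg C)
      • (show (GCx.pair a P).Mod C from (p i, 0))
      = (show (GCx.pair a P).Mod C from (c i z • p i, c i w • p i)) := fun i => by
    refine (GCx.pair_act a P _ _ (p i) 0).trans ?_
    simp
  show (Fintype.linearCombination (Alg C) fun i =>
      (show (GCx.pair a P).Mod C from (p i, 0))) (s _) = _
  rw [Fintype.linearCombination_apply]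
  refine Eq.trans (Finset.sum_congr rfl fun i _ => hterm i) ?_
  refine Prod.ext ?_ ?_
  · exact (map_sum (AddMonoidHom.fst P P) _ _).trans (hcp z)
  · exact (map_sum (AddMonoidHom.snd P P) _ _).trans (hcp w)

theorem pair_exactProj (a : Fin m) : ExactProj C (fun Z => (GCx.pair a Z).mc C) where
  proj := pair_projective C a
  ses P Z π hπ := by
    let K := LinearMap.ker π
    have hex : Function.Exact (pmap C a K.subtype) (pmap C a π) := by
      rintro ⟨z, w⟩
      constructor
      · intro h
        exact ⟨(⟨z, congrArg Prod.fst h⟩, ⟨w, congrArg Prod.snd h⟩), rfl⟩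
      · rintro ⟨⟨z', w'⟩, h⟩
        rw [← h]
        exact Prod.ext (LinearMap.mem_ker.1 z'.2) (LinearMap.mem_ker.1 w'.2)
    refine ⟨(scMk _ _ hex).f, (scMk _ _ hex).g, (scMk _ _ hex).zero,
      scMk_shortExact _ _ hex ?_ ?_, fun h => ⟨0, ?_⟩⟩
    · rintro ⟨z, w⟩ ⟨z', w'⟩ h
      exact Prod.ext (Subtype.ext (congrArg Prod.fst h)) (Subtype.ext (congrArg Prod.snd h))
    · rintro ⟨z, w⟩
      obtain ⟨z', hz⟩ := hπ z
      obtain ⟨w', hw⟩ := hπ w
      exact ⟨(z', w'), Prod.ext hz hw⟩
    · have h0 : h = 0 := ModuleCat.hom_ext (pair_hom_eq_zero C a K h.hom)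
      rw [h0]; simp

theorem nullW_pair (a : Fin m) (Z : Type) [AddCommGroup Z] [Module (Lam k) Z]
    [Module.Finite (Lam k) Z] : NullW (W C) ((GCx.pair a Z).mc C) := by
  refine ⟨(pair_exactProj C a).finPd C (ModuleCat.of (Lam k) Z), fun j e => ?_⟩
  cases j with
  | zero =>
    obtain ⟨f, rfl⟩ := Ext.homEquiv₀.symm.surjective e
    have h0 : f = 0 := ModuleCat.hom_ext (pair_hom_eq_zero C a Z f.hom)
    rw [h0, Ext.homEquiv₀_symm_apply, Ext.mk₀_zero]
  | succ j => exact (pair_exactProj C a).ext_eq_zero C j (ModuleCat.of (Lam k) Z) ‹_› e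

end Vale.Agent.P176
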