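import Vale.Agent.P176.Lam

/-!
Every finitely generated module over `Lam k` has projective dimension at most two.
-/

namespace Vale.Agent.P176

open CategoryTheory

set_option linter.unusedSimpArgs false
set_option linter.unusedSectionVars false

variable {k : Type} [Field k]

namespace Lam

theorem eps_mul_eps (i j : Fin 3) :
    (eps i : Lam k) * eps j = if i = j then eps i else 0 := by
  fin_cases i <;> fin_cases j <;> ext1 <;> simp [eps, ← Pi.single_mul]
  all_goals (funext l; fin_cases l <;> simp)

theorem eps_sum : ∑ i, (eps i : Lam k) = 1 := by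
  rw [Fin.sum_univ_three]
  ext1
  · funext l; fin_cases l <;> simp [eps]
  all_goals simp [eps]

theorem eps_mul_mul_eps_self (i : Fin 3) (x : Lam k) : eps i * x * eps i = x.d i • eps i := by
  fin_cases i <;> ext1 <;> simp [eps]
  all_goals (funext l; fin_cases l <;> simp)

theorem eps_mul_mul_eps_of_lt {i j : Fin 3} (h : i < j) (x : Lam k) :
    eps i * x * eps j = 0 := by
  fin_cases i <;> fin_cases j <;> simp at h <;> ext1 <;> simp [eps]
  all_goals (funext l; fin_cases l <;> simp)

theorem mul_eps_two (x : Lam k) : x * eps 2 = x.d 2 • eps 2 := by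
  ext1 <;> simp [eps]
  funext l; fin_cases l <;> simp

instance : IsNoetherianRing (Lam k) := IsNoetherianRing.of_finite k (Lam k)

end Lam

open Lam

/-- `Above j Z`: the module vanishes at all vertices below `j`. -/
def Above (j : ℕ) (Z : Type) [AddCommGroup Z] [Module (Lam k) Z] : Prop :=
  ∀ i : Fin 3, (i : ℕ) < j → ∀ z : Z, (eps i : Lam k) • z = 0

section
variable (Z : Type) [AddCommGroup Z] [Module (Lam k) Z]

theorem eps_sum_smul (z : Z) : ∑ i, (eps i : Lam k) • z = z := by
  rw [← Finset.sum_smul, eps_sum, one_smul]

theorem projective_of_above_two (h : Above (k := k) 2 Z) : Module.Projective (Lam k) Z := by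
  let modk : Module k Z := Module.compHom Z (algebraMap k (Lam k))
  let bas := Module.Free.chooseBasis k Z
  have h2 : ∀ z : Z, (eps 2 : Lam k) • z = z := fun z => by
    conv_rhs => rw [← eps_sum_smul (k := k) Z z, Fin.sum_univ_three, h 0 (by decide) z,
      h 1 (by decide) z, zero_add, zero_add]
  have key : ∀ (x : Lam k) (z : Z), x • z = x.d 2 • z := fun x z => by
    conv_lhs => rw [← h2 z, ← mul_smul, mul_eps_two, Algebra.smul_def, mul_smul, h2]
    rfl
  let π : (Module.Free.ChooseBasisIndex k Z →₀ Lam k) →ₗ[Lam k] Z :=
    Finsupp.linearCombination (Lam k) (fun i => bas i)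
  let s : Z →ₗ[Lam k] (Module.Free.ChooseBasisIndex k Z →₀ Lam k) :=
    { toFun := fun z => (bas.repr z).mapRange (fun c => c • eps 2) (zero_smul k _)
      map_add' := fun z w => by ext i : 1; simp [add_smul]
      map_smul' := fun x z => by
        ext i : 1
        simp only [RingHom.id_apply, Finsupp.smul_apply, Finsupp.mapRange_apply, key,
          map_smul, smul_eq_mul, mul_smul, mul_smul_comm, mul_eps_two]
        rw [smul_comm] }
  refine Module.Projective.of_split s π (LinearMap.ext fun z => ?_)
  simp only [LinearMap.comp_apply, LinearMap.id_apply, π, s, LinearMap.coe_mk, AddHom.coe_mk]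
  rw [Finsupp.linearCombination_apply, Finsupp.sum_mapRange_index (by simp)]
  have : ∀ (c : k) (w : Z), (c • (eps 2 : Lam k)) • w = c • w := fun c w => by
    rw [Algebra.smul_def, mul_smul, h2]; rfl
  simp only [this]
  exact bas.linearCombination_repr z

theorem exists_cover [Module.Finite (Lam k) Z] (j : Fin 3) (h : Above (k := k) (j : ℕ) Z) :
    ∃ (P : Type) (_ : AddCommGroup P) (_ : Module (Lam k) P) (π : P →ₗ[Lam k] Z),
      Module.Finite (Lam k) P ∧ Module.Projective (Lam k) P ∧ Function.Surjective π ∧
      Above (k := k) ((j : ℕ) + 1) (LinearMap.ker π) := by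
  classical
  let modk : Module k Z := Module.compHom Z (algebraMap k (Lam k))
  have : IsScalarTower k (Lam k) Z := IsScalarTower.of_compHom k (Lam k) Z
  have : Module.Finite k Z := Module.Finite.trans (Lam k) Z
  let mulE : Z →ₗ[k] Z := DistribSMul.toLinearMap k Z (eps j : Lam k)
  let bas := Module.finBasis k (LinearMap.range mulE)
  obtain ⟨G, gen, hgen⟩ := Module.Finite.exists_fin (R := Lam k) (M := Z)
  let E' : Lam k := ∑ i, if j < i then eps i else 0
  let ι := Fin (Module.finrank k (LinearMap.range mulE)) ⊕ Fin G
  let wt : ι → Lam k := Sum.elim (fun _ => eps j) (fun _ => E')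
  let y : ι → Z := Sum.elim (fun b => (bas b : Z)) gen
  have hE' : E' * E' = E' := by
    simp only [E', Finset.mul_sum, Finset.sum_mul]
    refine Finset.sum_congr rfl fun i _ => ?_
    by_cases hi : j < i
    · rw [Finset.sum_eq_single i]
      · simp [hi, eps_mul_eps]
      · intro l _ hl
        by_cases hl' : j < l
        · simp [hi, hl', eps_mul_eps, hl, hl.symm]
        · simp [hl']
      · simp
    · simp [hi]
  have hwt : ∀ i, wt i * wt i = wt i := by
    rintro (i | i)
    · simp [wt, eps_mul_eps]
    · simpa [wt] using hE'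
  let T : (ι → Lam k) →ₗ[Lam k] (ι → Lam k) :=
    { toFun := fun f i => f i * wt i
      map_add' := fun f g => by funext i; simp [add_mul]
      map_smul' := fun c f => by funext i; simp [mul_assoc] }
  have hT : ∀ f, T (T f) = T f := fun f => by funext i; simp [T, mul_assoc, hwt]
  let P := LinearMap.range T
  let π : P →ₗ[Lam k] Z := (Fintype.linearCombination (Lam k) y).comp P.subtype
  have hproj : Module.Projective (Lam k) P :=
    Module.Projective.of_split P.subtype T.rangeRestrict (LinearMap.ext fun p => by
      obtain ⟨f, hf⟩ := p.2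
      refine Subtype.ext ?_
      simp only [LinearMap.comp_apply, LinearMap.codRestrict_apply, Submodule.subtype_apply,
        LinearMap.id_apply]
      show T (p : ι → Lam k) = p
      rw [← hf, hT])
  refine ⟨P, inferInstance, inferInstance, π, inferInstance, hproj, ?_, ?_⟩
  · -- surjectivity
    have hlow : ∀ w : Z, w = (eps j : Lam k) • w + E' • w := fun w => by
      conv_lhs => rw [← eps_sum_smul (k := k) Z w]
      simp only [E', Finset.sum_smul]
      rw [← Finset.add_sum_erase _ _ (Finset.mem_univ j)]
      congr 1
      conv_rhs => rw [← Finset.add_sum_erase _ _ (Finset.mem_univ j), if_neg (lt_irrefl j),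
        zero_smul, zero_add]
      refine Finset.sum_congr rfl fun i hi => ?_
      rw [Finset.mem_erase] at hi
      by_cases hl : j < i
      · rw [if_pos hl]
      · rw [if_neg hl, zero_smul]
        exact h i (by have := hi.1; omega) w
    let R := LinearMap.range π
    have memR : ∀ (i : ι) (x : Lam k), x * wt i = x → x • y i ∈ R := fun i x hx => by
      refine ⟨⟨T (Pi.single i x), ⟨_, rfl⟩⟩, ?_⟩
      have : T (Pi.single i x) = Pi.single i x := by
        funext l
        by_cases hl : l = i
        · subst hl; simp [T, hx]
        · simp [T, hl]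
      simp [π, this, Fintype.linearCombination_apply_single]
    have hbas : ∀ z, (eps j : Lam k) • z ∈ R := fun z => by
      have hmem : mulE z ∈ LinearMap.range mulE := ⟨z, rfl⟩
      have hh := congrArg Subtype.val (bas.sum_repr ⟨_, hmem⟩)
      simp only [AddSubmonoidClass.coe_finsetSum, SetLike.val_smul] at hh
      change mulE z ∈ R
      rw [← hh]
      refine Submodule.sum_mem _ fun b _ => ?_
      have hb : (eps j : Lam k) • (bas b : Z) = (bas b : Z) := by
        obtain ⟨w, hw⟩ := (bas b).2
        rw [← hw]
        show (eps j : Lam k) • (eps j : Lam k) • w = (eps j : Lam k) • w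
        rw [← mul_smul, eps_mul_eps, if_pos rfl]
      change (algebraMap k (Lam k) _ : Lam k) • (bas b : Z) ∈ R
      refine Submodule.smul_mem _ _ ?_
      rw [← hb]
      exact memR (Sum.inl b) (eps j) (hwt (Sum.inl b))
    have hall : ∀ z, z ∈ R := by
      intro z
      have hz : z ∈ Submodule.span (Lam k) (Set.range gen) := by rw [hgen]; trivial
      refine Submodule.span_le.2 ?_ hz
      rintro w ⟨i, rfl⟩
      rw [SetLike.mem_coe, hlow (gen i)]
      exact Submodule.add_mem _ (hbas _) (memR (Sum.inr i) E' (hwt (Sum.inr i)))
    exact fun z => hall z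
  · -- the kernel lives above `j`
    rintro i hi ⟨⟨f, hf⟩, hker⟩
    refine Subtype.ext (Subtype.ext (funext fun l => ?_))
    show eps i * f l = 0
    obtain ⟨g, hg⟩ := hf
    have hfl : ∀ m, f m = f m * wt m := fun m => by
      conv_lhs => rw [← hg]
      conv_rhs => rw [← hg]
      simp [T, mul_assoc, hwt]
    have hE0 : ∀ i' : Fin 3, i' ≤ j → ∀ x : Lam k, eps i' * (x * E') = 0 := fun i' hi' x => by
      simp only [E', Finset.mul_sum]
      refine Finset.sum_eq_zero fun m _ => ?_
      by_cases hm : j < m
      · rw [if_pos hm, ← mul_assoc, eps_mul_mul_eps_of_lt (lt_of_le_of_lt hi' hm)]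
      · simp [hm]
    have hij : i ≤ j := by omega
    rcases l with b | b
    · rw [hfl]
      rcases lt_or_eq_of_le hij with hlt | heq
      · simp only [wt, Sum.elim_inl]
        rw [← mul_assoc, eps_mul_mul_eps_of_lt hlt]
      · subst heq
        simp only [wt, Sum.elim_inl]
        rw [← mul_assoc, eps_mul_mul_eps_self]
        have hk := congrArg (fun z => (eps i : Lam k) • z) (LinearMap.mem_ker.1 hker)
        simp only [smul_zero, π, LinearMap.comp_apply, Submodule.subtype_apply,
          Fintype.linearCombination_apply, Finset.smul_sum] at hk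
        erw [Fintype.sum_sum_type] at hk
        have hz : ∑ b', (eps i : Lam k) • f (Sum.inr b') • y (Sum.inr b') = 0 :=
          Finset.sum_eq_zero fun b' _ => by
            rw [← mul_smul, hfl, show wt (Sum.inr b') = E' from rfl, hE0 i le_rfl, zero_smul]
        rw [hz, add_zero] at hk
        have hc : ∀ b', (eps i : Lam k) • f (Sum.inl b') • y (Sum.inl b')
            = (f (Sum.inl b')).d i • (bas b' : Z) := fun b' => by
          have hd : (f (Sum.inl b') * eps i).d i = (f (Sum.inl b')).d i := by simp [eps]
          conv_lhs => rw [← mul_smul, hfl, show wt (Sum.inl b') = eps i from rfl, ← mul_assoc,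
            eps_mul_mul_eps_self]
          obtain ⟨w, hw⟩ := (bas b').2
          show ((f (Sum.inl b')).d i • (eps i : Lam k)) • (bas b' : Z) = _
          rw [← hw, Algebra.smul_def, mul_smul]
          show (algebraMap k (Lam k) _ : Lam k) • (eps i : Lam k) • (eps i : Lam k) • w = _
          rw [← mul_smul (eps i : Lam k), eps_mul_eps, if_pos rfl]
          rfl
        simp only [hc] at hk
        have hli := Fintype.linearIndependent_iff.1 bas.linearIndependent
          (fun b' => (f (Sum.inl b')).d i) (Subtype.ext (by simpa using hk)) b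
        rw [show (f (Sum.inl b)).d i = 0 from hli, zero_smul]
    · rw [hfl, show wt (Sum.inr b) = E' from rfl, hE0 i hij]

end

theorem pd_le_of_above : ∀ (r : ℕ) (Z : ModuleCat.{0} (Lam k)), Module.Finite (Lam k) Z →
    Above (k := k) (2 - r) Z → r ≤ 2 → HasProjectiveDimensionLE Z r := by
  intro r
  induction r with
  | zero =>
    intro Z _ h _
    rw [← projective_iff_hasProjectiveDimensionLE_zero, ← IsProjective.iff_projective]
    exact projective_of_above_two Z h
  | succ r ih =>
    intro Z hfin h hr
    obtain ⟨P, _, _, π, hP, hproj, hsurj, hker⟩ :=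
      exists_cover (k := k) Z ⟨2 - (r + 1), by omega⟩ h
    have hS : π.shortComplexKer.ShortExact := LinearMap.shortExact_shortComplexKer hsurj
    have h1 : HasProjectiveDimensionLE (π.shortComplexKer.X₁) r :=
      ih (ModuleCat.of (Lam k) (LinearMap.ker π)) inferInstance
        (fun i hi z => hker i (by simp only; omega) z) (by omega)
    have h2 : HasProjectiveDimensionLT (π.shortComplexKer.X₂) (r + 1 + 1) := by
      have : Projective (π.shortComplexKer.X₂) := (IsProjective.iff_projective _).1 hproj
      exact hasProjectiveDimensionLT_of_ge _ 1 _ (by omega)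
    exact hS.hasProjectiveDimensionLT_X₃ (r + 1) h1 h2

theorem pd_le_two (Z : ModuleCat.{0} (Lam k)) [hZ : Module.Finite (Lam k) Z] :
    HasProjectiveDimensionLE Z 2 :=
  pd_le_of_above 2 Z hZ (fun i hi => absurd hi (by omega)) le_rfl

end Vale.Agent.P176
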