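import Mathlib

/-!
Bookkeeping for finite projective dimension together with the top nonvanishing `Ext(-, W)`.
-/

namespace Vale.Agent.P176

open CategoryTheory Abelian

variable {R : Type} [Ring R] (W : ModuleCat.{0} R)

/-- Some finite bound on the projective dimension. -/
def FinPd (X : ModuleCat.{0} R) : Prop := ∃ d : ℕ, HasProjectiveDimensionLT X d

/-- Finite projective dimension and no `Ext` into `W`. -/
def NullW (X : ModuleCat.{0} R) : Prop :=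
  FinPd X ∧ ∀ (j : ℕ) (e : Ext.{0} X W j), e = 0

/-- Finite projective dimension, `Ext^s(X, W) ≠ 0` and `Ext^j(X, W) = 0` for `s < j`. -/
def GoodW (s : ℕ) (X : ModuleCat.{0} R) : Prop :=
  FinPd X ∧ (∀ (j : ℕ), s < j → ∀ e : Ext.{0} X W j, e = 0) ∧ ∃ e : Ext.{0} X W s, e ≠ 0

variable {W}

section
variable {S : ShortComplex (ModuleCat.{0} R)} (hS : S.ShortExact)
include hS

theorem finPd_mid (h1 : FinPd S.X₁) (h3 : FinPd S.X₃) : FinPd S.X₂ := by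
  obtain ⟨d1, h1⟩ := h1
  obtain ⟨d3, h3⟩ := h3
  exact ⟨d1 + d3, hS.hasProjectiveDimensionLT_X₂ _ (hasProjectiveDimensionLT_of_ge _ d1 _ (by omega))
    (hasProjectiveDimensionLT_of_ge _ d3 _ (by omega))⟩

theorem finPd_right (h1 : FinPd S.X₁) (h2 : FinPd S.X₂) : FinPd S.X₃ := by
  obtain ⟨d1, h1⟩ := h1
  obtain ⟨d2, h2⟩ := h2
  exact ⟨d1 + d2 + 1, hS.hasProjectiveDimensionLT_X₃ _
    (hasProjectiveDimensionLT_of_ge _ d1 _ (by omega))
    (hasProjectiveDimensionLT_of_ge _ d2 _ (by omega))⟩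

theorem ext_mid_eq_zero {j : ℕ} (h1 : ∀ e : Ext.{0} S.X₁ W j, e = 0)
    (h3 : ∀ e : Ext.{0} S.X₃ W j, e = 0) (e : Ext.{0} S.X₂ W j) : e = 0 := by
  obtain ⟨x, rfl⟩ := Ext.contravariant_sequence_exact₂ hS W e (h1 _)
  rw [h3 x, Ext.comp_zero]

theorem exists_ext_mid {j : ℕ} (h3 : ∀ e : Ext.{0} S.X₃ W (1 + j), e = 0)
    (h1 : ∃ e : Ext.{0} S.X₁ W j, e ≠ 0) : ∃ e : Ext.{0} S.X₂ W j, e ≠ 0 := by
  obtain ⟨e, he⟩ := h1
  obtain ⟨x, hx⟩ := Ext.contravariant_sequence_exact₁ hS W e rfl (h3 _)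
  exact ⟨x, fun hx0 => he (by rw [← hx, hx0, Ext.comp_zero])⟩

theorem nullW_mid (h1 : NullW W S.X₁) (h3 : NullW W S.X₃) : NullW W S.X₂ :=
  ⟨finPd_mid hS h1.1 h3.1, fun j e => ext_mid_eq_zero hS (h1.2 j) (h3.2 j) e⟩

theorem goodW_mid_of_null_left {s : ℕ} (h1 : NullW W S.X₁) (h3 : GoodW W s S.X₃) :
    GoodW W s S.X₂ := by
  refine ⟨finPd_mid hS h1.1 h3.1, fun j hj e => ext_mid_eq_zero hS (h1.2 j) (h3.2.1 j hj) e, ?_⟩
  obtain ⟨e, he⟩ := h3.2.2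
  refine ⟨(Ext.mk₀ S.g).comp e (zero_add s), fun h0 => he ?_⟩
  cases s with
  | zero =>
    have : Epi S.g := hS.epi_g
    apply Ext.precomp_mk₀_injective_of_epi W S.g
    simpa using h0
  | succ t =>
    obtain ⟨x, rfl⟩ := Ext.contravariant_sequence_exact₃ hS W e h0 (add_comm 1 t)
    rw [h1.2 t x, Ext.comp_zero]

theorem goodW_mid_of_null_right {s : ℕ} (h1 : GoodW W s S.X₁) (h3 : NullW W S.X₃) :
    GoodW W s S.X₂ :=
  ⟨finPd_mid hS h1.1 h3.1, fun j hj e => ext_mid_eq_zero hS (h1.2.1 j hj) (h3.2 j) e,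
    exists_ext_mid hS (h3.2 _) h1.2.2⟩

theorem goodW_mid_of_good {s : ℕ} (h1 : GoodW W (s + 1) S.X₁) (h3 : GoodW W s S.X₃) :
    GoodW W (s + 1) S.X₂ :=
  ⟨finPd_mid hS h1.1 h3.1,
    fun j hj e => ext_mid_eq_zero hS (h1.2.1 j hj) (h3.2.1 j (by omega)) e,
    exists_ext_mid hS (h3.2.1 _ (by omega)) h1.2.2⟩

/-- Dimension shift along a middle term without higher `Ext`, whose degree zero part comes
from the right term. -/
theorem goodW_right {s : ℕ} (h2 : FinPd S.X₂)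
    (h2e : ∀ (j : ℕ), 1 ≤ j → ∀ e : Ext.{0} S.X₂ W j, e = 0)
    (h0 : ∀ f : S.X₂ ⟶ W, ∃ g : S.X₃ ⟶ W, S.g ≫ g = f)
    (h1 : GoodW W s S.X₁) : GoodW W (s + 1) S.X₃ := by
  refine ⟨finPd_right hS h1.1 h2, ?_, ?_⟩
  · intro j hj e
    obtain ⟨x, rfl⟩ := Ext.contravariant_sequence_exact₃ hS W e (h2e j (by omega) _)
      (show 1 + (j - 1) = j by omega)
    rw [h1.2.1 _ (by omega) x, Ext.comp_zero]
  · obtain ⟨e, he⟩ := h1.2.2
    refine ⟨hS.extClass.comp e (add_comm 1 s), fun h => he ?_⟩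
    obtain ⟨x, hx⟩ := Ext.contravariant_sequence_exact₁ hS W e _ h
    rw [← hx]
    cases s with
    | zero =>
      obtain ⟨f, rfl⟩ := Ext.homEquiv₀.symm.surjective x
      obtain ⟨g, rfl⟩ := h0 f
      simp [Ext.homEquiv₀_symm_apply]
    | succ t => rw [h2e (t + 1) (by omega) x, Ext.comp_zero]

theorem goodW_zero_right (h2 : FinPd S.X₂)
    (h2e : ∀ (j : ℕ), 1 ≤ j → ∀ e : Ext.{0} S.X₂ W j, e = 0)
    (h1 : NullW W S.X₁) (hne : ∃ g : S.X₃ ⟶ W, g ≠ 0) : GoodW W 0 S.X₃ := by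
  refine ⟨finPd_right hS h1.1 h2, fun j hj e => ?_, ?_⟩
  · obtain ⟨x, rfl⟩ := Ext.contravariant_sequence_exact₃ hS W e (h2e j hj _)
      (show 1 + (j - 1) = j by omega)
    rw [h1.2 _ x, Ext.comp_zero]
  · obtain ⟨g, hg⟩ := hne
    exact ⟨Ext.homEquiv₀.symm g, fun h => hg (Ext.homEquiv₀.symm.injective
      (h.trans (by simp [Ext.homEquiv₀_symm_apply])))⟩

/-- `Ext¹` vanishes when maps on the left term extend to a projective middle term. -/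
theorem ext_one_eq_zero [Projective S.X₂]
    (hext : ∀ f : S.X₁ ⟶ W, ∃ g : S.X₂ ⟶ W, S.f ≫ g = f) (e : Ext.{0} S.X₃ W 1) : e = 0 := by
  obtain ⟨x, rfl⟩ := Ext.contravariant_sequence_exact₃ hS W e (Ext.eq_zero_of_projective _)
    (show 1 + 0 = 1 from rfl)
  obtain ⟨f, rfl⟩ := Ext.homEquiv₀.symm.surjective x
  obtain ⟨g, rfl⟩ := hext f
  rw [Ext.homEquiv₀_symm_apply, ← Ext.mk₀_comp_mk₀]
  exact hS.extClass_comp_assoc (Ext.mk₀ g)

/-- Higher `Ext` dimension shift along a projective middle term. -/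
theorem ext_succ_eq_zero [Projective S.X₂] {j : ℕ} (h1 : ∀ e : Ext.{0} S.X₁ W (j + 1), e = 0)
    (e : Ext.{0} S.X₃ W (j + 2)) : e = 0 := by
  obtain ⟨x, rfl⟩ := Ext.contravariant_sequence_exact₃ hS W e (Ext.eq_zero_of_projective _)
    (show 1 + (j + 1) = j + 2 by omega)
  rw [h1 x, Ext.comp_zero]

end

theorem nullW_of_iso {X Y : ModuleCat.{0} R} (i : X ≅ Y) (h : NullW W X) : NullW W Y := by
  obtain ⟨⟨d, hd⟩, h2⟩ := h
  refine ⟨⟨d, hasProjectiveDimensionLT_of_iso i d⟩, fun j e => ?_⟩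
  have := h2 j ((Ext.mk₀ i.hom).comp e (zero_add j))
  rw [← e.mk₀_id_comp, ← i.inv_hom_id, ← Ext.mk₀_comp_mk₀, Ext.comp_assoc_of_second_deg_zero,
    this, Ext.comp_zero]

theorem goodW_of_iso {s : ℕ} {X Y : ModuleCat.{0} R} (i : X ≅ Y) (h : GoodW W s X) :
    GoodW W s Y := by
  obtain ⟨⟨d, hd⟩, h2, e, he⟩ := h
  refine ⟨⟨d, hasProjectiveDimensionLT_of_iso i d⟩, fun j hj e' => ?_, ?_⟩
  · have := h2 j hj ((Ext.mk₀ i.hom).comp e' (zero_add j))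
    rw [← e'.mk₀_id_comp, ← i.inv_hom_id, ← Ext.mk₀_comp_mk₀, Ext.comp_assoc_of_second_deg_zero,
      this, Ext.comp_zero]
  · refine ⟨(Ext.mk₀ i.inv).comp e (zero_add s), fun h0 => he ?_⟩
    rw [← e.mk₀_id_comp, ← i.hom_inv_id, ← Ext.mk₀_comp_mk₀, Ext.comp_assoc_of_second_deg_zero,
      h0, Ext.comp_zero]

theorem finPd_le_and_gt {s n : ℕ} {X : ModuleCat.{0} R} (h : GoodW W s X) (hn : n < s) :
    (n : WithBot ℕ∞) < projectiveDimension X ∧ projectiveDimension X < ⊤ := by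
  obtain ⟨⟨d, hd⟩, -, e, he⟩ := h
  refine ⟨?_, ?_⟩
  · refine lt_of_lt_of_le (by exact_mod_cast hn : (n : WithBot ℕ∞) < (s : WithBot ℕ∞)) ?_
    rw [projectiveDimension_ge_iff]
    intro hlt
    exact he (e.eq_zero_of_hasProjectiveDimensionLT s le_rfl)
  · refine lt_top_iff_ne_top.2 ((projectiveDimension_ne_top_iff X).2 ⟨d, ?_⟩)
    exact hasProjectiveDimensionLT_of_ge _ d _ (by omega)

end Vale.Agent.P176
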