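import Vale.Agent.P176.Counter

/-!
The triangular algebra `Lam k` on three vertices attached to the quadratic relations `nf`.
-/

namespace Vale.Agent.P176

open Module

set_option linter.unusedSimpArgs false

/-- Carrier of the triangular algebra: vertices, arrows `0 → 1`, arrows `1 → 2`, paths `0 → 2`. -/
@[ext]
structure Lam (k : Type) where
  d : Fin 3 → k
  u : Gen → k
  v : Gen → k
  w : Gen × Gen → k

set_option linter.unusedSectionVars false

variable {k : Type} [Field k]

namespace Lam

/-- Product of an arrow combination `1 → 2` with an arrow combination `0 → 1`. -/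
def mu (v u : Gen → k) : Gen × Gen → k :=
  fun p => ∑ g, ∑ h, v g * u h * (nf g h p : k)

theorem mu_add_left (v v' u : Gen → k) : mu (v + v') u = mu v u + mu v' u := by
  funext p; simp [mu, add_mul, Finset.sum_add_distrib]

theorem mu_add_right (v u u' : Gen → k) : mu v (u + u') = mu v u + mu v u' := by
  funext p; simp [mu, mul_add, add_mul, Finset.sum_add_distrib]

theorem mu_smul_left (c : k) (v u : Gen → k) : mu (c • v) u = c • mu v u := by
  funext p; simp [mu, Finset.mul_sum, mul_assoc]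

theorem mu_smul_right (c : k) (v u : Gen → k) : mu v (c • u) = c • mu v u := by
  funext p; simp [mu, Finset.mul_sum, mul_assoc, mul_left_comm]

@[simp] theorem mu_zero_left (u : Gen → k) : mu 0 u = 0 := by funext p; simp [mu]

@[simp] theorem mu_zero_right (v : Gen → k) : mu v 0 = 0 := by funext p; simp [mu]

instance : Zero (Lam k) := ⟨⟨0, 0, 0, 0⟩⟩
instance : One (Lam k) := ⟨⟨1, 0, 0, 0⟩⟩
instance : Add (Lam k) := ⟨fun x y => ⟨x.d + y.d, x.u + y.u, x.v + y.v, x.w + y.w⟩⟩
instance : Neg (Lam k) := ⟨fun x => ⟨-x.d, -x.u, -x.v, -x.w⟩⟩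
instance : Sub (Lam k) := ⟨fun x y => ⟨x.d - y.d, x.u - y.u, x.v - y.v, x.w - y.w⟩⟩
instance {R : Type} [SMul R k] : SMul R (Lam k) :=
  ⟨fun c x => ⟨c • x.d, c • x.u, c • x.v, c • x.w⟩⟩
instance : Mul (Lam k) := ⟨fun x y =>
  ⟨x.d * y.d, x.d 1 • y.u + y.d 0 • x.u, x.d 2 • y.v + y.d 1 • x.v,
    x.d 2 • y.w + mu x.v y.u + y.d 0 • x.w⟩⟩

@[simp] theorem zero_d : (0 : Lam k).d = 0 := rfl
@[simp] theorem zero_u : (0 : Lam k).u = 0 := rfl
@[simp] theorem zero_v : (0 : Lam k).v = 0 := rfl
@[simp] theorem zero_w : (0 : Lam k).w = 0 := rfl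
@[simp] theorem one_d : (1 : Lam k).d = 1 := rfl
@[simp] theorem one_u : (1 : Lam k).u = 0 := rfl
@[simp] theorem one_v : (1 : Lam k).v = 0 := rfl
@[simp] theorem one_w : (1 : Lam k).w = 0 := rfl
@[simp] theorem add_d (x y : Lam k) : (x + y).d = x.d + y.d := rfl
@[simp] theorem add_u (x y : Lam k) : (x + y).u = x.u + y.u := rfl
@[simp] theorem add_v (x y : Lam k) : (x + y).v = x.v + y.v := rfl
@[simp] theorem add_w (x y : Lam k) : (x + y).w = x.w + y.w := rfl
@[simp] theorem neg_d (x : Lam k) : (-x).d = -x.d := rfl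
@[simp] theorem neg_u (x : Lam k) : (-x).u = -x.u := rfl
@[simp] theorem neg_v (x : Lam k) : (-x).v = -x.v := rfl
@[simp] theorem neg_w (x : Lam k) : (-x).w = -x.w := rfl
@[simp] theorem smul_d {R : Type} [SMul R k] (c : R) (x : Lam k) : (c • x).d = c • x.d := rfl
@[simp] theorem smul_u {R : Type} [SMul R k] (c : R) (x : Lam k) : (c • x).u = c • x.u := rfl
@[simp] theorem smul_v {R : Type} [SMul R k] (c : R) (x : Lam k) : (c • x).v = c • x.v := rfl
@[simp] theorem smul_w {R : Type} [SMul R k] (c : R) (x : Lam k) : (c • x).w = c • x.w := rfl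
@[simp] theorem mul_d (x y : Lam k) : (x * y).d = x.d * y.d := rfl
@[simp] theorem mul_u (x y : Lam k) : (x * y).u = x.d 1 • y.u + y.d 0 • x.u := rfl
@[simp] theorem mul_v (x y : Lam k) : (x * y).v = x.d 2 • y.v + y.d 1 • x.v := rfl
@[simp] theorem mul_w (x y : Lam k) :
    (x * y).w = x.d 2 • y.w + mu x.v y.u + y.d 0 • x.w := rfl

/-- The coordinates, as an injection into a product. -/
def toProd (x : Lam k) : (Fin 3 → k) × (Gen → k) × (Gen → k) × (Gen × Gen → k) :=
  (x.d, x.u, x.v, x.w)

theorem toProd_injective : Function.Injective (toProd (k := k)) := fun x y h => by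
  simp only [toProd, Prod.mk.injEq] at h
  exact Lam.ext h.1 h.2.1 h.2.2.1 h.2.2.2

instance : AddCommGroup (Lam k) :=
  toProd_injective.addCommGroup _ rfl (fun _ _ => rfl) (fun _ => rfl) (fun _ _ => rfl)
    (fun _ _ => rfl) (fun _ _ => rfl)

/-- The coordinates as an additive map. -/
def toProdHom : Lam k →+ (Fin 3 → k) × (Gen → k) × (Gen → k) × (Gen × Gen → k) where
  toFun := toProd
  map_zero' := rfl
  map_add' _ _ := rfl

instance : Module k (Lam k) :=
  toProd_injective.module k toProdHom (fun _ _ => rfl)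

/-- The coordinates as a linear equivalence. -/
def linEquiv : Lam k ≃ₗ[k] (Fin 3 → k) × (Gen → k) × (Gen → k) × (Gen × Gen → k) where
  toFun := toProd
  invFun x := ⟨x.1, x.2.1, x.2.2.1, x.2.2.2⟩
  left_inv _ := rfl
  right_inv _ := rfl
  map_add' _ _ := rfl
  map_smul' _ _ := rfl

instance : FiniteDimensional k (Lam k) :=
  LinearEquiv.finiteDimensional linEquiv.symm

theorem mul_assoc' (x y z : Lam k) : x * y * z = x * (y * z) := by
  ext1
  · simp [mul_assoc]
  · simp only [mul_u, mul_d, Pi.mul_apply]; module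
  · simp only [mul_v, mul_d, Pi.mul_apply]; module
  · simp only [mul_w, mul_u, mul_v, mul_d, Pi.mul_apply, mu_add_left, mu_add_right,
      mu_smul_left, mu_smul_right]
    module

instance : Ring (Lam k) where
  __ := (inferInstance : AddCommGroup (Lam k))
  mul := (· * ·)
  one := 1
  mul_assoc := mul_assoc'
  one_mul x := by ext1 <;> simp
  mul_one x := by ext1 <;> simp
  left_distrib x y z := by
    ext1
    · simp [mul_add]
    all_goals simp [mu_add_right, add_smul, smul_add]
    all_goals abel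
  right_distrib x y z := by
    ext1
    · simp [add_mul]
    all_goals simp [mu_add_left, add_smul, smul_add]
    all_goals abel
  zero_mul x := by ext1 <;> simp
  mul_zero x := by ext1 <;> simp

instance : Algebra k (Lam k) :=
  Algebra.ofModule
    (fun c x y => by
      ext1
      · simp [mul_assoc]
      all_goals simp [mu_smul_left, smul_add, smul_smul, mul_comm])
    (fun c x y => by
      ext1
      · simp [mul_left_comm]
      all_goals simp [mu_smul_right, smul_add, smul_smul, mul_comm])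

/-- Vertex idempotents. -/
def eps (i : Fin 3) : Lam k := ⟨Pi.single i 1, 0, 0, 0⟩

/-- Arrows `0 → 1`. -/
def arrU (g : Gen) : Lam k := ⟨0, Pi.single g 1, 0, 0⟩

/-- Arrows `1 → 2`. -/
def arrV (g : Gen) : Lam k := ⟨0, 0, Pi.single g 1, 0⟩

/-- Basis paths `0 → 2`. -/
def arrW (p : Gen × Gen) : Lam k := ⟨0, 0, 0, Pi.single p 1⟩

/-- Linear combinations in coordinates. -/
def build {M : Type*} [AddCommGroup M] [Module k M] (e : Fin 3 → M) (a b : Gen → M)
    (c : Gen × Gen → M) : Lam k →ₗ[k] M where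
  toFun x := ∑ i, x.d i • e i + ∑ g, x.u g • a g + ∑ g, x.v g • b g + ∑ p, x.w p • c p
  map_add' x y := by
    simp only [add_d, add_u, add_v, add_w, Pi.add_apply, add_smul, Finset.sum_add_distrib]
    abel
  map_smul' r x := by
    simp only [smul_d, smul_u, smul_v, smul_w, Pi.smul_apply, smul_eq_mul, mul_smul,
      ← Finset.smul_sum, ← smul_add, RingHom.id_apply]

end Lam

/-- Data giving a multiplicative linear map out of `Lam k`. -/
structure LamPre (k : Type) [Field k] (E : Type*) [Ring E] [Algebra k E] where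
  e : Fin 3 → E
  a : Gen → E
  b : Gen → E
  e_mul : ∀ i j, e i * e j = if i = j then e i else 0
  ea : ∀ i g, e i * a g = if i = 1 then a g else 0
  ae : ∀ i g, a g * e i = if i = 0 then a g else 0
  eb : ∀ i g, e i * b g = if i = 2 then b g else 0
  be : ∀ i g, b g * e i = if i = 1 then b g else 0
  rel : ∀ g h, b g * a h = ∑ p : Gen × Gen, (nf g h p : k) • (b p.1 * a p.2)

/-- Data giving an algebra morphism out of `Lam k`. -/
structure LamData (k : Type) [Field k] (E : Type*) [Ring E] [Algebra k E] extends LamPre k E where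
  e_sum : ∑ i, e i = 1

namespace LamPre

variable {E : Type*} [Ring E] [Algebra k E] (D : LamPre k E)

/-- Images of the basis paths: pivots go to zero. -/
noncomputable def c (p : Gen × Gen) : E := by
  classical exact if Pivot p.1 p.2 then 0 else D.b p.1 * D.a p.2

theorem rel_c (g h : Gen) : D.b g * D.a h = ∑ p : Gen × Gen, (nf g h p : k) • D.c p := by
  classical
  rw [D.rel g h]
  refine Finset.sum_congr rfl fun p _ => ?_
  by_cases hp : Pivot p.1 p.2
  · rw [show nf g h p = 0 from nf_pivot_eq_zero g h p.1 p.2 hp]; simp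
  · simp [c, hp]

theorem e_c (i : Fin 3) (p : Gen × Gen) : D.e i * D.c p = if i = 2 then D.c p else 0 := by
  classical
  by_cases hp : Pivot p.1 p.2
  · simp [c, hp]
  · simp only [c, if_neg hp]
    rw [← mul_assoc, D.eb]; split_ifs <;> simp

theorem c_e (i : Fin 3) (p : Gen × Gen) : D.c p * D.e i = if i = 0 then D.c p else 0 := by
  classical
  by_cases hp : Pivot p.1 p.2
  · simp [c, hp]
  · simp only [c, if_neg hp]
    rw [mul_assoc, D.ae]; split_ifs <;> simp

theorem aa (g h : Gen) : D.a g * D.a h = 0 := by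
  have h1 : D.e 1 * D.a h = D.a h := by rw [D.ea]; simp
  rw [← h1, ← mul_assoc, D.ae]; simp

theorem bb (g h : Gen) : D.b g * D.b h = 0 := by
  have h1 : D.e 2 * D.b h = D.b h := by rw [D.eb]; simp
  rw [← h1, ← mul_assoc, D.be]; simp

theorem ab (g h : Gen) : D.a g * D.b h = 0 := by
  have h1 : D.e 2 * D.b h = D.b h := by rw [D.eb]; simp
  rw [← h1, ← mul_assoc, D.ae]; simp

theorem ac (g : Gen) (p : Gen × Gen) : D.a g * D.c p = 0 := by
  have h1 : D.e 2 * D.c p = D.c p := by rw [D.e_c]; simp
  rw [← h1, ← mul_assoc, D.ae]; simp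

theorem bc (g : Gen) (p : Gen × Gen) : D.b g * D.c p = 0 := by
  have h1 : D.e 2 * D.c p = D.c p := by rw [D.e_c]; simp
  rw [← h1, ← mul_assoc, D.be]; simp

theorem cany (p : Gen × Gen) (y : E) (hy : D.e 0 * y = 0) : D.c p * y = 0 := by
  have h1 : D.c p * D.e 0 = D.c p := by rw [D.c_e]; simp
  rw [← h1, mul_assoc, hy, mul_zero]

theorem ca (p : Gen × Gen) (g : Gen) : D.c p * D.a g = 0 :=
  D.cany p _ (by rw [D.ea]; simp)

theorem cb (p : Gen × Gen) (g : Gen) : D.c p * D.b g = 0 :=
  D.cany p _ (by rw [D.eb]; simp)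

theorem cc (p q : Gen × Gen) : D.c p * D.c q = 0 :=
  D.cany p _ (by rw [D.e_c]; simp)

/-- The linear map given by the data. -/
noncomputable def lin : Lam k →ₗ[k] E := Lam.build D.e D.a D.b D.c

theorem lin_mul (x y : Lam k) : D.lin (x * y) = D.lin x * D.lin y := by
  simp only [lin]
  simp only [Lam.build, LinearMap.coe_mk, AddHom.coe_mk]
  simp only [add_mul, mul_add, Finset.sum_mul, Finset.mul_sum, smul_mul_assoc,
    mul_smul_comm, smul_smul, D.e_mul, D.ea, D.ae, D.eb, D.be, D.e_c, D.c_e, D.aa, D.bb,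
    D.ab, D.ac, D.bc, D.ca, D.cb, D.cc, D.rel_c, smul_ite, smul_zero,
    Finset.sum_ite_eq', Finset.sum_ite_eq, Finset.mem_univ, if_true, Finset.sum_const_zero,
    add_zero, zero_add, Finset.smul_sum]
  simp only [Lam.mul_d, Lam.mul_u, Lam.mul_v, Lam.mul_w, Pi.mul_apply, Pi.add_apply,
    Pi.smul_apply, smul_eq_mul, Lam.mu, add_smul, Finset.sum_add_distrib, Finset.sum_smul]
  simp only [Fin.sum_univ_three, smul_add, Finset.smul_sum, smul_ite, smul_zero, smul_smul,
    Finset.sum_add_distrib, Fin.reduceEq, if_true, if_false, Finset.sum_const_zero, add_zero,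
    zero_add]
  have key : ∑ p, ∑ g, ∑ h, (x.v g * y.u h * (nf g h p : k)) • D.c p
      = ∑ h, ∑ g, ∑ p, (x.v g * y.u h * (nf g h p : k)) • D.c p := by
    rw [Finset.sum_comm, Finset.sum_congr rfl fun g _ => Finset.sum_comm, Finset.sum_comm]
  simp only [mul_comm, mul_left_comm] at key ⊢
  rw [key]
  abel

theorem lin_eps (i : Fin 3) : D.lin (Lam.eps i) = D.e i := by
  simp [lin, Lam.build, Lam.eps, Pi.single_apply]

theorem lin_arrU (g : Gen) : D.lin (Lam.arrU g) = D.a g := by
  simp [lin, Lam.build, Lam.arrU, Pi.single_apply]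

theorem lin_arrV (g : Gen) : D.lin (Lam.arrV g) = D.b g := by
  simp [lin, Lam.build, Lam.arrV, Pi.single_apply]

theorem lin_one : D.lin 1 = ∑ i, D.e i := by
  simp [lin, Lam.build]

end LamPre

namespace LamData

variable {E : Type*} [Ring E] [Algebra k E] (D : LamData k E)

/-- The algebra morphism given by the data. -/
noncomputable def hom : Lam k →ₐ[k] E :=
  AlgHom.ofLinearMap D.lin (by rw [D.lin_one, D.e_sum]) D.lin_mul


theorem hom_eps (i : Fin 3) : D.hom (Lam.eps i) = D.e i := by
  simp [hom, LamPre.lin, Lam.build, Lam.eps, Pi.single_apply]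

theorem hom_arrU (g : Gen) : D.hom (Lam.arrU g) = D.a g := by
  simp [hom, LamPre.lin, Lam.build, Lam.arrU, Pi.single_apply]

theorem hom_arrV (g : Gen) : D.hom (Lam.arrV g) = D.b g := by
  simp [hom, LamPre.lin, Lam.build, Lam.arrV, Pi.single_apply]

attribute [irreducible] hom

end LamData

/-- The quadratic form of the relations. -/
theorem CRelC.nf_rel {E : Type*} [Ring E] {u : E} {x : Gen → E} (h : CRelC u x) (g g' : Gen) :
    x g * x g' = ∑ p : Gen × Gen, nf g g' p • (x p.1 * x p.2) := by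
  classical
  have h1 : ∀ g, x .one * x g = x g := fun g => by rw [h.one_eq, h.left_unit]
  have h2 : ∀ g, x g * x .one = x g := fun g => by rw [h.one_eq, h.right_unit]
  have single : ∀ q : Gen × Gen, ∑ p : Gen × Gen,
      (Pi.single q (1 : ℤ) : Gen × Gen → ℤ) p • (x p.1 * x p.2) = x q.1 * x q.2 := fun q => by
    simp [Pi.single_apply, ite_smul]
  cases g <;> cases g' <;>
    simp only [nf, single, Pi.add_apply, Pi.sub_apply, add_smul, sub_smul,
      Finset.sum_add_distrib, Finset.sum_sub_distrib, h1, h2, h.ab, h.ba, h.ea, h.be, h.MH,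
      h.HM, h.fM, h.fH, h.Ma, h.Mb]

/-- A relation family with unit `1`. -/
theorem CRel.toC {E : Type*} [Ring E] {x : Gen → E} (h : CRel x) : CRelC 1 x where
  one_eq := h.one_eq
  left_unit _ := one_mul _
  right_unit _ := mul_one _
  ab := h.ab
  ba := h.ba
  ea := h.ea
  be := h.be
  MH := h.MH
  HM := h.HM
  fM := h.fM
  fH := h.fH
  Ma := h.Ma
  Mb := h.Mb

theorem sum_intCast_smul {E : Type*} [AddCommGroup E] [Module k E] (c : Gen × Gen → ℤ)
    (m : Gen × Gen → E) : ∑ p, (c p : k) • m p = ∑ p, c p • m p :=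
  Finset.sum_congr rfl fun _ _ => Int.cast_smul_eq_zsmul k _ _

end Vale.Agent.P176
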