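import Vale.Agent.P176.Cone

/-!
The action on the cone is lifted to bounded complexes of matrices, with the quadratic relations
holding on the nose.
-/

namespace Vale.Agent.P176

open CategoryTheory Limits Pretriangulated

set_option linter.unusedSimpArgs false
set_option linter.unusedSectionVars false

/-! ### Generic facts about localizations -/

section Localization

variable {C D : Type*} [Category C] [Category D] (Q : C ⥤ D) (W : MorphismProperty C)
  [Q.IsLocalization W] [W.HasLeftCalculusOfFractions]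
include W

/-- A family of morphisms in the localization has a common denominator. -/
theorem exists_common_denom {X Y : C} {ι : Type*} [Fintype ι] (f : ι → (Q.obj X ⟶ Q.obj Y)) :
    ∃ (Z : C) (s : Y ⟶ Z) (_ : IsIso (Q.map s)) (F : ι → (X ⟶ Z)),
      ∀ i, Q.map (F i) = f i ≫ Q.map s := by
  classical
  suffices h : ∀ S : Finset ι, ∃ (Z : C) (s : Y ⟶ Z) (_ : IsIso (Q.map s)),
      ∀ i ∈ S, ∃ F : X ⟶ Z, Q.map F = f i ≫ Q.map s by
    obtain ⟨Z, s, hs, hF⟩ := h Finset.univ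
    choose F hF using fun i => hF i (Finset.mem_univ i)
    exact ⟨Z, s, hs, F, hF⟩
  intro S
  induction S using Finset.induction with
  | empty => exact ⟨Y, 𝟙 Y, by rw [Q.map_id]; infer_instance, by simp⟩
  | @insert a S _ ih =>
    obtain ⟨Z, s, hs, hF⟩ := ih
    obtain ⟨φ, hφ⟩ := Localization.exists_leftFraction Q W (f a ≫ Q.map s)
    have ht : IsIso (Q.map φ.s) := Localization.inverts Q W _ φ.hs
    refine ⟨_, s ≫ φ.s, by rw [Q.map_comp]; infer_instance, fun i hi => ?_⟩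
    rcases Finset.mem_insert.1 hi with rfl | hi
    · refine ⟨φ.f, ?_⟩
      rw [Q.map_comp, ← Category.assoc, hφ]
      simp [MorphismProperty.LeftFraction.map]
    · obtain ⟨F, hF⟩ := hF i hi
      exact ⟨F ≫ φ.s, by rw [Q.map_comp, Q.map_comp, hF, Category.assoc]⟩

/-- A family of morphisms vanishing in the localization is killed by one denominator. -/
theorem exists_kill [Preadditive C] {X Y : C} {ι : Type*} [Fintype ι] (f : ι → (X ⟶ Y))
    (h : ∀ i, Q.map (f i) = Q.map 0) :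
    ∃ (Z : C) (s : Y ⟶ Z) (_ : IsIso (Q.map s)), ∀ i, f i ≫ s = 0 := by
  classical
  suffices hh : ∀ S : Finset ι, ∃ (Z : C) (s : Y ⟶ Z) (_ : IsIso (Q.map s)),
      ∀ i ∈ S, f i ≫ s = 0 by
    obtain ⟨Z, s, hs, hF⟩ := hh Finset.univ
    exact ⟨Z, s, hs, fun i => hF i (Finset.mem_univ i)⟩
  intro S
  induction S using Finset.induction with
  | empty => exact ⟨Y, 𝟙 Y, by rw [Q.map_id]; infer_instance, by simp⟩
  | @insert a S _ ih =>
    obtain ⟨Z, s, hs, hF⟩ := ih
    have h0 : Q.map (f a ≫ s) = Q.map 0 := by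
      rw [Q.map_comp, h a, ← Q.map_comp, zero_comp]
    obtain ⟨Z', t, htW, ht⟩ := (MorphismProperty.map_eq_iff_postcomp Q W _ _).1 h0
    have : IsIso (Q.map t) := Localization.inverts Q W _ htW
    refine ⟨Z', s ≫ t, by rw [Q.map_comp]; infer_instance, fun i hi => ?_⟩
    rcases Finset.mem_insert.1 hi with rfl | hi
    · rw [← Category.assoc, ht, zero_comp]
    · rw [← Category.assoc, hF i hi, zero_comp]

end Localization

variable {k : Type} [Field k]

/-- Complexes of matrices. -/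
abbrev Cx (k : Type) [Field k] := CochainComplex (Mat_ (Vx k)) ℤ

/-- A bounded complex in the bounded homotopy category. -/
noncomputable abbrev toKB (A : Cx k) (hA : IsBdd A) : KB k :=
  ⟨(HomotopyCategory.quotient _ _).obj A, A, hA, ⟨Iso.refl _⟩⟩

/-- A chain map in the bounded homotopy category. -/
noncomputable def kbMap {A A' : Cx k} (hA : IsBdd A) (hA' : IsBdd A') (f : A ⟶ A') :
    toKB A hA ⟶ toKB A' hA' :=
  (bd k).homMk ((HomotopyCategory.quotient _ _).map f)

theorem kbMap_comp {A A' A'' : Cx k} (hA : IsBdd A) (hA' : IsBdd A') (hA'' : IsBdd A'')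
    (f : A ⟶ A') (g : A' ⟶ A'') :
    kbMap hA hA'' (f ≫ g) = kbMap hA hA' f ≫ kbMap hA' hA'' g :=
  ObjectProperty.hom_ext _ ((HomotopyCategory.quotient _ _).map_comp f g)

theorem kbMap_surj {A A' : Cx k} (hA : IsBdd A) (hA' : IsBdd A') (F : toKB A hA ⟶ toKB A' hA') :
    ∃ f : A ⟶ A', kbMap hA hA' f = F := by
  obtain ⟨f, hf⟩ := (HomotopyCategory.quotient _ _).map_surjective F.hom
  exact ⟨f, ObjectProperty.hom_ext _ hf⟩

theorem exists_model (Z : KB k) : ∃ (A : Cx k) (hA : IsBdd A), Nonempty (toKB A hA ≅ Z) := by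
  obtain ⟨A, hA, ⟨e⟩⟩ := Z.property
  exact ⟨A, hA, ⟨(bd k).isoMk e⟩⟩

theorem isZero_of_eq_zero {A : Mat_ (Vx k)} (h : 𝟙 A = 0) : IsZero A := (IsZero.iff_id_eq_zero A).2 h

/-- Copies of a complex indexed by the generators. -/
noncomputable def copies (A : Cx k) : Cx k where
  X i := ⨁ fun _ : Gen => A.X i
  d i j := biproduct.map fun _ => A.d i j
  shape i j h := by
    refine biproduct.hom_ext _ _ fun g => ?_
    rw [biproduct.map_π, A.shape i j h, comp_zero, zero_comp]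
  d_comp_d' i j l _ _ := by
    refine biproduct.hom_ext _ _ fun g => ?_
    simp

/-- Inclusion of a copy. -/
noncomputable def copyIn (A : Cx k) (g : Gen) : A ⟶ copies A where
  f i := biproduct.ι (fun _ : Gen => A.X i) g
  comm' i j _ := by simp [copies]

/-- Projection to a copy. -/
noncomputable def copyOut (A : Cx k) (g : Gen) : copies A ⟶ A where
  f i := biproduct.π (fun _ : Gen => A.X i) g
  comm' i j _ := by simp [copies]

theorem copyIn_copyOut (A : Cx k) (g h : Gen) (i : ℤ) :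
    (copyIn A g).f i ≫ (copyOut A h).f i = if g = h then 𝟙 (A.X i) else 0 := by
  split_ifs with hh
  · subst hh; exact biproduct.ι_π_self (fun _ : Gen => A.X i) g
  · exact biproduct.ι_π_ne (fun _ : Gen => A.X i) hh

theorem cone_copy (A : Cx k) (g h : Gen) (i : ℤ) {Z : Mat_ (Vx k)} (z : A.X i ⟶ Z) :
    (copyIn A g ≫ CochainComplex.mappingCone.inr (𝟙 (copies A))).f i ≫
      (CochainComplex.mappingCone.snd (𝟙 (copies A))).v i i (add_zero i) ≫
        (copyOut A h).f i ≫ z = if g = h then z else 0 := by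
  rw [HomologicalComplex.comp_f, Category.assoc, CochainComplex.mappingCone.inr_f_snd_v_assoc,
    ← Category.assoc, copyIn_copyOut]
  split_ifs <;> simp

theorem IsBdd.copies {A : Cx k} (h : IsBdd A) : IsBdd (copies A) := by
  obtain ⟨lo, hi, h⟩ := h
  refine ⟨lo, hi, fun i hi' => isZero_of_eq_zero ?_⟩
  exact biproduct.hom_ext _ _ fun g => (h i hi').eq_of_tgt _ _

theorem IsBdd.biprod {A B : Cx k} [HasBinaryBiproduct A B] (hA : IsBdd A) (hB : IsBdd B) :
    IsBdd (A ⊞ B) := by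
  obtain ⟨lo, hi, hA⟩ := hA
  obtain ⟨lo', hi', hB⟩ := hB
  refine ⟨min lo lo', max hi hi', fun i hi'' => isZero_of_eq_zero ?_⟩
  rw [← HomologicalComplex.id_f, ← biprod.total (X := A) (Y := B)]
  rw [HomologicalComplex.add_f_apply, HomologicalComplex.comp_f, HomologicalComplex.comp_f,
    (hA i (by omega)).eq_of_tgt ((biprod.fst : A ⊞ B ⟶ A).f i) 0,
    (hB i (by omega)).eq_of_tgt ((biprod.snd : A ⊞ B ⟶ B).f i) 0, zero_comp, zero_comp, add_zero]

theorem nullHomotopicMap_eq {A B : Cx k} {f : A ⟶ B} (h : Homotopy f 0) :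
    Homotopy.nullHomotopicMap h.hom = f := by
  ext i : 1
  rw [h.comm i]
  simp [Homotopy.nullHomotopicMap]

theorem nullHomotopicMap_zero {A B : Cx k} {hom : ∀ i j, A.X i ⟶ B.X j}
    (h : ∀ i j, (ComplexShape.up ℤ).Rel j i → hom i j = 0) :
    Homotopy.nullHomotopicMap hom = 0 := by
  ext i : 1
  rw [Homotopy.nullHomotopicMap_f (k₂ := i - 1) (k₁ := i) (k₀ := i + 1) (by simp) (by simp)]
  rw [h (i + 1) i (by simp), h i (i - 1) (by simp), comp_zero, zero_comp, add_zero]
  rfl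

/-- Homology in a degree of the evaluation at a representation. -/
noncomputable abbrev Rep.evH (R : Rep k) (j : ℤ) : Cx k ⥤ ModuleCat.{0} k :=
  R.evM.mapHomologicalComplex (ComplexShape.up ℤ) ⋙ HomologicalComplex.homologyFunctor _ _ j

variable [CharZero k]

/-- Comparison of homology in the quotient with homology of complexes. -/
noncomputable def ptIso (n : ℕ) (j : ℤ) :
    (QT k ⋙ shiftFunctor (TT k) j) ⋙ GT n ≅
      ((bd k).ι ⋙ (counterRep k n).evM.mapHomotopyCategory (ComplexShape.up ℤ)) ⋙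
        HomotopyCategory.homologyFunctor (ModuleCat.{0} k) (ComplexShape.up ℤ) j :=
  Functor.isoWhiskerRight ((QT k).commShiftIso j).symm (GT n) ≪≫
    Functor.isoWhiskerLeft (shiftFunctor (KB k) j) (gtIso n) ≪≫ (counterRep k n).hShiftIso j

/-- The factorization for complexes. -/
noncomputable def cxIso (n : ℕ) (j : ℤ) :
    HomotopyCategory.quotient (Mat_ (Vx k)) (ComplexShape.up ℤ) ⋙
      (counterRep k n).evM.mapHomotopyCategory (ComplexShape.up ℤ) ⋙
        HomotopyCategory.homologyFunctor (ModuleCat.{0} k) (ComplexShape.up ℤ) j ≅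
      (counterRep k n).evH j :=
  Functor.isoWhiskerRight ((counterRep k n).evM.mapHomotopyCategoryFactors (ComplexShape.up ℤ))
      (HomotopyCategory.homologyFunctor (ModuleCat.{0} k) (ComplexShape.up ℤ) j) ≪≫
    Functor.isoWhiskerLeft ((counterRep k n).evM.mapHomologicalComplex (ComplexShape.up ℤ))
      (HomotopyCategory.homologyFunctorFactors (ModuleCat.{0} k) (ComplexShape.up ℤ) j)

/-- Comparison at a bounded complex. -/
noncomputable def atIso (n : ℕ) (j : ℤ) (A : Cx k) (hA : IsBdd A) :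
    (GT n).obj (((QT k).obj (toKB A hA))⟦j⟧) ≅ ((counterRep k n).evH j).obj A :=
  (ptIso n j).app (toKB A hA) ≪≫ (cxIso n j).app A

theorem atIso_naturality (n : ℕ) (j : ℤ) {A A' : Cx k} (hA : IsBdd A) (hA' : IsBdd A')
    (f : A ⟶ A') :
    (GT n).map (((QT k).map (kbMap hA hA' f))⟦j⟧') ≫ (atIso n j A' hA').hom
      = (atIso n j A hA).hom ≫ ((counterRep k n).evH j).map f := by
  have h1 := (ptIso n j).hom.naturality (kbMap hA hA' f)
  have h2 := (cxIso n j).hom.naturality f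
  simp only [atIso, Iso.trans_hom, Iso.app_hom, Category.assoc]
  refine (Category.assoc _ _ _).symm.trans ?_
  refine (congrArg (fun z => z ≫ (cxIso n j).hom.app A') h1).trans ?_
  refine (Category.assoc _ _ _).trans ?_
  exact congrArg (fun z => (ptIso n j).hom.app (toKB A hA) ≫ z) h2

/-- The output of the lifting. -/
structure Model (k : Type) [Field k] [CharZero k] where
  E : Fin 3 → Cx k
  bdd : ∀ w, IsBdd (E w)
  G0 : Gen → (E 0 ⟶ E 1)
  G1 : Gen → (E 1 ⟶ E 2)
  strict : ∀ g h, G0 h ≫ G1 g = ∑ p : Gen × Gen, nf g h p • (G0 p.2 ≫ G1 p.1)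
  classes : ∀ (n : ℕ) (j : ℤ), j = 0 ∨ j = -1 →
    ∃ φ : ∀ w, ((counterRep k (n + 1)).evH j).obj (E w) →ₗ[k] (Fin n → k),
      (∀ w, Function.Bijective (φ w)) ∧
      (∀ g y, φ 1 ((((counterRep k (n + 1)).evH j).map (G0 g)).hom y) = rep k n g (φ 0 y)) ∧
      (∀ g y, φ 2 ((((counterRep k (n + 1)).evH j).map (G1 g)).hom y) = rep k n g (φ 1 y))
  vanish : ∀ (n : ℕ) (j : ℤ), j ≠ 0 → j ≠ -1 → ∀ w,
    IsZero (((counterRep k (n + 1)).evH j).obj (E w))

/-- Three bounded complexes with strict relations realizing an action in the quotient. -/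
theorem exists_realization (Y0 : KB k) (x : Gen → End ((QT k).obj Y0)) (hx : CRel x) :
    ∃ (E : Fin 3 → Cx k) (hE : ∀ w, IsBdd (E w)) (θ : ∀ w, (QT k).obj (toKB (E w) (hE w)) ≅
      (QT k).obj Y0) (G0 : Gen → (E 0 ⟶ E 1)) (G1 : Gen → (E 1 ⟶ E 2)),
      (∀ g h, G0 h ≫ G1 g = ∑ p : Gen × Gen, nf g h p • (G0 p.2 ≫ G1 p.1)) ∧
      (∀ g, (QT k).map (kbMap (hE 0) (hE 1) (G0 g)) ≫ (θ 1).hom
        = (θ 0).hom ≫ (show (QT k).obj Y0 ⟶ (QT k).obj Y0 from x g)) ∧
      (∀ g, (QT k).map (kbMap (hE 1) (hE 2) (G1 g)) ≫ (θ 2).hom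
        = (θ 1).hom ≫ (show (QT k).obj Y0 ⟶ (QT k).obj Y0 from x g)) := by
  classical
  let y : Gen → ((QT k).obj Y0 ⟶ (QT k).obj Y0) := fun g => x g
  have hy : ∀ g h, y h ≫ y g = ∑ p : Gen × Gen, nf g h p • (y p.2 ≫ y p.1) :=
    fun g h => hx.toC.nf_rel g h
  obtain ⟨Z1, s1, hs1, F0, hF0⟩ := exists_common_denom (QT k) (acyc k).trW y
  obtain ⟨Z2, s2, hs2, F1, hF1⟩ := exists_common_denom (QT k) (acyc k).trW
    (fun g => inv ((QT k).map s1) ≫ y g)
  let R : Gen × Gen → (Y0 ⟶ Z2) := fun q =>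
    F0 q.2 ≫ F1 q.1 - ∑ p : Gen × Gen, nf q.1 q.2 p • (F0 p.2 ≫ F1 p.1)
  have hQ : ∀ g h, (QT k).map (F0 h ≫ F1 g) = (y h ≫ y g) ≫ (QT k).map s2 := fun g h => by
    rw [Functor.map_comp, hF0, hF1]
    simp
  have hR : ∀ q, (QT k).map (R q) = (QT k).map 0 := fun q => by
    simp only [R]
    rw [Functor.map_zero, Functor.map_sub, Functor.map_sum, hQ, hy, Preadditive.sum_comp, sub_eq_zero]
    refine Finset.sum_congr rfl fun p _ => ?_
    rw [Functor.map_zsmul, hQ, Preadditive.zsmul_comp]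
  obtain ⟨Z2', t, ht, hkill⟩ := exists_kill (QT k) (acyc k).trW R hR
  obtain ⟨A0, hA0, ⟨e0⟩⟩ := exists_model Y0
  obtain ⟨A1, hA1, ⟨e1⟩⟩ := exists_model Z1
  obtain ⟨A2, hA2, ⟨e2⟩⟩ := exists_model Z2'
  choose G0 hG0 using fun g => kbMap_surj hA0 hA1 (e0.hom ≫ F0 g ≫ e1.inv)
  choose G1 hG1 using fun g => kbMap_surj hA1 hA2 (e1.hom ≫ F1 g ≫ t ≫ e2.inv)
  have hG : ∀ g h, kbMap hA0 hA2 (G0 h ≫ G1 g) = e0.hom ≫ (F0 h ≫ F1 g) ≫ t ≫ e2.inv :=
    fun g h => by rw [kbMap_comp hA0 hA1 hA2, hG0, hG1]; simp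
  have hrel : ∀ g h, Nonempty (Homotopy
      (G0 h ≫ G1 g - ∑ p : Gen × Gen, nf g h p • (G0 p.2 ≫ G1 p.1)) 0) := fun g h => by
    refine ⟨HomotopyCategory.homotopyOfEq _ _ ?_⟩
    rw [Functor.map_zero, Functor.map_sub, Functor.map_sum, sub_eq_zero]
    simp only [Functor.map_zsmul]
    have hh : ∀ g h, (HomotopyCategory.quotient _ _).map (G0 h ≫ G1 g)
        = (e0.hom ≫ (F0 h ≫ F1 g) ≫ t ≫ e2.inv).hom :=
      fun g h => congrArg InducedCategory.Hom.hom (hG g h)
    have hlin : (F0 h ≫ F1 g) ≫ t = (∑ p : Gen × Gen, nf g h p • (F0 p.2 ≫ F1 p.1)) ≫ t := by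
      have := hkill (g, h)
      rwa [show R (g, h) = F0 h ≫ F1 g - ∑ p : Gen × Gen, nf g h p • (F0 p.2 ≫ F1 p.1) from rfl,
        Preadditive.sub_comp, sub_eq_zero] at this
    simp only [hh]
    have hfull : e0.hom ≫ (F0 h ≫ F1 g) ≫ t ≫ e2.inv
        = ∑ p : Gen × Gen, nf g h p • (e0.hom ≫ (F0 p.2 ≫ F1 p.1) ≫ t ≫ e2.inv) := by
      rw [← Category.assoc (F0 h ≫ F1 g) t e2.inv, hlin]
      simp [Preadditive.sum_comp, Preadditive.comp_sum, Preadditive.zsmul_comp,
        Preadditive.comp_zsmul]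
    have := congrArg ((bd k).ι.map) hfull
    rw [Functor.map_sum] at this
    simp only [Functor.map_zsmul] at this
    exact this
  let η := fun g h => (hrel g h).some
  let Cn : Cx k := CochainComplex.mappingCone (𝟙 (copies A0))
  have hCn : IsBdd Cn := hA0.copies.cone _ hA0.copies
  have : HasBinaryBiproduct A1 Cn := inferInstance
  have hE1 : IsBdd (A1 ⊞ Cn) := hA1.biprod hCn
  let jn : Gen → (A0 ⟶ Cn) := fun h => copyIn A0 h ≫ CochainComplex.mappingCone.inr _
  let hom : Gen → Gen → ∀ i j, Cn.X i ⟶ A2.X j := fun g h i j =>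
    (CochainComplex.mappingCone.snd (𝟙 (copies A0))).v i i (add_zero i) ≫
      (copyOut A0 h).f i ≫ (η g h).hom i j
  let M : Gen → (Cn ⟶ A2) := fun g =>
    ∑ h, if Pivot g h then Homotopy.nullHomotopicMap (hom g h) else 0
  have hjM : ∀ g h, jn h ≫ M g =
      if Pivot g h then G0 h ≫ G1 g - ∑ p : Gen × Gen, nf g h p • (G0 p.2 ≫ G1 p.1) else 0 := by
    intro g h
    simp only [M, Preadditive.comp_sum]
    rw [Finset.sum_eq_single h]
    · split_ifs with hp
      · rw [Homotopy.comp_nullHomotopicMap]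
        refine Eq.trans ?_ (nullHomotopicMap_eq (η g h))
        congr 1
        funext i j
        exact (cone_copy A0 h h i _).trans (if_pos rfl)
      · rw [comp_zero]
    · intro h' _ hne
      split_ifs with hp
      · rw [Homotopy.comp_nullHomotopicMap]
        refine nullHomotopicMap_zero fun i j _ => ?_
        exact (cone_copy A0 h h' i _).trans (if_neg (Ne.symm hne))
      · rw [comp_zero]
    · simp
  have hMq : ∀ g, (HomotopyCategory.quotient _ _).map (M g) = 0 := fun g => by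
    simp only [M, Functor.map_sum]
    refine Finset.sum_eq_zero fun h _ => ?_
    split_ifs with hp
    · refine (HomotopyCategory.eq_of_homotopy _ 0 (Homotopy.nullHomotopy _ ?_)).trans
        (Functor.map_zero _ _ _)
      intro i j hij
      simp only [hom]
      rw [(η g h).zero i j hij, comp_zero, comp_zero]
    · rw [Functor.map_zero]
  let H0 : Gen → (A0 ⟶ A1 ⊞ Cn) := fun h => biprod.lift (G0 h) (jn h)
  let H1 : Gen → (A1 ⊞ Cn ⟶ A2) := fun g => biprod.desc (G1 g) (-M g)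
  have hprod : ∀ g h, H0 h ≫ H1 g =
      if Pivot g h then ∑ p : Gen × Gen, nf g h p • (G0 p.2 ≫ G1 p.1) else G0 h ≫ G1 g := by
    intro g h
    simp only [H0, H1, biprod.lift_desc, Preadditive.comp_neg, hjM]
    split_ifs <;> abel
  have hCz : IsZero ((HomotopyCategory.quotient _ _).obj Cn) := by
    refine Triangle.isZero₃_of_isIso₁ _
      (HomotopyCategory.mappingCone_triangleh_distinguished (𝟙 (copies A0))) ?_
    show IsIso ((HomotopyCategory.quotient _ _).map (𝟙 (copies A0)))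
    infer_instance
  let π : toKB (A1 ⊞ Cn) hE1 ⟶ toKB A1 hA1 := kbMap hE1 hA1 biprod.fst
  let σ : toKB A1 hA1 ⟶ toKB (A1 ⊞ Cn) hE1 := kbMap hA1 hE1 biprod.inl
  have hσπ : σ ≫ π = 𝟙 _ := by
    simp only [σ, π, ← kbMap_comp, biprod.inl_fst]
    exact ObjectProperty.hom_ext _ ((HomotopyCategory.quotient _ _).map_id _)
  have hπσ : π ≫ σ = 𝟙 _ := by
    simp only [σ, π, ← kbMap_comp]
    refine ObjectProperty.hom_ext _ ?_
    show (HomotopyCategory.quotient _ _).map (biprod.fst ≫ biprod.inl) = 𝟙 _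
    rw [← (HomotopyCategory.quotient _ _).map_id, ← biprod.total, Functor.map_add,
      Functor.map_comp _ biprod.snd biprod.inr,
      hCz.eq_of_tgt ((HomotopyCategory.quotient _ _).map biprod.snd) 0, zero_comp, add_zero]
  let ε : toKB (A1 ⊞ Cn) hE1 ≅ toKB A1 hA1 := ⟨π, σ, hπσ, hσπ⟩
  have hH0 : ∀ g, kbMap hA0 hE1 (H0 g) ≫ π = kbMap hA0 hA1 (G0 g) := fun g => by
    simp only [π, ← kbMap_comp, H0, biprod.lift_fst]
  have hH1 : ∀ g, kbMap hE1 hA2 (H1 g) = π ≫ kbMap hA1 hA2 (G1 g) := fun g => by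
    simp only [π, ← kbMap_comp]
    refine ObjectProperty.hom_ext _ ?_
    show (HomotopyCategory.quotient _ _).map (H1 g)
      = (HomotopyCategory.quotient _ _).map (biprod.fst ≫ G1 g)
    rw [show H1 g = biprod.fst ≫ G1 g + biprod.snd ≫ (-M g) from biprod.desc_eq,
      Functor.map_add, Functor.map_comp _ biprod.snd, Functor.map_neg, hMq, neg_zero, comp_zero,
      add_zero]
  let θ0 : (QT k).obj (toKB A0 hA0) ≅ (QT k).obj Y0 := (QT k).mapIso e0
  let θ1 : (QT k).obj (toKB (A1 ⊞ Cn) hE1) ≅ (QT k).obj Y0 :=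
    (QT k).mapIso (ε ≪≫ e1) ≪≫ (asIso ((QT k).map s1)).symm
  let θ2 : (QT k).obj (toKB A2 hA2) ≅ (QT k).obj Y0 :=
    (QT k).mapIso e2 ≪≫ (asIso ((QT k).map t)).symm ≪≫ (asIso ((QT k).map s2)).symm
  have hq0 : ∀ g, (QT k).map (kbMap hA0 hE1 (H0 g)) ≫ θ1.hom = θ0.hom ≫ y g := fun g => by
    simp only [θ1, θ0, ε, Functor.mapIso_hom, Iso.trans_hom, Iso.symm_hom, asIso_inv,
      Functor.map_comp, Category.assoc]
    rw [← Functor.map_comp_assoc, hH0, hG0]
    simp [hF0]
  have hq1 : ∀ g, (QT k).map (kbMap hE1 hA2 (H1 g)) ≫ θ2.hom = θ1.hom ≫ y g := fun g => by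
    simp only [θ1, θ2, ε, Functor.mapIso_hom, Iso.trans_hom, Iso.symm_hom, asIso_inv,
      Functor.map_comp, Category.assoc, hH1, hG1]
    simp [hF1]
  refine ⟨Fin.cons A0 (Fin.cons (A1 ⊞ Cn) (Fin.cons A2 finZeroElim)),
    Fin.cons hA0 (Fin.cons hE1 (Fin.cons hA2 finZeroElim)),
    Fin.cons θ0 (Fin.cons θ1 (Fin.cons θ2 finZeroElim)), H0, H1, ?_, hq0, hq1⟩
  intro g h
  have hsum : ∑ p : Gen × Gen, nf g h p • (H0 p.2 ≫ H1 p.1)
      = ∑ p : Gen × Gen, nf g h p • (G0 p.2 ≫ G1 p.1) := by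
    refine Finset.sum_congr rfl fun p _ => ?_
    by_cases hp : Pivot p.1 p.2
    · rw [show nf g h p = 0 from nf_pivot_eq_zero g h p.1 p.2 hp, zero_smul, zero_smul]
    · rw [hprod, if_neg hp]
  refine Eq.trans ?_ hsum.symm
  refine (hprod g h).trans ?_
  by_cases hp : Pivot g h
  · rw [if_pos hp]
  · rw [if_neg hp, not_not.1 hp]
    simp [Pi.single_apply, ite_smul]

theorem exists_model_pattern : Nonempty (Model k) := by
  obtain ⟨Y0, x, hx, h0, hm, hz⟩ := exists_cone (k := k)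
  obtain ⟨E, hE, θ, G0, G1, hs, hq0, hq1⟩ := exists_realization Y0 x hx
  refine ⟨⟨E, hE, G0, G1, hs, fun n j hj => ?_, fun n j hj0 hj1 w => ?_⟩⟩
  · obtain ⟨φ, hφ, hφx⟩ : ∃ φ : (GT (k := k) (n + 1)).obj (((QT k).obj Y0)⟦j⟧) →ₗ[k] (Fin n → k),
        Function.Bijective φ ∧
          ∀ g y, φ (((GT (n + 1)).map ((x g)⟦j⟧')).hom y) = rep k n g (φ y) := by
      rcases hj with rfl | rfl
      · obtain ⟨φ, hφ, hφx⟩ := h0 n
        let z := (GT (n + 1)).mapIso ((shiftFunctorZero (TT k) ℤ).app ((QT k).obj Y0))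
        refine ⟨φ ∘ₗ z.hom.hom, hφ.comp ((ConcreteCategory.isIso_iff_bijective z.hom).1
          inferInstance), fun g y => ?_⟩
        have hn : (GT (n + 1)).map ((x g)⟦(0 : ℤ)⟧') ≫ z.hom
            = z.hom ≫ (GT (n + 1)).map (x g) := by
          simp only [z, Functor.mapIso_hom, Iso.app_hom, ← Functor.map_comp]
          exact congrArg _ ((shiftFunctorZero (TT k) ℤ).hom.naturality (x g))
        have := LinearMap.congr_fun (congrArg ModuleCat.Hom.hom hn) y
        simp only [ModuleCat.hom_comp, LinearMap.comp_apply] at this ⊢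
        rw [this]
        exact hφx g _
      · exact hm n
    let u : ∀ w, ((counterRep k (n + 1)).evH j).obj (E w) ⟶
        (GT (n + 1)).obj (((QT k).obj Y0)⟦j⟧) := fun w =>
      (atIso (n + 1) j (E w) (hE w)).inv ≫ (GT (n + 1)).map ((θ w).hom⟦j⟧')
    have hu : ∀ (w w' : Fin 3) (G : E w ⟶ E w') (g : Gen),
        (QT k).map (kbMap (hE w) (hE w') G) ≫ (θ w').hom
          = (θ w).hom ≫ (show (QT k).obj Y0 ⟶ (QT k).obj Y0 from x g) →
        ((counterRep k (n + 1)).evH j).map G ≫ u w'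
          = u w ≫ (GT (n + 1)).map ((x g)⟦j⟧') := by
      intro w w' G g hG
      simp only [u]
      rw [← Category.assoc, ← cancel_epi (atIso (n + 1) j (E w) (hE w)).hom,
        ← Category.assoc, ← Category.assoc, ← atIso_naturality (n + 1) j (hE w) (hE w') G]
      simp only [Category.assoc, Iso.hom_inv_id_assoc, ← Functor.map_comp]
      exact congrArg (fun z => (GT (n + 1)).map (z⟦j⟧')) hG
    refine ⟨fun w => φ ∘ₗ (u w).hom, fun w => hφ.comp
      ((ConcreteCategory.isIso_iff_bijective (u w)).1 inferInstance), fun g y => ?_, fun g y => ?_⟩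
    · have := LinearMap.congr_fun (congrArg ModuleCat.Hom.hom (hu 0 1 (G0 g) g (hq0 g))) y
      exact (congrArg φ this).trans (hφx g _)
    · have := LinearMap.congr_fun (congrArg ModuleCat.Hom.hom (hu 1 2 (G1 g) g (hq1 g))) y
      exact (congrArg φ this).trans (hφx g _)
  · exact IsZero.of_iso (hz n j hj0 hj1) ((atIso (n + 1) j (E w) (hE w)).symm ≪≫
      (GT (n + 1)).mapIso ((shiftFunctor (TT k) j).mapIso (θ w)))

end Vale.Agent.P176
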