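import Vale.Agent.P176.GlDim

/-!
Bounded complexes of `Lam k`-modules on a total space, matrix complexes, and the algebra
obtained from a matrix complex by a square-zero extension.
-/

namespace Vale.Agent.P176

set_option linter.unusedSimpArgs false
set_option linter.unusedSectionVars false

variable {k : Type} [Field k] {m : ℕ}

/-- A complex of modules in positions `0, …, m`, given on its total space. -/
structure GCx (k : Type) [Field k] (m : ℕ) where
  X : Type
  [grp : AddCommGroup X]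
  [mdl : Module (Lam k) X]
  pr : Fin (m + 1) → X →ₗ[Lam k] X
  d : X →ₗ[Lam k] X
  pr_pr : ∀ a b x, pr a (pr b x) = if a = b then pr b x else 0
  pr_sum : ∀ x, ∑ a, pr a x = x
  pr_d : ∀ (a : Fin m) x, d (pr a.castSucc x) = pr a.succ (d x)
  pr_zero_d : ∀ x, pr 0 (d x) = 0
  d_last : ∀ x, d (pr (Fin.last m) x) = 0
  d_d : ∀ x, d (d x) = 0

attribute [instance] GCx.grp GCx.mdl

namespace GCx

variable (G : GCx k m)

theorem pr_d_pr (a : Fin (m + 1)) (c : Fin m) (x : G.X) :
    G.pr a (G.d (G.pr c.castSucc x)) = if a = c.succ then G.d (G.pr c.castSucc x) else 0 := by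
  rw [G.pr_d, G.pr_pr]

/-- The action of a pair (vertex part, differential part). -/
def act (b : Fin (m + 1) → Lam k) (δ : Fin m → Lam k) : G.X →+ G.X where
  toFun x := ∑ a, G.pr a (b a • x) + ∑ a : Fin m, G.d (G.pr a.castSucc (δ a • x))
  map_zero' := by simp
  map_add' x y := by
    simp only [smul_add, map_add, Finset.sum_add_distrib]
    abel

theorem act_apply (b : Fin (m + 1) → Lam k) (δ : Fin m → Lam k) (x : G.X) :
    G.act b δ x = ∑ a, G.pr a (b a • x) + ∑ a : Fin m, G.d (G.pr a.castSucc (δ a • x)) := rfl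

theorem act_add (b b' : Fin (m + 1) → Lam k) (δ δ' : Fin m → Lam k) (x : G.X) :
    G.act (b + b') (δ + δ') x = G.act b δ x + G.act b' δ' x := by
  simp only [act_apply, Pi.add_apply, add_smul, map_add, Finset.sum_add_distrib]
  abel

theorem act_const (c : Lam k) (x : G.X) : G.act (fun _ => c) 0 x = c • x := by
  simp [act_apply, ← Finset.smul_sum, G.pr_sum]

theorem act_one (x : G.X) : G.act 1 0 x = x := by
  rw [show (1 : Fin (m + 1) → Lam k) = fun _ => 1 from rfl, act_const, one_smul]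

/-- The differential part of a product of two pairs. -/
def dmul (b b' : Fin (m + 1) → Lam k) (δ δ' : Fin m → Lam k) : Fin m → Lam k :=
  fun a => b a.succ * δ' a + δ a * b' a.castSucc

theorem act_act (b b' : Fin (m + 1) → Lam k) (δ δ' : Fin m → Lam k) (x : G.X) :
    G.act b δ (G.act b' δ' x) = G.act (b * b') (dmul b b' δ δ') x := by
  have h1 : ∀ a, G.pr a (b a • ∑ c, G.pr c (b' c • x)) = G.pr a ((b a * b' a) • x) := by
    intro a
    simp only [Finset.smul_sum, map_sum, map_smul, G.pr_pr]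
    simp [mul_smul]
  have h2 : ∀ a, G.pr a (b a • ∑ c : Fin m, G.d (G.pr c.castSucc (δ' c • x)))
      = ∑ c : Fin m, if a = c.succ then G.d (G.pr c.castSucc ((b a * δ' c) • x)) else 0 := by
    intro a
    simp only [Finset.smul_sum, map_sum]
    refine Finset.sum_congr rfl fun c _ => ?_
    simp only [map_smul, G.pr_d_pr, smul_ite, smul_zero, mul_smul]
  have h3 : ∀ a : Fin m, G.d (G.pr a.castSucc (δ a • ∑ c, G.pr c (b' c • x)))
      = G.d (G.pr a.castSucc ((δ a * b' a.castSucc) • x)) := by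
    intro a
    simp only [Finset.smul_sum, map_sum, map_smul, G.pr_pr]
    simp [apply_ite G.d, mul_smul, map_smul]
  have h4 : ∀ a : Fin m, G.d (G.pr a.castSucc
      (δ a • ∑ c : Fin m, G.d (G.pr c.castSucc (δ' c • x)))) = 0 := by
    intro a
    simp only [Finset.smul_sum, map_sum, map_smul, G.pr_d_pr]
    refine Finset.sum_eq_zero fun c _ => ?_
    split_ifs <;> simp [map_smul, G.d_d]
  have h5 : ∑ a, ∑ c : Fin m, (if a = c.succ then
      G.d (G.pr c.castSucc ((b a * δ' c) • x)) else 0)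
      = ∑ c : Fin m, G.d (G.pr c.castSucc ((b c.succ * δ' c) • x)) := by
    rw [Finset.sum_comm]; simp
  simp only [act_apply, smul_add, map_add, Finset.sum_add_distrib, h1, h2, h3, h4, h5,
    Finset.sum_const_zero, add_zero, dmul, add_smul, Pi.mul_apply]
  abel

end GCx

/-- A complex of projective right modules over `Lam k` with a left action, as matrices. -/
structure MCx (k : Type) [Field k] (m : ℕ) where
  ι : Type
  [fin : Fintype ι]
  [dec : DecidableEq ι]
  pos : ι → Fin (m + 1)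
  θ : Lam k →ₗ[k] Matrix ι ι (Lam k)
  θ_mul : ∀ x y, θ (x * y) = θ x * θ y
  θ_pos : ∀ x i j, pos i ≠ pos j → θ x i j = 0
  D : Matrix ι ι (Lam k)
  D_pos : ∀ i j, (pos i : ℕ) ≠ pos j + 1 → D i j = 0
  D_comm : ∀ x, D * θ x = θ x * D
  D_one : D * θ 1 = D
  D_D : D * D = 0

attribute [instance] MCx.fin MCx.dec

namespace MCx

variable (C : MCx k m) (Z : Type) [AddCommGroup Z] [Module (Lam k) Z]

/-- Matrices act on vectors. -/
def mv (M : Matrix C.ι C.ι (Lam k)) : (C.ι → Z) →+ (C.ι → Z) where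
  toFun x i := ∑ j, M i j • x j
  map_zero' := by funext i; simp
  map_add' x y := by funext i; simp [smul_add, Finset.sum_add_distrib]

theorem mv_apply (M : Matrix C.ι C.ι (Lam k)) (x : C.ι → Z) (i : C.ι) :
    C.mv Z M x i = ∑ j, M i j • x j := rfl

theorem mv_mv (M N : Matrix C.ι C.ι (Lam k)) (x : C.ι → Z) :
    C.mv Z M (C.mv Z N x) = C.mv Z (M * N) x := by
  funext i
  simp only [mv_apply, Matrix.mul_apply, Finset.smul_sum, Finset.sum_smul, mul_smul]
  exact Finset.sum_comm

theorem mv_add (M N : Matrix C.ι C.ι (Lam k)) (x : C.ι → Z) :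
    C.mv Z (M + N) x = C.mv Z M x + C.mv Z N x := by
  funext i; simp [mv_apply, add_smul, Finset.sum_add_distrib]

theorem mv_zero (x : C.ι → Z) : C.mv Z 0 x = 0 := by
  funext i; simp [mv_apply]

/-- The vectors fixed by the unit. -/
def fixedPart : AddSubgroup (C.ι → Z) where
  carrier := {x | C.mv Z (C.θ 1) x = x}
  zero_mem' := map_zero _
  add_mem' {x y} hx hy := by
    simp only [Set.mem_ofPred_eq] at *
    rw [map_add, hx, hy]
  neg_mem' {x} hx := by
    simp only [Set.mem_ofPred_eq] at *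
    rw [map_neg, hx]

/-- The value of the functor on `Z`. -/
abbrev FZ : Type := C.fixedPart Z

theorem FZ.fixed (x : C.FZ Z) : C.mv Z (C.θ 1) x.1 = x.1 := x.2

/-- The action of `Lam k` on the value of the functor. -/
def θHom : Lam k →+* AddMonoid.End (C.FZ Z) where
  toFun c := AddMonoidHom.mk'
    (fun x => ⟨C.mv Z (C.θ c) x.1, by
      show C.mv Z (C.θ 1) (C.mv Z (C.θ c) x.1) = C.mv Z (C.θ c) x.1
      rw [mv_mv, ← C.θ_mul, one_mul]⟩)
    (fun x y => Subtype.ext (map_add _ _ _))
  map_one' := by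
    refine AddMonoidHom.ext fun x => Subtype.ext ?_
    exact x.2
  map_mul' c c' := by
    refine AddMonoidHom.ext fun x => Subtype.ext ?_
    show C.mv Z (C.θ (c * c')) x.1 = C.mv Z (C.θ c) (C.mv Z (C.θ c') x.1)
    rw [mv_mv, C.θ_mul]
  map_zero' := by
    refine AddMonoidHom.ext fun x => Subtype.ext ?_
    show C.mv Z (C.θ 0) x.1 = 0
    rw [map_zero, mv_zero]
  map_add' c c' := by
    refine AddMonoidHom.ext fun x => Subtype.ext ?_
    show C.mv Z (C.θ (c + c')) x.1 = C.mv Z (C.θ c) x.1 + C.mv Z (C.θ c') x.1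
    rw [map_add, mv_add]

instance : Module (Lam k) (C.FZ Z) := Module.compHom _ (C.θHom Z)

theorem smul_val (c : Lam k) (x : C.FZ Z) : (c • x).1 = C.mv Z (C.θ c) x.1 := rfl

theorem mv_pos (a : Fin (m + 1)) (c : Lam k) (x : C.ι → Z) :
    C.mv Z (C.θ c) (fun i => if C.pos i = a then x i else 0)
      = fun i => if C.pos i = a then C.mv Z (C.θ c) x i else 0 := by
  funext i
  simp only [mv_apply]
  split_ifs with h
  · refine Finset.sum_congr rfl fun j _ => ?_
    split_ifs with hj
    · rfl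
    · rw [C.θ_pos c i j (by rw [h]; exact Ne.symm hj), zero_smul, zero_smul]
  · refine Finset.sum_eq_zero fun j _ => ?_
    split_ifs with hj
    · rw [C.θ_pos c i j (by rw [hj]; exact h), zero_smul]
    · rw [smul_zero]

/-- Projection to a position. -/
def fpr (a : Fin (m + 1)) : C.FZ Z →ₗ[Lam k] C.FZ Z where
  toFun x := ⟨fun i => if C.pos i = a then x.1 i else 0, by
    show C.mv Z (C.θ 1) _ = _
    rw [mv_pos, x.2]⟩
  map_add' x y := Subtype.ext (funext fun i => by
    simp only [AddSubgroup.coe_add, Pi.add_apply]; split_ifs <;> simp)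
  map_smul' c x := Subtype.ext (by
    simp only [RingHom.id_apply, smul_val, mv_pos])

theorem fpr_val (a : Fin (m + 1)) (x : C.FZ Z) (i : C.ι) :
    (C.fpr Z a x).1 i = if C.pos i = a then x.1 i else 0 := rfl

/-- The differential. -/
def fd : C.FZ Z →ₗ[Lam k] C.FZ Z where
  toFun x := ⟨C.mv Z C.D x.1, by
    show C.mv Z (C.θ 1) (C.mv Z C.D x.1) = C.mv Z C.D x.1
    rw [mv_mv, ← C.D_comm, C.D_one]⟩
  map_add' x y := Subtype.ext (map_add _ _ _)
  map_smul' c x := Subtype.ext (by
    simp only [RingHom.id_apply, smul_val, mv_mv, C.D_comm])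

theorem fd_val (x : C.FZ Z) : (C.fd Z x).1 = C.mv Z C.D x.1 := rfl

/-- The value of the functor as a complex. -/
@[reducible]
def gcx : GCx k m where
  X := C.FZ Z
  pr := C.fpr Z
  d := C.fd Z
  pr_pr a b x := by
    refine Subtype.ext (funext fun i => ?_)
    simp only [fpr_val]
    split_ifs with h1 h2 <;> simp_all [fpr_val]
  pr_sum x := by
    refine Subtype.ext (funext fun i => ?_)
    simp [fpr_val, AddSubgroup.val_finsetSum, Finset.sum_apply]
  pr_d a x := by
    refine Subtype.ext (funext fun i => ?_)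
    simp only [fpr_val, fd_val, mv_apply]
    split_ifs with h
    · refine Finset.sum_congr rfl fun j _ => ?_
      split_ifs with hj
      · rfl
      · rw [C.D_pos i j, zero_smul, zero_smul]
        rw [h]; intro h'; exact hj (Fin.ext (by simp at h' ⊢; omega))
    · refine Finset.sum_eq_zero fun j _ => ?_
      split_ifs with hj
      · rw [C.D_pos i j, zero_smul]
        rw [hj]; intro h'; exact h (Fin.ext (by simp at h' ⊢; omega))
      · rw [smul_zero]
  pr_zero_d x := by
    refine Subtype.ext (funext fun i => ?_)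
    simp only [fpr_val, fd_val, mv_apply, AddSubgroup.coe_zero, Pi.zero_apply]
    split_ifs with h
    · refine Finset.sum_eq_zero fun j _ => ?_
      rw [C.D_pos i j, zero_smul]
      rw [h]; simp
    · rfl
  d_last x := by
    refine Subtype.ext (funext fun i => ?_)
    simp only [fpr_val, fd_val, mv_apply, AddSubgroup.coe_zero, Pi.zero_apply]
    refine Finset.sum_eq_zero fun j _ => ?_
    split_ifs with hj
    · rw [C.D_pos i j, zero_smul]
      rw [hj]; have := (C.pos i).2; simp; omega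
    · rw [smul_zero]
  d_d x := by
    refine Subtype.ext ?_
    show C.mv Z C.D (C.mv Z C.D x.1) = _
    rw [mv_mv, C.D_D, mv_zero]; rfl

theorem gcx_act (b : Fin (m + 1) → Lam k) (δ : Fin m → Lam k) (x : C.FZ Z) :
    (C.gcx Z).act b δ x = ∑ a, C.fpr Z a (b a • x)
      + ∑ a : Fin m, C.fd Z (C.fpr Z a.castSucc (δ a • x)) := rfl

/-- The action of a pair on the value of the functor. -/
def zact (b : Fin (m + 1) → Lam k) (δ : Fin m → Lam k) : C.FZ Z →+ C.FZ Z :=
  (C.gcx Z).act b δ

theorem zact_apply (b : Fin (m + 1) → Lam k) (δ : Fin m → Lam k) (x : C.FZ Z) :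
    C.zact Z b δ x = ∑ a, C.fpr Z a (b a • x)
      + ∑ a : Fin m, C.fd Z (C.fpr Z a.castSucc (δ a • x)) := rfl

theorem zact_add (b b' : Fin (m + 1) → Lam k) (δ δ' : Fin m → Lam k) (x : C.FZ Z) :
    C.zact Z (b + b') (δ + δ') x = C.zact Z b δ x + C.zact Z b' δ' x :=
  (C.gcx Z).act_add b b' δ δ' x

theorem zact_one (x : C.FZ Z) : C.zact Z 1 0 x = x := (C.gcx Z).act_one x

theorem zact_zero (x : C.FZ Z) : C.zact Z 0 0 x = 0 := by simp [zact_apply]

theorem zact_zact (b b' : Fin (m + 1) → Lam k) (δ δ' : Fin m → Lam k) (x : C.FZ Z) :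
    C.zact Z b δ (C.zact Z b' δ' x) = C.zact Z (b * b') (GCx.dmul b b' δ δ') x :=
  (C.gcx Z).act_act b b' δ δ' x

variable {Z}

/-- The pairing with an element of `Z`. -/
def star (z : Z) : C.FZ (Lam k) →ₗ[Lam k] C.FZ Z where
  toFun n := ⟨fun i => n.1 i • z, by
    show C.mv Z (C.θ 1) _ = _
    funext i
    conv_rhs => rw [← n.2]
    simp [mv_apply, Finset.sum_smul, mul_smul]⟩
  map_add' n n' := Subtype.ext (funext fun i => add_smul _ _ z)
  map_smul' c n := Subtype.ext (funext fun i => by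
    simp [smul_val, mv_apply, Finset.sum_smul, mul_smul])

theorem star_val (z : Z) (n : C.FZ (Lam k)) (i : C.ι) : (C.star z n).1 i = n.1 i • z := rfl

variable {Z' : Type} [AddCommGroup Z'] [Module (Lam k) Z']

/-- Functoriality. -/
def fmap (f : Z →ₗ[Lam k] Z') : C.FZ Z →ₗ[Lam k] C.FZ Z' where
  toFun x := ⟨fun i => f (x.1 i), by
    show C.mv Z' (C.θ 1) _ = _
    funext i
    conv_rhs => rw [← x.2]
    simp [mv_apply, map_sum, map_smul]⟩
  map_add' x y := Subtype.ext (funext fun i => map_add f _ _)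
  map_smul' c x := Subtype.ext (funext fun i => by
    simp [smul_val, mv_apply, map_sum, map_smul])

theorem fmap_val (f : Z →ₗ[Lam k] Z') (x : C.FZ Z) (i : C.ι) :
    (C.fmap f x).1 i = f (x.1 i) := rfl

theorem fmap_pr (f : Z →ₗ[Lam k] Z') (a : Fin (m + 1)) (x : C.FZ Z) :
    C.fmap f (C.fpr Z a x) = C.fpr Z' a (C.fmap f x) := by
  refine Subtype.ext (funext fun i => ?_)
  simp only [fmap_val, fpr_val]
  split_ifs <;> simp

theorem fmap_d (f : Z →ₗ[Lam k] Z') (x : C.FZ Z) :
    C.fmap f (C.fd Z x) = C.fd Z' (C.fmap f x) := by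
  refine Subtype.ext (funext fun i => ?_)
  simp [fmap_val, fd_val, mv_apply, map_sum, map_smul]

theorem star_pr (z : Z) (a : Fin (m + 1)) (n : C.FZ (Lam k)) :
    C.star z (C.fpr (Lam k) a n) = C.fpr Z a (C.star z n) := by
  refine Subtype.ext (funext fun i => ?_)
  simp only [star_val, fpr_val]
  split_ifs <;> simp

theorem star_d (z : Z) (n : C.FZ (Lam k)) :
    C.star z (C.fd (Lam k) n) = C.fd Z (C.star z n) := by
  refine Subtype.ext (funext fun i => ?_)
  simp [star_val, fd_val, mv_apply, Finset.sum_smul, mul_smul]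

theorem star_act (z : Z) (b : Fin (m + 1) → Lam k) (δ : Fin m → Lam k) (n : C.FZ (Lam k)) :
    C.star z (C.zact (Lam k) b δ n) = C.zact Z b δ (C.star z n) := by
  rw [zact_apply, zact_apply]
  simp only [map_add, map_sum, star_pr, star_d, map_smul]

theorem fmap_act (f : Z →ₗ[Lam k] Z') (b : Fin (m + 1) → Lam k) (δ : Fin m → Lam k)
    (x : C.FZ Z) :
    C.fmap f (C.zact Z b δ x) = C.zact Z' b δ (C.fmap f x) := by
  rw [zact_apply, zact_apply]
  simp only [map_add, map_sum, fmap_pr, fmap_d, map_smul]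

/-- Right multiplication on the bimodule. -/
def rmul (n : C.FZ (Lam k)) (c : Lam k) : C.FZ (Lam k) := C.star c n

theorem rmul_val (n : C.FZ (Lam k)) (c : Lam k) (i : C.ι) :
    (C.rmul n c).1 i = n.1 i * c := rfl

end MCx

namespace MCx

variable (C : MCx k m)

/-- The action on the bimodule. -/
abbrev nact (b : Fin (m + 1) → Lam k) (δ : Fin m → Lam k) : C.FZ (Lam k) →+ C.FZ (Lam k) :=
  C.zact (Lam k) b δ

end MCx

/-- The square-zero extension algebra of a matrix complex. -/
@[ext]
structure Alg (C : MCx k m) where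
  b : Fin (m + 1) → Lam k
  δ : Fin m → Lam k
  n : C.FZ (Lam k)

namespace Alg

variable {C : MCx k m}

instance : Zero (Alg C) := ⟨⟨0, 0, 0⟩⟩
instance : One (Alg C) := ⟨⟨1, 0, 0⟩⟩
instance : Add (Alg C) := ⟨fun x y => ⟨x.b + y.b, x.δ + y.δ, x.n + y.n⟩⟩
instance : Neg (Alg C) := ⟨fun x => ⟨-x.b, -x.δ, -x.n⟩⟩
instance : Sub (Alg C) := ⟨fun x y => ⟨x.b - y.b, x.δ - y.δ, x.n - y.n⟩⟩
instance : Mul (Alg C) := ⟨fun x y =>
  ⟨x.b * y.b, GCx.dmul x.b y.b x.δ y.δ,
    C.nact x.b x.δ y.n + C.rmul x.n (y.b (Fin.last m))⟩⟩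

/-- The coordinates. -/
def toProd (x : Alg C) : (Fin (m + 1) → Lam k) × (Fin m → Lam k) × C.FZ (Lam k) := (x.b, x.δ, x.n)

theorem toProd_injective : Function.Injective (toProd (C := C)) := fun x y h => by
  simp only [toProd, Prod.mk.injEq] at h
  exact Alg.ext h.1 h.2.1 h.2.2

instance : SMul ℕ (Alg C) := ⟨fun c x => ⟨c • x.b, c • x.δ, c • x.n⟩⟩
instance : SMul ℤ (Alg C) := ⟨fun c x => ⟨c • x.b, c • x.δ, c • x.n⟩⟩

instance : AddCommGroup (Alg C) :=
  toProd_injective.addCommGroup _ rfl (fun _ _ => rfl) (fun _ => rfl) (fun _ _ => rfl)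
    (fun _ _ => rfl) (fun _ _ => rfl)

@[simp] theorem zero_b : (0 : Alg C).b = 0 := rfl
@[simp] theorem zero_δ : (0 : Alg C).δ = 0 := rfl
@[simp] theorem zero_n : (0 : Alg C).n = 0 := rfl
@[simp] theorem one_b : (1 : Alg C).b = 1 := rfl
@[simp] theorem one_δ : (1 : Alg C).δ = 0 := rfl
@[simp] theorem one_n : (1 : Alg C).n = 0 := rfl
@[simp] theorem add_b (x y : Alg C) : (x + y).b = x.b + y.b := rfl
@[simp] theorem add_δ (x y : Alg C) : (x + y).δ = x.δ + y.δ := rfl
@[simp] theorem add_n (x y : Alg C) : (x + y).n = x.n + y.n := rfl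
@[simp] theorem mul_b (x y : Alg C) : (x * y).b = x.b * y.b := rfl
@[simp] theorem mul_δ (x y : Alg C) : (x * y).δ = GCx.dmul x.b y.b x.δ y.δ := rfl
@[simp] theorem mul_n (x y : Alg C) :
    (x * y).n = C.nact x.b x.δ y.n + C.rmul x.n (y.b (Fin.last m)) := rfl

theorem rmul_act (b : Fin (m + 1) → Lam k) (δ : Fin m → Lam k) (n : C.FZ (Lam k)) (c : Lam k) :
    C.rmul (C.nact b δ n) c = C.nact b δ (C.rmul n c) :=
  C.star_act c b δ n

theorem rmul_rmul (n : C.FZ (Lam k)) (c c' : Lam k) :
    C.rmul (C.rmul n c) c' = C.rmul n (c * c') :=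
  Subtype.ext (funext fun i => by simp [MCx.rmul_val, mul_assoc])

theorem rmul_add (n : C.FZ (Lam k)) (c c' : Lam k) :
    C.rmul n (c + c') = C.rmul n c + C.rmul n c' :=
  Subtype.ext (funext fun i => by simp [MCx.rmul_val, mul_add])

theorem add_rmul (n n' : C.FZ (Lam k)) (c : Lam k) :
    C.rmul (n + n') c = C.rmul n c + C.rmul n' c := map_add _ _ _

@[simp] theorem rmul_one (n : C.FZ (Lam k)) : C.rmul n 1 = n :=
  Subtype.ext (funext fun i => by simp [MCx.rmul_val])

@[simp] theorem zero_rmul (c : Lam k) : C.rmul 0 c = 0 := map_zero _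

@[simp] theorem rmul_zero (n : C.FZ (Lam k)) : C.rmul n 0 = 0 :=
  Subtype.ext (funext fun i => by simp [MCx.rmul_val])

theorem act_zero (n : C.FZ (Lam k)) : C.nact 0 0 n = 0 := by
  erw [MCx.gcx_act]
  simp

theorem act_one' (n : C.FZ (Lam k)) : C.nact 1 0 n = n :=
  (C.gcx (Lam k)).act_one n

theorem act_add' (b b' : Fin (m + 1) → Lam k) (δ δ' : Fin m → Lam k) (n : C.FZ (Lam k)) :
    C.nact (b + b') (δ + δ') n = C.nact b δ n + C.nact b' δ' n :=
  (C.gcx (Lam k)).act_add b b' δ δ' n

theorem act_const' (c : Lam k) (n : C.FZ (Lam k)) : C.nact (fun _ => c) 0 n = c • n :=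
  (C.gcx (Lam k)).act_const c n

theorem act_act' (b b' : Fin (m + 1) → Lam k) (δ δ' : Fin m → Lam k) (n : C.FZ (Lam k)) :
    C.nact b δ (C.nact b' δ' n) = C.nact (b * b') (GCx.dmul b b' δ δ') n :=
  (C.gcx (Lam k)).act_act b b' δ δ' n

instance : Ring (Alg C) where
  __ := (inferInstance : AddCommGroup (Alg C))
  mul := (· * ·)
  one := 1
  mul_assoc x y z := by
    refine Alg.ext (by simp [mul_assoc]) ?_ ?_
    · funext a
      simp only [mul_δ, mul_b, GCx.dmul, Pi.mul_apply, mul_add, add_mul, mul_assoc]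
      abel
    · simp only [mul_n, mul_δ, mul_b, map_add, act_act', add_rmul, rmul_act, rmul_rmul,
        Pi.mul_apply]
      abel
  one_mul x := by
    refine Alg.ext (by simp) ?_ ?_
    · funext a; simp [GCx.dmul]
    · simp [act_one']
  mul_one x := by
    refine Alg.ext (by simp) ?_ ?_
    · funext a; simp [GCx.dmul]
    · simp
  left_distrib x y z := by
    refine Alg.ext (by simp [mul_add]) ?_ ?_
    · funext a; simp [GCx.dmul, mul_add]; abel
    · simp [map_add, rmul_add]; abel
  right_distrib x y z := by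
    refine Alg.ext (by simp [add_mul]) ?_ ?_
    · funext a; simp [GCx.dmul, add_mul]; abel
    · simp [act_add', add_rmul]; abel
  zero_mul x := by
    refine Alg.ext (by simp) ?_ ?_
    · funext a; simp [GCx.dmul]
    · simp [act_zero]
  mul_zero x := by
    refine Alg.ext (by simp) ?_ ?_
    · funext a; simp [GCx.dmul]
    · simp

/-- Scalars in the diagonal. -/
def diag : Lam k →+* Alg C where
  toFun c := ⟨fun _ => c, 0, 0⟩
  map_one' := rfl
  map_mul' c c' := by
    refine Alg.ext rfl ?_ ?_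
    · funext a; simp [GCx.dmul]
    · simp
  map_zero' := rfl
  map_add' c c' := by
    refine Alg.ext rfl ?_ ?_ <;> simp

theorem diag_b (c : Lam k) : (diag c : Alg C).b = fun _ => c := rfl
theorem diag_δ (c : Lam k) : (diag c : Alg C).δ = 0 := rfl
theorem diag_n (c : Lam k) : (diag c : Alg C).n = 0 := rfl

theorem smul_eq_rmul (r : k) (n : C.FZ (Lam k)) :
    algebraMap k (Lam k) r • n = C.rmul n (algebraMap k (Lam k) r) := by
  refine Subtype.ext (funext fun i => ?_)
  rw [MCx.smul_val, Algebra.algebraMap_eq_smul_one, map_smul, MCx.rmul_val, mul_smul_comm,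
    mul_one]
  conv_rhs => rw [← n.2]
  simp [MCx.mv_apply, Finset.smul_sum, smul_mul_assoc]

instance : Algebra k (Alg C) :=
  RingHom.toAlgebra' (diag.comp (algebraMap k (Lam k))) fun r x => by
    refine Alg.ext ?_ ?_ ?_
    · funext a; exact Algebra.commutes r (x.b a)
    · funext a
      simp [GCx.dmul, diag_b, diag_δ, Algebra.commutes]
    · simp [diag_b, diag_δ, diag_n, act_const', smul_eq_rmul]

theorem algebraMap_eq (r : k) : algebraMap k (Alg C) r = diag (algebraMap k (Lam k) r) := rfl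

/-- The coordinates as a linear map. -/
def coords : Alg C →ₗ[k] (Fin (m + 1) → Lam k) × (Fin m → Lam k) × (C.ι → Lam k) where
  toFun x := (x.b, x.δ, x.n.1)
  map_add' _ _ := rfl
  map_smul' r x := by
    rw [Algebra.smul_def, algebraMap_eq]
    simp only [RingHom.id_apply, Prod.smul_mk, Prod.mk.injEq, mul_b, mul_δ, mul_n, diag_b,
      diag_δ, diag_n, zero_rmul, add_zero, act_const', smul_eq_rmul]
    refine ⟨?_, ?_, ?_⟩
    · funext a; simp [Algebra.smul_def]
    · funext a; simp [GCx.dmul, Algebra.smul_def]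
    · funext i; simp [MCx.rmul_val, Algebra.smul_def, Algebra.commutes]

instance : FiniteDimensional k (Alg C) :=
  FiniteDimensional.of_injective coords fun x y h => by
    simp only [coords, LinearMap.coe_mk, AddHom.coe_mk, Prod.mk.injEq] at h
    exact Alg.ext h.1 h.2.1 (Subtype.ext h.2.2)

end Alg

end Vale.Agent.P176
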