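import Vale.Agent.P176.MatCx
import Vale.Agent.P176.Homological

/-!
Modules over the algebra of a matrix complex: complexes (killed by the bimodule), the extension
modules `T Z`, and the simple test module `W`.
-/

namespace Vale.Agent.P176

open CategoryTheory Abelian

set_option linter.unusedSimpArgs false
set_option linter.unusedSectionVars false

variable {k : Type} [Field k] {m : ℕ} (C : MCx k m)

namespace GCx

variable (G : GCx k m)

/-- A complex seen as a module over the algebra. -/
def hom : Alg C →+* AddMonoid.End G.X where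
  toFun x := G.act x.b x.δ
  map_one' := AddMonoidHom.ext fun y => G.act_one y
  map_mul' x x' := AddMonoidHom.ext fun y => (G.act_act x.b x'.b x.δ x'.δ y).symm
  map_zero' := AddMonoidHom.ext fun y => by
    show G.act (0 : Alg C).b (0 : Alg C).δ y = 0
    simp [act_apply]
  map_add' x x' := AddMonoidHom.ext fun y => G.act_add x.b x'.b x.δ x'.δ y

/-- Carrier synonym for a complex seen as a module. -/
def Mod (_C : MCx k m) : Type := G.X

instance : AddCommGroup (G.Mod C) := inferInstanceAs (AddCommGroup G.X)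

instance : Module (Alg C) (G.Mod C) := Module.compHom G.X (G.hom C)

theorem mod_smul (x : Alg C) (y : G.Mod C) : x • y = G.act x.b x.δ y := rfl

/-- The associated object. -/
abbrev mc : ModuleCat.{0} (Alg C) := ModuleCat.of (Alg C) (G.Mod C)

theorem diag_smul (c : Lam k) (y : G.X) :
    (Alg.diag c : Alg C) • (show G.Mod C from y) = c • y := by
  rw [mod_smul]; exact G.act_const c y

theorem finite_mod [Module.Finite (Lam k) G.X] : Module.Finite (Alg C) (G.Mod C) := by
  obtain ⟨r, f, hf⟩ := Module.Finite.exists_fin' (Lam k) G.X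
  let g : Fin r → G.Mod C := fun i => f (Pi.single i 1)
  refine Module.Finite.of_surjective (Fintype.linearCombination (Alg C) g) fun y => ?_
  obtain ⟨v, hv⟩ := hf y
  refine ⟨fun i => Alg.diag (v i), ?_⟩
  rw [Fintype.linearCombination_apply, ← hv]
  show ∑ i, (Alg.diag (v i) : Alg C) • (show G.Mod C from f (Pi.single i 1)) = f v
  simp only [G.diag_smul C]
  show ∑ i, v i • f (Pi.single i 1) = f v
  simp only [← map_smul, ← map_sum]
  congr 1
  funext j
  simp [Pi.single_apply]

variable {G} {G' : GCx k m}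

/-- Morphisms of complexes give linear maps. -/
def lift (f : G.X →ₗ[Lam k] G'.X) (hpr : ∀ a x, f (G.pr a x) = G'.pr a (f x))
    (hd : ∀ x, f (G.d x) = G'.d (f x)) : G.Mod C →ₗ[Alg C] G'.Mod C where
  toFun := f
  map_add' x y := map_add f x y
  map_smul' x y := by
    have key : ∀ (y : G.X), f (G.act x.b x.δ y) = G'.act x.b x.δ (f y) := fun y => by
      simp only [act_apply, map_add, map_sum, hpr, hd, map_smul]
    exact key y

theorem lift_apply (f : G.X →ₗ[Lam k] G'.X) (hpr : ∀ a x, f (G.pr a x) = G'.pr a (f x))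
    (hd : ∀ x, f (G.d x) = G'.d (f x)) (x : G.Mod C) : lift C f hpr hd x = f x := rfl

/-- A module in a single position. -/
@[reducible]
def single (a : Fin (m + 1)) (Z : Type) [AddCommGroup Z] [Module (Lam k) Z] : GCx k m where
  X := Z
  pr c :=
    { toFun := fun z => if c = a then z else 0
      map_add' := fun z w => by split_ifs <;> simp
      map_smul' := fun r z => by split_ifs <;> simp }
  d := 0
  pr_pr c c' x := by simp only [LinearMap.coe_mk, AddHom.coe_mk]; split_ifs <;> simp_all
  pr_sum x := by simp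
  pr_d c x := by simp
  pr_zero_d x := by simp
  d_last x := by simp
  d_d x := by simp

/-- A pair `Z = Z` in positions `a, a + 1`. -/
@[reducible]
def pair (a : Fin m) (Z : Type) [AddCommGroup Z] [Module (Lam k) Z] : GCx k m where
  X := Z × Z
  pr c :=
    { toFun := fun p => (if c = a.castSucc then p.1 else 0, if c = a.succ then p.2 else 0)
      map_add' := fun p q => by split_ifs <;> simp [Prod.ext_iff]
      map_smul' := fun r p => by split_ifs <;> simp [Prod.ext_iff] }
  d :=
    { toFun := fun p => (0, p.1)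
      map_add' := fun p q => by simp
      map_smul' := fun r p => by simp }
  pr_pr c c' x := by
    simp only [LinearMap.coe_mk, AddHom.coe_mk]
    by_cases h : c = c'
    · subst h; rw [if_pos rfl]; split_ifs <;> simp
    · rw [if_neg h]; split_ifs <;> simp_all
  pr_sum x := by simp [Prod.ext_iff, Prod.fst_sum, Prod.snd_sum]
  pr_d c x := by simp [Fin.succ_inj, Fin.castSucc_inj]
  pr_zero_d x := by
    have : (0 : Fin (m + 1)) ≠ a.succ := (Fin.succ_ne_zero a).symm
    simp [this]
  d_last x := by
    have : Fin.last m ≠ a.castSucc := (Fin.castSucc_ne_last a).symm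
    simp [this]
  d_d x := by simp

theorem pair_act (a : Fin m) (Z : Type) [AddCommGroup Z] [Module (Lam k) Z]
    (b : Fin (m + 1) → Lam k) (δ : Fin m → Lam k) (z w : Z) :
    (pair a Z).act b δ (show Z × Z from (z, w))
      = (show Z × Z from (b a.castSucc • z, b a.succ • w + δ a • z)) := by
  erw [act_apply]
  refine Prod.ext ?_ ?_ <;>
    simp [Prod.fst_sum, Prod.snd_sum, Fin.castSucc_inj]

theorem single_act (a : Fin (m + 1)) (Z : Type) [AddCommGroup Z] [Module (Lam k) Z]
    (b : Fin (m + 1) → Lam k) (δ : Fin m → Lam k) (z : Z) :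
    (single a Z).act b δ (show Z from z) = (show Z from b a • z) := by
  erw [act_apply]
  simp

end GCx

/-! ### The extension modules -/

section TZ

variable (Z : Type) [AddCommGroup Z] [Module (Lam k) Z]

/-- Carrier of the extension module: the last position plus the value of the functor. -/
def TZ : Type := Z × C.FZ Z

instance : AddCommGroup (TZ C Z) := inferInstanceAs (AddCommGroup (Z × C.FZ Z))

theorem star_add_left (z w : Z) (n : C.FZ (Lam k)) :
    C.star (z + w) n = C.star z n + C.star w n :=
  Subtype.ext (funext fun _ => smul_add _ _ _)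

theorem star_smul_left (c : Lam k) (z : Z) (n : C.FZ (Lam k)) :
    C.star (c • z) n = C.star z (C.rmul n c) :=
  Subtype.ext (funext fun _ => (mul_smul _ _ _).symm)

theorem star_zero_left (n : C.FZ (Lam k)) : C.star (0 : Z) n = 0 :=
  Subtype.ext (funext fun _ => smul_zero _)

/-- The action of the algebra on the extension module. -/
def tact : Alg C →+* AddMonoid.End (Z × C.FZ Z) where
  toFun x := AddMonoidHom.mk'
    (fun p => (x.b (Fin.last m) • p.1, C.zact Z x.b x.δ p.2 + C.star p.1 x.n))
    (fun p q => by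
      simp only [Prod.fst_add, Prod.snd_add, smul_add, map_add, star_add_left, Prod.mk_add_mk]
      rw [add_add_add_comm])
  map_one' := AddMonoidHom.ext fun p => by
    refine Prod.ext (one_smul _ _) ?_
    show C.zact Z 1 0 p.2 + C.star p.1 0 = p.2
    rw [C.zact_one, map_zero, add_zero]
  map_mul' x y := AddMonoidHom.ext fun p => by
    refine Prod.ext (mul_smul _ _ _) ?_
    show C.zact Z (x.b * y.b) (GCx.dmul x.b y.b x.δ y.δ) p.2
        + C.star p.1 (C.nact x.b x.δ y.n + C.rmul x.n (y.b (Fin.last m)))
      = C.zact Z x.b x.δ (C.zact Z y.b y.δ p.2 + C.star p.1 y.n)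
        + C.star (y.b (Fin.last m) • p.1) x.n
    rw [map_add (C.star p.1), map_add (C.zact Z x.b x.δ), C.zact_zact, C.star_act,
      star_smul_left, add_assoc]
  map_zero' := AddMonoidHom.ext fun p => by
    refine Prod.ext (zero_smul _ _) ?_
    show C.zact Z 0 0 p.2 + C.star p.1 0 = 0
    rw [C.zact_zero, map_zero, add_zero]
  map_add' x y := AddMonoidHom.ext fun p => by
    refine Prod.ext (add_smul _ _ _) ?_
    show C.zact Z (x.b + y.b) (x.δ + y.δ) p.2 + C.star p.1 (x.n + y.n)
      = (C.zact Z x.b x.δ p.2 + C.star p.1 x.n) + (C.zact Z y.b y.δ p.2 + C.star p.1 y.n)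
    rw [C.zact_add, map_add, add_add_add_comm]

instance : Module (Alg C) (TZ C Z) := Module.compHom (Z × C.FZ Z) (tact C Z)

theorem tz_smul (x : Alg C) (z : Z) (y : C.FZ Z) :
    x • (show TZ C Z from (z, y))
      = (x.b (Fin.last m) • z, C.zact Z x.b x.δ y + C.star z x.n) := rfl

/-- The associated object. -/
abbrev tmc : ModuleCat.{0} (Alg C) := ModuleCat.of (Alg C) (TZ C Z)

variable {Z} {Z' : Type} [AddCommGroup Z'] [Module (Lam k) Z']

theorem fmap_star (f : Z →ₗ[Lam k] Z') (z : Z) (n : C.FZ (Lam k)) :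
    C.fmap f (C.star z n) = C.star (f z) n :=
  Subtype.ext (funext fun i => map_smul f _ _)

/-- Functoriality of the extension modules. -/
def tmap (f : Z →ₗ[Lam k] Z') : TZ C Z →ₗ[Alg C] TZ C Z' where
  toFun p := (f p.1, C.fmap f p.2)
  map_add' p q := Prod.ext (map_add f _ _) (map_add (C.fmap f) _ _)
  map_smul' x p := by
    refine Prod.ext (map_smul f _ _) ?_
    show C.fmap f (C.zact Z x.b x.δ p.2 + C.star p.1 x.n)
      = C.zact Z' x.b x.δ (C.fmap f p.2) + C.star (f p.1) x.n
    rw [← C.fmap_act, ← fmap_star]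
    exact map_add (C.fmap f) _ _

variable (Z)

/-- The inclusion of the functor part. -/
def tincl : (C.gcx Z).Mod C →ₗ[Alg C] TZ C Z where
  toFun y := (0, y)
  map_add' y y' := Prod.ext (add_zero (0 : Z)).symm rfl
  map_smul' x y := by
    refine Prod.ext (smul_zero _).symm ?_
    show C.zact Z x.b x.δ y = C.zact Z x.b x.δ y + C.star (0 : Z) x.n
    have : C.star (0 : Z) x.n = 0 := Subtype.ext (funext fun i => smul_zero _)
    rw [this]; exact (add_zero _).symm

/-- The projection to the last position. -/
def tproj : TZ C Z →ₗ[Alg C] (GCx.single (Fin.last m) Z).Mod C where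
  toFun p := p.1
  map_add' _ _ := rfl
  map_smul' x p := (GCx.single_act (Fin.last m) Z x.b x.δ p.1).symm

theorem tincl_injective : Function.Injective (tincl C Z) := fun _ _ h => congrArg Prod.snd h

theorem tproj_surjective : Function.Surjective (tproj C Z) := fun z => ⟨(z, 0), rfl⟩

theorem tincl_tproj_exact : Function.Exact (tincl C Z) (tproj C Z) := by
  intro p
  constructor
  · intro h
    exact ⟨p.2, Prod.ext h.symm rfl⟩
  · rintro ⟨y, rfl⟩
    rfl

end TZ

/-! ### The test module -/

/-- The character at the first vertex of the last position. -/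
def chi : Alg C →+* k where
  toFun x := (x.b (Fin.last m)).d 0
  map_one' := rfl
  map_mul' _ _ := rfl
  map_zero' := rfl
  map_add' _ _ := rfl

/-- Carrier of the test module. -/
def Wc (_C : MCx k m) : Type := k

instance : AddCommGroup (Wc C) := inferInstanceAs (AddCommGroup k)

instance : Module (Alg C) (Wc C) := Module.compHom k (chi C)

/-- The test module. -/
abbrev W : ModuleCat.{0} (Alg C) := ModuleCat.of (Alg C) (Wc C)

theorem wc_smul (x : Alg C) (v : Wc C) :
    x • v = (show Wc C from (x.b (Fin.last m)).d 0 * (show k from v)) := rfl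

theorem pair_hom_eq_zero (a : Fin m) (Z : Type) [AddCommGroup Z] [Module (Lam k) Z]
    (f : (GCx.pair a Z).Mod C →ₗ[Alg C] Wc C) : f = 0 := by
  have h1 : ∀ z : Z, f (show (GCx.pair a Z).Mod C from (z, 0)) = 0 := fun z => by
    let x : Alg C := ⟨Pi.single a.castSucc 1, 0, 0⟩
    have hx : x • (show (GCx.pair a Z).Mod C from (z, 0)) = (z, 0) := by
      rw [GCx.mod_smul]; erw [GCx.pair_act]
      simp [x]; rfl
    have := map_smul f x (show (GCx.pair a Z).Mod C from (z, 0))
    rw [hx] at this
    rw [this, wc_smul]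
    simp [x, (Fin.castSucc_ne_last a).symm]
    exact zero_mul (M₀ := k) _
  have h2 : ∀ w : Z, f (show (GCx.pair a Z).Mod C from (0, w)) = 0 := fun w => by
    let x : Alg C := ⟨0, Pi.single a 1, 0⟩
    have hx : x • (show (GCx.pair a Z).Mod C from (w, 0)) = (0, w) := by
      rw [GCx.mod_smul]; erw [GCx.pair_act]
      simp [x]; rfl
    have := map_smul f x (show (GCx.pair a Z).Mod C from (w, 0))
    rw [hx, h1] at this
    rw [this]; exact smul_zero _
  refine LinearMap.ext fun p => ?_
  have hp : p = (show (GCx.pair a Z).Mod C from (p.1, 0))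
      + (show (GCx.pair a Z).Mod C from (0, p.2)) :=
    Prod.ext (add_zero _).symm (zero_add _).symm
  rw [hp, map_add, h1, h2]
  exact add_zero _

section TW

variable (Z : Type) [AddCommGroup Z] [Module (Lam k) Z]

theorem tz_hom_incl (f : TZ C Z →ₗ[Alg C] Wc C) (y : C.FZ Z) :
    f (show TZ C Z from (0, y)) = 0 := by
  classical
  let nn : C.ι → C.FZ (Lam k) := fun l => ⟨fun i => C.θ 1 i l, by
    show C.mv (Lam k) (C.θ 1) _ = _
    funext i
    rw [C.mv_apply]
    conv_rhs => rw [← one_mul (1 : Lam k), C.θ_mul, Matrix.mul_apply]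
    rfl⟩
  have hy : (show TZ C Z from (0, y))
      = ∑ l, (⟨0, 0, nn l⟩ : Alg C) • (show TZ C Z from (y.1 l, 0)) := by
    refine Prod.ext ?_ ?_
    · refine Eq.trans ?_ (map_sum (AddMonoidHom.fst Z (C.FZ Z)) _ _).symm
      refine (Finset.sum_eq_zero fun l _ => ?_).symm
      exact zero_smul (Lam k) (y.1 l)
    · refine Eq.trans ?_ (map_sum (AddMonoidHom.snd Z (C.FZ Z)) _ _).symm
      refine Subtype.ext (funext fun i => ?_)
      conv_lhs => rw [← y.2]
      rw [C.mv_apply, AddSubgroup.val_finsetSum, Finset.sum_apply]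
      refine Finset.sum_congr rfl fun l _ => ?_
      show C.θ 1 i l • y.1 l
        = (C.zact Z 0 0 (0 : C.FZ Z) + C.star (y.1 l) (nn l) : C.FZ Z).1 i
      erw [map_zero, zero_add]
      rfl
  rw [hy, map_sum]
  refine Finset.sum_eq_zero fun l _ => ?_
  rw [map_smul, wc_smul]
  exact zero_mul (M₀ := k) _

theorem tz_hom_factor (f : TZ C Z →ₗ[Alg C] Wc C) :
    ∃ g : (GCx.single (Fin.last m) Z).Mod C →ₗ[Alg C] Wc C, g ∘ₗ tproj C Z = f := by
  have key : ∀ p : TZ C Z, f p = f (show TZ C Z from (p.1, 0)) := fun p => by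
    have hp : p = (show TZ C Z from (p.1, 0)) + (show TZ C Z from (0, p.2)) :=
      Prod.ext (add_zero _).symm (zero_add _).symm
    conv_lhs => rw [hp, map_add, tz_hom_incl]
    exact add_zero _
  refine ⟨{ toFun := fun z => f (show TZ C Z from (z, 0))
            map_add' := fun z w => ?_
            map_smul' := fun x z => ?_ }, LinearMap.ext fun p => (key p).symm⟩
  · rw [← map_add]
    congr 1
    exact Prod.ext rfl (add_zero (0 : C.FZ Z)).symm
  · rw [RingHom.id_apply, ← map_smul, key (x • _)]
    have : (x • z : (GCx.single (Fin.last m) Z).Mod C) = x.b (Fin.last m) • (show Z from z) :=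
      GCx.single_act (Fin.last m) Z x.b x.δ z
    rw [this]
    rfl

theorem eps_smul_apply (modk : Module k Z)
    (hsm : ∀ (r : k) (z : Z), modk.toSMul.smul r z = algebraMap k (Lam k) r • z)
    (h : Z →ₗ[k] k) (c : Lam k) (y : Z) :
    h ((Lam.eps 0 : Lam k) • c • y) = c.d 0 * h ((Lam.eps 0 : Lam k) • y) := by
  rw [← smul_eq_mul, ← map_smul]
  refine congrArg h ?_
  show _ = modk.toSMul.smul (c.d 0) _
  rw [hsm, ← mul_smul, ← mul_smul, ← Algebra.smul_def]
  congr 1
  ext1 <;> simp [Lam.eps]
  funext i; fin_cases i <;> simp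

theorem exists_hom_ne_zero (z : Z) (hz : (Lam.eps 0 : Lam k) • z ≠ 0) :
    ∃ g : (GCx.single (Fin.last m) Z).Mod C →ₗ[Alg C] Wc C, g ≠ 0 := by
  let modk : Module k Z := Module.compHom Z (algebraMap k (Lam k))
  have : Module.Projective k Z := inferInstance
  obtain ⟨h, hh⟩ : ∃ h : Z →ₗ[k] k, h ((Lam.eps 0 : Lam k) • z) ≠ 0 := by
    by_contra hcon
    push Not at hcon
    exact hz ((Module.forall_dual_apply_eq_zero_iff k _).1 hcon)
  refine ⟨{ toFun := fun y => h ((Lam.eps 0 : Lam k) • (show Z from y))
            map_add' := fun y y' =>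
              (congrArg h (smul_add (Lam.eps 0 : Lam k) (show Z from y) (show Z from y'))).trans
                (map_add h _ _)
            map_smul' := fun x y => ?_ }, fun h0 => hh ?_⟩
  · exact (congrArg (fun w : Z => h ((Lam.eps 0 : Lam k) • w))
      (GCx.single_act (Fin.last m) Z x.b x.δ y)).trans
        (eps_smul_apply Z modk (fun _ _ => rfl) h (x.b (Fin.last m)) y)
  · exact LinearMap.congr_fun h0 (show (GCx.single (Fin.last m) Z).Mod C from z)

theorem tz_hom_extend {Z' : Type} [AddCommGroup Z'] [Module (Lam k) Z'] (i : Z →ₗ[Lam k] Z')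
    (hi : Function.Injective i) (f : TZ C Z →ₗ[Alg C] Wc C) :
    ∃ g : TZ C Z' →ₗ[Alg C] Wc C, g ∘ₗ tmap C i = f := by
  obtain ⟨f', hf'⟩ := tz_hom_factor C Z f
  let modk : Module k Z := Module.compHom Z (algebraMap k (Lam k))
  let modk' : Module k Z' := Module.compHom Z' (algebraMap k (Lam k))
  let ik : Z →ₗ[k] Z' := { toFun := i, map_add' := map_add i, map_smul' := fun r z => map_smul i _ z }
  let fk : Z →ₗ[k] k :=
    { toFun := fun z => f' (show (GCx.single (Fin.last m) Z).Mod C from z)
      map_add' := fun z w => map_add f' _ _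
      map_smul' := fun r z => by
        have hs : (Alg.diag (algebraMap k (Lam k) r) : Alg C)
            • (show (GCx.single (Fin.last m) Z).Mod C from z) = (r • z : Z) :=
          GCx.diag_smul C (GCx.single (Fin.last m) Z) (algebraMap k (Lam k) r) z
        rw [RingHom.id_apply, ← hs, map_smul, wc_smul]
        simp [Alg.diag_b, Algebra.algebraMap_eq_smul_one]
        rfl }
  obtain ⟨ik', hik⟩ := ik.exists_leftInverse_of_injective (LinearMap.ker_eq_bot.2 hi)
  let gk : Z' →ₗ[k] k := fk ∘ₗ ik'
  refine ⟨{ toFun := fun p => gk ((Lam.eps 0 : Lam k) • p.1)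
            map_add' := fun p q =>
              (congrArg gk (smul_add (Lam.eps 0 : Lam k) p.1 q.1)).trans (map_add gk _ _)
            map_smul' := fun x p => ?_ }, LinearMap.ext fun p => ?_⟩
  · exact eps_smul_apply Z' modk' (fun _ _ => rfl) gk (x.b (Fin.last m)) p.1
  · refine Eq.trans ?_ (LinearMap.congr_fun hf' p)
    obtain ⟨z, y⟩ := p
    show fk (ik' ((Lam.eps 0 : Lam k) • i z)) = f' z
    have h1 : ik' ((Lam.eps 0 : Lam k) • i z) = (Lam.eps 0 : Lam k) • z := by
      rw [← map_smul]; exact LinearMap.congr_fun hik _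
    rw [h1]
    let x : Alg C := ⟨Pi.single (Fin.last m) (Lam.eps 0), 0, 0⟩
    have hx : x • (show (GCx.single (Fin.last m) Z).Mod C from z)
        = ((Lam.eps 0 : Lam k) • z : Z) := by
      rw [GCx.mod_smul]; erw [GCx.single_act]; simp [x]; rfl
    show f' _ = f' _
    rw [← hx, map_smul, wc_smul]
    simp [x, Lam.eps]
    exact one_mul (M := k) _

end TW

end Vale.Agent.P176
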