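import Vale.Agent.P176.Category

/-!
In the Verdier quotient the first vertex carries an action of the counter relations, compatible
with the evaluations at all counter representations.
-/

namespace Vale.Agent.P176

open CategoryTheory Limits Pretriangulated ZeroObject

set_option linter.unusedSimpArgs false
set_option linter.unusedSectionVars false

variable {k : Type} [Field k]

/-- The arrows from vertex `0` to vertex `1`. -/
def uArr (g : Gen) : (⟨0⟩ : Vx k) ⟶ ⟨1⟩ :=
  ⟨Lam.arrU g, by
    show Lam.eps 1 * Lam.arrU g * Lam.eps 0 = Lam.arrU g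
    ext1 <;> simp [Lam.eps, Lam.arrU]⟩

/-- The arrows from vertex `1` to vertex `2`. -/
def vArr (g : Gen) : (⟨1⟩ : Vx k) ⟶ ⟨2⟩ :=
  ⟨Lam.arrV g, by
    show Lam.eps 2 * Lam.arrV g * Lam.eps 1 = Lam.arrV g
    ext1 <;> simp [Lam.eps, Lam.arrV]⟩

/-- The inclusion of a path group, additively. -/
def homVal (v w : Vx k) : (v ⟶ w) →+ Lam k := (homGrp v w).subtype

theorem homVal_apply {v w : Vx k} (f : v ⟶ w) : homVal v w f = f.1 := rfl

theorem Lam.arrV_mul_arrU (g h : Gen) :
    (Lam.arrV g * Lam.arrU h : Lam k) = ⟨0, 0, 0, fun p => (nf g h p : k)⟩ := by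
  ext1
  · simp [Lam.arrV, Lam.arrU]
  · simp [Lam.arrV, Lam.arrU]
  · simp [Lam.arrV, Lam.arrU]
  · funext p
    simp [Lam.arrV, Lam.arrU, Lam.mu, Pi.single_apply, ite_mul, Finset.sum_ite_eq']

theorem quad_rel (g h : Gen) :
    (uArr h ≫ vArr g : (⟨0⟩ : Vx k) ⟶ ⟨2⟩)
      = ∑ p : Gen × Gen, nf g h p • (uArr p.2 ≫ vArr p.1) := by
  have hext : ∀ (v w : Vx k) (a b : v ⟶ w), homVal v w a = homVal v w b → a = b :=
    fun _ _ a b h => Subtype.ext h
  refine hext _ _ _ _ ?_
  rw [map_sum]
  simp only [map_zsmul, homVal_apply, vx_comp_val]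
  show Lam.arrV g * Lam.arrU h = ∑ p, nf g h p • (Lam.arrV p.1 * Lam.arrU p.2)
  have key : ∀ p : Gen × Gen, nf g h p • (Lam.arrV p.1 * Lam.arrU p.2 : Lam k)
      = (nf g h p : k) • Lam.arrW p := by
    intro p
    rw [Int.cast_smul_eq_zsmul]
    by_cases hp : Pivot p.1 p.2
    · rw [show nf g h p = 0 from nf_pivot_eq_zero g h p.1 p.2 hp, zero_smul, zero_smul]
    · rw [Lam.arrV_mul_arrU, not_not.1 hp]
      congr 1
      refine Lam.ext rfl rfl rfl ?_
      funext q
      simp [Lam.arrW, Pi.single_apply]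
  rw [Lam.arrV_mul_arrU, Finset.sum_congr rfl fun p _ => key p]
  have hcoord : ∀ (π : Lam k →ₗ[k] (Gen × Gen → k)),
      π (∑ p, (nf g h p : k) • Lam.arrW p) = ∑ p, (nf g h p : k) • π (Lam.arrW p) := fun π => by
    rw [map_sum]; simp
  have hlin : ∀ x : Lam k, Lam.linEquiv x = (x.d, x.u, x.v, x.w) := fun _ => rfl
  refine (Lam.linEquiv (k := k)).injective ?_
  rw [map_sum]
  simp only [map_smul]
  refine Prod.ext ?_ (Prod.ext ?_ (Prod.ext ?_ ?_)) <;>
    simp only [Prod.fst_sum, Prod.snd_sum, Prod.smul_fst, Prod.smul_snd]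
  all_goals funext q
  all_goals simp [hlin, Lam.arrW, Pi.single_apply, Finset.sum_apply]

/-- The embedding of vertices as one-term complexes in the bounded homotopy category. -/
noncomputable def Pf (k : Type) [Field k] : Vx k ⥤ KB k :=
  (bd k).lift
    (Mat_.embedding (Vx k) ⋙ HomologicalComplex.single _ (ComplexShape.up ℤ) 0 ⋙
      HomotopyCategory.quotient _ _)
    (fun v => ⟨(HomologicalComplex.single _ (ComplexShape.up ℤ) 0).obj
        ((Mat_.embedding (Vx k)).obj v),
      ⟨0, 0, fun i hi => HomologicalComplex.isZero_single_obj_X _ 0 _ i (by omega)⟩,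
      ⟨Iso.refl _⟩⟩)

instance : (Pf k).Additive where
  map_add {X Y f g} := ObjectProperty.hom_ext _
    ((Mat_.embedding (Vx k) ⋙ HomologicalComplex.single _ (ComplexShape.up ℤ) 0 ⋙
      HomotopyCategory.quotient _ _).map_add)

namespace Rep

variable (R : Rep k)

/-- Evaluation of the embedding of a vertex. -/
noncomputable def embEvIso : Mat_.embedding (Vx k) ⋙ R.evM ≅ R.evC :=
  NatIso.ofComponents (fun _ => (LinearEquiv.funUnique PUnit k R.V).toModuleIso)
    (fun {v w} f => ModuleCat.hom_ext (LinearMap.ext fun z => by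
      show (R.evM.map ((Mat_.embedding (Vx k)).map f)).hom z PUnit.unit
        = R.comp v.v w.v f.1 (z PUnit.unit)
      erw [R.evM_map_apply]
      exact (Finset.sum_eq_single PUnit.unit (fun b _ hb => absurd rfl hb)
        (fun h => absurd (Finset.mem_univ _) h)).trans rfl))

/-- The evaluated one-term complexes. -/
noncomputable def pfEvIso : Pf k ⋙ (bd k).ι ⋙ R.evM.mapHomotopyCategory (ComplexShape.up ℤ) ≅
    R.evC ⋙ HomologicalComplex.single _ (ComplexShape.up ℤ) 0 ⋙ HomotopyCategory.quotient _ _ :=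
  Functor.isoWhiskerLeft
      (Mat_.embedding (Vx k) ⋙ HomologicalComplex.single _ (ComplexShape.up ℤ) 0)
      (R.evM.mapHomotopyCategoryFactors (ComplexShape.up ℤ)) ≪≫
    Functor.isoWhiskerRight
      (Functor.isoWhiskerLeft (Mat_.embedding (Vx k))
        (HomologicalComplex.singleMapHomologicalComplex R.evM (ComplexShape.up ℤ) 0) ≪≫
        Functor.isoWhiskerRight R.embEvIso (HomologicalComplex.single _ (ComplexShape.up ℤ) 0))
      (HomotopyCategory.quotient _ _)

/-- Degree zero homology of the evaluated one-term complexes. -/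
noncomputable def pfHIso : Pf k ⋙ R.hFun ≅ R.evC :=
  Functor.isoWhiskerRight R.pfEvIso
      (HomotopyCategory.homologyFunctor (ModuleCat.{0} k) (ComplexShape.up ℤ) 0) ≪≫
    Functor.isoWhiskerLeft (R.evC ⋙ HomologicalComplex.single _ (ComplexShape.up ℤ) 0)
      (HomotopyCategory.homologyFunctorFactors (ModuleCat.{0} k) (ComplexShape.up ℤ) 0) ≪≫
    Functor.isoWhiskerLeft R.evC (HomologicalComplex.homologyFunctorSingleIso _ _ 0)

/-- Shifted degree zero homology is the homology in that degree. -/
noncomputable def hShiftIso (j : ℤ) :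
    shiftFunctor (KB k) j ⋙ R.hFun ≅
      ((bd k).ι ⋙ R.evM.mapHomotopyCategory (ComplexShape.up ℤ)) ⋙
        HomotopyCategory.homologyFunctor (ModuleCat.{0} k) (ComplexShape.up ℤ) j :=
  Functor.isoWhiskerRight
      (((bd k).ι ⋙ R.evM.mapHomotopyCategory (ComplexShape.up ℤ)).commShiftIso j)
      (HomotopyCategory.homologyFunctor (ModuleCat.{0} k) (ComplexShape.up ℤ) 0) ≪≫
    Functor.isoWhiskerLeft ((bd k).ι ⋙ R.evM.mapHomotopyCategory (ComplexShape.up ℤ))
      ((HomotopyCategory.homologyFunctor (ModuleCat.{0} k) (ComplexShape.up ℤ) 0).shiftIso j 0 j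
        (add_zero j))

theorem isZero_hFun_shift (v : Vx k) (j : ℤ) (hj : j ≠ 0) :
    IsZero (R.hFun.obj (((Pf k).obj v)⟦j⟧)) := by
  refine IsZero.of_iso ?_ ((R.hShiftIso j).app _)
  refine IsZero.of_iso ?_
    ((HomotopyCategory.homologyFunctor (ModuleCat.{0} k) (ComplexShape.up ℤ) j).mapIso
      (R.pfEvIso.app v) ≪≫
      (HomotopyCategory.homologyFunctorFactors (ModuleCat.{0} k) (ComplexShape.up ℤ) j).app _)
  exact HomologicalComplex.isZero_single_obj_homology _ _ _ j hj

theorem isIso_ev_pf {v w : Vx k} (f : v ⟶ w) [IsIso (R.evC.map f)] :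
    IsIso ((((bd k).ι ⋙ R.evM.mapHomotopyCategory (ComplexShape.up ℤ))).map ((Pf k).map f)) := by
  have : IsIso ((R.evC ⋙ HomologicalComplex.single _ (ComplexShape.up ℤ) 0 ⋙
      HomotopyCategory.quotient _ _).map f) := by
    dsimp only [Functor.comp_map]; infer_instance
  exact (NatIso.isIso_map_iff R.pfEvIso f).2 this

end Rep

variable [CharZero k]

theorem acyc_trW_of (X Y : KB k) (f : X ⟶ Y)
    (hf : ∀ n, IsIso (((bd k).ι ⋙
      (counterRep k n).evM.mapHomotopyCategory (ComplexShape.up ℤ)).map f)) :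
    (acyc k).trW f := by
  obtain ⟨Z, g, h, hT⟩ := distinguished_cocone_triangle f
  refine ((acyc k).trW_iff_of_distinguished _ hT).2 fun n => ?_
  let F := (bd k).ι ⋙ (counterRep k n).evM.mapHomotopyCategory (ComplexShape.up ℤ)
  have hz : IsZero (F.obj Z) := by
    have := hf n
    exact Triangle.isZero₃_of_isIso₁ _ (F.map_distinguished _ hT)
      (show IsIso (F.map f) from this)
  intro j
  exact (HomotopyCategory.homologyFunctor (ModuleCat.{0} k) (ComplexShape.up ℤ) 0).map_isZero
    (IsZero.of_iso ((shiftFunctor _ j).map_isZero hz) ((F.commShiftIso j).app Z))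

/-- The vertices in the quotient. -/
noncomputable abbrev Lq (k : Type) [Field k] [CharZero k] : Vx k ⥤ TT k := Pf k ⋙ QT k

theorem isIso_unit_u : IsIso ((Lq k).map (uArr .one)) := by
  refine Localization.inverts (QT k) (acyc k).trW _ (acyc_trW_of _ _ _ fun n => ?_)
  have : IsIso ((counterRep k n).evC.map (uArr (k := k) .one)) := by
    refine (ConcreteCategory.isIso_iff_bijective _).2 ?_
    show Function.Bijective ((counterRep k n).comp _ _ (uArr (k := k) .one).1)
    rw [show (counterRep k n).comp _ _ (uArr (k := k) .one).1 = (counterRep k n).x .one from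
      (counterRep k n).comp_arrU .one]
    exact Function.bijective_id
  exact (counterRep k n).isIso_ev_pf _

theorem isIso_unit_v : IsIso ((Lq k).map (vArr .one)) := by
  refine Localization.inverts (QT k) (acyc k).trW _ (acyc_trW_of _ _ _ fun n => ?_)
  have : IsIso ((counterRep k n).evC.map (vArr (k := k) .one)) := by
    refine (ConcreteCategory.isIso_iff_bijective _).2 ?_
    show Function.Bijective ((counterRep k n).comp _ _ (vArr (k := k) .one).1)
    rw [show (counterRep k n).comp _ _ (vArr (k := k) .one).1 = (counterRep k n).x .one from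
      (counterRep k n).comp_arrV .one]
    exact Function.bijective_id
  exact (counterRep k n).isIso_ev_pf _

attribute [local instance] isIso_unit_u isIso_unit_v

variable (k) in
/-- The first vertex in the quotient. -/
noncomputable abbrev PP : TT k := (Lq k).obj ⟨0⟩

variable (k) in
/-- The generators acting on the first vertex. -/
noncomputable def gam (g : Gen) : End (PP k) :=
  (Lq k).map (uArr g) ≫ inv ((Lq k).map (uArr .one))

theorem gam_crel : CRel (gam k) := by
  have hu : ∀ g, (Lq k).map (uArr (k := k) g) = gam k g ≫ (Lq k).map (uArr .one) := fun g => by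
    simp [gam]
  have h1 : gam k .one = 1 := IsIso.hom_inv_id _
  have hq : ∀ g h, (Lq k).map (uArr (k := k) h) ≫ (Lq k).map (vArr g)
      = ∑ p : Gen × Gen, nf g h p • ((Lq k).map (uArr p.2) ≫ (Lq k).map (vArr p.1)) := fun g h => by
    rw [← Functor.map_comp, quad_rel g h, Functor.map_sum]
    refine Finset.sum_congr rfl fun p _ => ?_
    rw [Functor.map_zsmul, Functor.map_comp]
  have hv : ∀ g, (Lq k).map (vArr (k := k) g)
      = inv ((Lq k).map (uArr .one)) ≫ (Lq k).map (uArr g) ≫ (Lq k).map (vArr .one) := fun g => by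
    rw [IsIso.eq_inv_comp]
    cases g with
    | one => rfl
    | _ =>
      refine Eq.symm ((hq .one _).trans ?_)
      simp [nf, Pi.single_apply, ite_smul]
  let τ := (Lq k).map (uArr .one) ≫ (Lq k).map (vArr .one)
  have hτ : ∀ g h, (Lq k).map (uArr (k := k) h) ≫ (Lq k).map (vArr g)
      = (gam k h ≫ gam k g) ≫ τ := fun g h => by
    rw [hv g, hu h, hu g]
    simp [τ, Category.assoc]
  have key : ∀ g h, gam k g * gam k h
      = ∑ p : Gen × Gen, nf g h p • (gam k p.1 * gam k p.2) := fun g h => by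
    have := hq g h
    simp only [hτ, ← Linear.smul_comp (R := ℤ), ← Preadditive.sum_comp] at this
    show gam k h ≫ gam k g = ∑ p : Gen × Gen, nf g h p • (gam k p.2 ≫ gam k p.1)
    simpa [Preadditive.zsmul_comp] using (cancel_mono τ).1 this
  have single : ∀ (q : Gen × Gen),
      ∑ p : Gen × Gen, (Pi.single q (1 : ℤ) : Gen × Gen → ℤ) p • (gam k p.1 * gam k p.2)
        = gam k q.1 * gam k q.2 := fun q => by simp [Pi.single_apply, ite_smul]
  refine ⟨h1, ?_, ?_, ?_, ?_, ?_, ?_, ?_, ?_, ?_, ?_⟩ <;>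
    · rw [key]
      simp only [nf, single, Pi.add_apply, Pi.sub_apply, add_smul, sub_smul,
        Finset.sum_add_distrib, Finset.sum_sub_distrib, h1, mul_one]

theorem acyc_inverts (n : ℕ) : (acyc k).trW.IsInvertedBy (counterRep k n).hFun := by
  intro X Y f hf
  let _ := Functor.ShiftSequence.tautological (counterRep k n).hFun ℤ
  have h0 := ((counterRep k n).hFun.mem_homologicalKernel_trW_iff f).1
    (ObjectProperty.trW_monotone (acyc_le n) _ hf) 0
  exact (NatIso.isIso_map_iff ((counterRep k n).hFun.isoShiftZero ℤ) f).1 h0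

/-- Evaluated homology on the quotient. -/
noncomputable def GT (n : ℕ) : TT k ⥤ ModuleCat.{0} k :=
  Localization.lift (counterRep k n).hFun (acyc_inverts n) (QT k)

/-- The evaluated homology factors. -/
noncomputable def gtIso (n : ℕ) : QT k ⋙ GT n ≅ (counterRep k n).hFun :=
  Localization.fac _ (acyc_inverts n) (QT k)

instance (n : ℕ) : (GT (k := k) n).IsHomological := by
  have : (QT k).mapArrow.EssSurj := Localization.essSurj_mapArrow (QT k) (acyc k).trW
  exact Functor.isHomological_of_localization (QT k) (GT n) _ (gtIso n)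

/-- The value at the vertices. -/
noncomputable def lqIso (n : ℕ) : Lq k ⋙ GT n ≅ (counterRep k n).evC :=
  Functor.isoWhiskerLeft (Pf k) (gtIso n) ≪≫ (counterRep k n).pfHIso

/-- The value at the first vertex. -/
noncomputable def kap (n : ℕ) : (GT (k := k) n).obj (PP k) ≅ ModuleCat.of k (Fin n → k) :=
  (lqIso n).app ⟨0⟩

/-- The value at the second vertex. -/
noncomputable def kap1 (n : ℕ) :
    (GT (k := k) n).obj ((Lq k).obj ⟨1⟩) ≅ ModuleCat.of k (Fin n → k) :=
  (lqIso n).app ⟨1⟩

theorem kap_gam (n : ℕ) (g : Gen) :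
    (GT n).map (gam k g) ≫ (kap n).hom = (kap n).hom ≫ ModuleCat.ofHom (rep k n g) := by
  have hnat : ∀ g, (GT n).map ((Lq k).map (uArr (k := k) g)) ≫ (kap1 n).hom
      = (kap n).hom ≫ ModuleCat.ofHom (rep k n g) := fun g => by
    refine ((lqIso n).hom.naturality (uArr g)).trans ?_
    congr 1
    exact ModuleCat.hom_ext ((counterRep k n).comp_arrU g)
  have h1 : (GT n).map ((Lq k).map (uArr (k := k) .one)) ≫ (kap1 n).hom
      = (kap n).hom := by
    rw [hnat]
    exact Category.comp_id _
  have hinv : (GT n).map (inv ((Lq k).map (uArr (k := k) .one))) ≫ (kap n).hom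
      = (kap1 n).hom := by
    rw [← h1, ← Category.assoc, ← Functor.map_comp, IsIso.inv_hom_id, CategoryTheory.Functor.map_id,
      Category.id_comp]
  rw [gam, Functor.map_comp, Category.assoc, hinv, hnat]

theorem isZero_GT_shift (n : ℕ) (j : ℤ) (hj : j ≠ 0) :
    IsZero ((GT (k := k) n).obj ((PP k)⟦j⟧)) :=
  IsZero.of_iso ((counterRep k n).isZero_hFun_shift ⟨0⟩ j hj)
    ((GT n).mapIso (((QT k).commShiftIso j).app ((Pf k).obj ⟨0⟩)).symm ≪≫ (gtIso n).app _)

end Vale.Agent.P176
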